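import Vale.Agent.P322W.CertC

namespace Vale.Agent.P322W

open Real Set
open Vale.Agent.P322 hiding psi
open Vale.Agent.P322V

/-- The target function of the mean: `W(m) = (1-ρ²) ψ(m) + (ψ(ρ) - (1-ρ²) log 2) (1 - m²)`. -/
noncomputable def WW (ρ m : ℝ) : ℝ :=
  (1 - ρ ^ 2) * psi m + (psi ρ - (1 - ρ ^ 2) * Real.log 2) * (1 - m ^ 2)

lemma WW_neg (ρ m : ℝ) : WW ρ (-m) = WW ρ m := by
  unfold WW
  rw [psi_neg]
  ring

lemma WW_one (ρ : ℝ) : WW ρ 1 = 0 := by
  unfold WW
  rw [psi_one]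
  ring

lemma WW_zero (ρ : ℝ) : WW ρ 0 = psi ρ := by
  unfold WW
  rw [psi_zero]
  ring

/-- `x²/2 ≤ del x`. -/
lemma sq_half_le_del {m : ℝ} (hm : |m| ≤ 1) : m ^ 2 / 2 ≤ del m := by
  have hpos : ∀ {z : ℝ}, 0 ≤ z → z ≤ 1 → z ^ 2 / 2 ≤ del z := by
    intro z hz0 hz1
    -- use `D_mul_le`-free argument: monotonicity of `del z - z²/2`
    have hle : ∀ w ∈ Set.Ioo (0 : ℝ) z, 0 ≤ ath w - w := by
      intro w hw
      have hw1 : w < 1 := lt_of_lt_of_le hw.2 hz1
      have hmono : ∀ x ∈ Ioo (0 : ℝ) w, 0 ≤ 1 / (1 - x ^ 2) - 1 := by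
        intro x hx
        have hx2 : 0 < 1 - x ^ 2 := by nlinarith [hx.1, hx.2]
        have hx3 : 1 - x ^ 2 ≤ 1 := by nlinarith [sq_nonneg x]
        have : 1 ≤ 1 / (1 - x ^ 2) := by
          rw [le_div_iff₀ hx2]
          linarith
        linarith
      have h := mono_Icc (f := fun v => ath v - v) (f' := fun x => 1 / (1 - x ^ 2) - 1) hw.1.le
        (fun y hy => by
          have hy' : |y| < 1 := by
            rw [abs_lt]
            constructor <;> linarith [hy.1, hy.2]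
          exact (((hasDerivAt_ath hy').sub (hasDerivAt_id' y)).continuousAt).continuousWithinAt)
        (fun y hy => by
          have hy' : |y| < 1 := by
            rw [abs_lt]
            constructor <;> linarith [hy.1, hy.2]
          exact (hasDerivAt_ath hy').sub (hasDerivAt_id' y))
        hmono
      simpa [ath_zero] using h
    have h := mono_Icc (f := fun v => del v - v ^ 2 / 2) (f' := fun x => ath x - x) hz0
      (Continuous.continuousOn (by
        have := continuous_del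
        fun_prop))
      (fun y hy => by
        have hy' : |y| < 1 := by
          rw [abs_lt]
          constructor <;> linarith [hy.1, hy.2]
        have h2 : HasDerivAt (fun v : ℝ => v ^ 2 / 2) y y := by
          have := (hasDerivAt_pow 2 y).div_const 2
          simpa using this
        exact (hasDerivAt_del hy').sub h2)
      hle
    simp only [del_zero] at h
    norm_num at h
    linarith
  rcases le_total 0 m with h | h
  · exact hpos h (abs_le.1 hm).2
  · have := hpos (z := -m) (by linarith) (by linarith [(abs_le.1 hm).1])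
    have e : (-m) ^ 2 = m ^ 2 := by ring
    have e2 : del (-m) = del m := by
      unfold del
      rw [psi_neg]
    rwa [e, e2] at this

/-- The target dominates the Courtade-Kumar function. -/
lemma WW_ge_CK {ρ m : ℝ} (hρ0 : 0 < ρ) (hρ1 : ρ < 1) (hm : |m| ≤ 1) :
    psi ρ + psi m - Real.log 2 ≤ WW ρ m := by
  have h1 := sq_half_le_del hm
  have h2 := sq_half_le_del (m := ρ) (by rw [abs_of_pos hρ0]; exact hρ1.le)
  unfold del at h1 h2
  unfold WW
  have hl : Real.log 2 < 1 := by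
    have := Real.log_two_lt_d9
    linarith
  have hm2 : 0 ≤ m ^ 2 := sq_nonneg m
  have hr2 : 0 ≤ ρ ^ 2 := sq_nonneg ρ
  -- `W - CK = ρ² del m - e m²`, with `e ≤ ρ²/2`
  have he : psi ρ - (1 - ρ ^ 2) * Real.log 2 ≤ ρ ^ 2 / 2 := by nlinarith
  have h3 : (psi ρ - (1 - ρ ^ 2) * Real.log 2) * m ^ 2 ≤ ρ ^ 2 / 2 * m ^ 2 :=
    mul_le_mul_of_nonneg_right he hm2
  have h4 : ρ ^ 2 * (m ^ 2 / 2) ≤ ρ ^ 2 * (Real.log 2 - psi m) :=
    mul_le_mul_of_nonneg_left h1 hr2
  nlinarith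

/-- The key log estimate for the exponent bound. -/
lemma rho_sq_le_betaT {ρ A B : ℝ} (hρ0 : 0 < ρ) (hρ1 : ρ < 1) (hA : 0 ≤ A) (hB : 0 < B) (hB1 : B ≤ 1 / 2)
    (hAB : A + B ≤ 1) : ρ ^ 2 ≤ betaT ρ A B := by
  have hL1 := LA_pos hA hB (by linarith) hAB
  unfold betaT
  rw [le_div_iff₀ hL1]
  -- `S = (1+A)²`, `τ = B²`
  set S := (1 + A) ^ 2 with hS
  set τ := B ^ 2 with hτ
  have hτ0 : 0 < τ := by positivity
  have hv : 0 < S - τ := by rw [hS, hτ]; nlinarith
  have hS1 : 1 ≤ S := by rw [hS]; nlinarith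
  have hτ1 : τ ≤ 1 / 4 := by rw [hτ]; nlinarith
  have hv4 : S - τ ≤ 4 := by rw [hS, hτ]; nlinarith
  -- the key inequality `τ/(S-τ) ≤ log(4/(S-τ))`
  have hkey : τ / (S - τ) ≤ LA A B := by
    have e : LA A B = Real.log (4 / (S - τ)) := rfl
    rw [e]
    have h1 : 1 - (S - τ) / 4 ≤ Real.log (4 / (S - τ)) := by
      have hpos : 0 < 4 / (S - τ) := by positivity
      have := Real.one_sub_inv_le_log_of_pos hpos
      have e2 : (4 / (S - τ))⁻¹ = (S - τ) / 4 := by rw [inv_div]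
      rwa [e2] at this
    refine le_trans ?_ h1
    rw [div_le_iff₀ hv]
    -- `4τ ≤ v(4-v)`
    have hvB : S - τ ≤ 4 * (1 - B) := by rw [hS, hτ]; nlinarith
    have hvl : 1 - τ ≤ S - τ := by linarith
    have hquad : 4 * τ ≤ (S - τ) * (4 - (S - τ)) := by
      -- concave in `v`; check the endpoints
      have h1 : 4 * τ ≤ (1 - τ) * (4 - (1 - τ)) := by nlinarith
      have h2 : 4 * τ ≤ (4 * (1 - B)) * (4 - (4 * (1 - B))) := by
        rw [hτ]; nlinarith
      have hB14 : 0 < 4 * (1 - B) - (1 - τ) := by rw [hτ]; nlinarith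
      nlinarith [mul_nonneg (sub_nonneg.mpr hvl) (sub_nonneg.mpr hvB)]
    nlinarith
  -- monotonicity in `u = ρ²`
  have hu : ρ ^ 2 < 1 := by nlinarith
  have hu0 : 0 ≤ ρ ^ 2 := sq_nonneg ρ
  set G : ℝ → ℝ := fun u => Real.log 4 - Real.log (S - u * τ) - u * LA A B with hG
  have hpos : ∀ u, u ≤ 1 → 0 < S - u * τ := by
    intro u hu
    nlinarith
  have hder : ∀ u ∈ Ioo (ρ ^ 2) 1, HasDerivAt G (τ / (S - u * τ) - LA A B) u := by
    intro u hu'
    have d1 : HasDerivAt (fun u => S - u * τ) (-τ) u := by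
      have := ((hasDerivAt_id u).mul_const τ).const_sub S
      simpa using this
    have d2 := d1.log (hpos u hu'.2.le).ne'
    have d3 : HasDerivAt (fun u => u * LA A B) (LA A B) u := by
      simpa using (hasDerivAt_id u).mul_const (LA A B)
    have h := (d2.const_sub (Real.log 4)).sub d3
    have e : τ / (S - u * τ) - LA A B = -(-τ / (S - u * τ)) - LA A B := by ring
    rw [e]
    exact h
  have hcont : ContinuousOn G (Icc (ρ ^ 2) 1) := by
    intro u hu'
    have hne : S - u * τ ≠ 0 := (hpos u hu'.2).ne'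
    apply ContinuousAt.continuousWithinAt
    simp only [hG]
    have : ContinuousAt (fun u => Real.log (S - u * τ)) u :=
      ContinuousAt.log (by fun_prop) hne
    fun_prop
  have hanti := anti_Icc (f := G) (f' := fun u => τ / (S - u * τ) - LA A B) hu.le hcont hder (by
    intro u hu'
    have h1 : τ / (S - u * τ) ≤ τ / (S - τ) := by
      apply div_le_div_of_nonneg_left hτ0.le hv
      nlinarith [hu'.2]
    linarith)
  simp only [hG] at hanti
  have hv1 : Real.log 4 - Real.log (S - 1 * τ) - 1 * LA A B = 0 := by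
    have e : LA A B = Real.log (4 / (S - τ)) := rfl
    rw [e, Real.log_div (by norm_num) hv.ne', one_mul]
    ring
  rw [hv1] at hanti
  have e2 : LA A (ρ * B) = Real.log 4 - Real.log (S - ρ ^ 2 * τ) := by
    unfold LA
    have e3 : (1 + A) ^ 2 - (ρ * B) ^ 2 = S - ρ ^ 2 * τ := by
      rw [hS, hτ]; ring
    rw [e3, Real.log_div (by norm_num) (hpos _ hu.le).ne']
  rw [e2]
  linarith

/-- The closure quantity, in the normalization by `ρ²`. -/
noncomputable def VW (ρ A B : ℝ) : ℝ :=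
  (1 - betaT ρ A B) * (Phi A B - (psi ρ - (1 - ρ ^ 2) * Real.log 2) / ρ ^ 2 * (1 - A ^ 2 - B ^ 2))
    + ((psi A - Phi A B) - (psi A - Phi A (ρ * B)) / ρ ^ 2)
    - (psi ρ - (1 - ρ ^ 2) * Real.log 2) / ρ ^ 2 * B ^ 2

/-- The touching inequality for `W` is exactly `VW ≥ 0`. -/
lemma hS_of_VW {ρ A B : ℝ} (hρ0 : 0 < ρ) (hV : 0 ≤ VW ρ A B) :
    WW ρ A ≤ Phi A (ρ * B)
      + betaT ρ A B * ((WW ρ (A + B) + WW ρ (A - B)) / 2 - Phi A B) := by
  have hr : ρ ^ 2 ≠ 0 := by positivity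
  have hr0 : 0 < ρ ^ 2 := by positivity
  have h := mul_nonneg hr0.le hV
  unfold VW at h
  have e : ρ ^ 2 * ((1 - betaT ρ A B) * (Phi A B - (psi ρ - (1 - ρ ^ 2) * Real.log 2) / ρ ^ 2 * (1 - A ^ 2 - B ^ 2))
      + ((psi A - Phi A B) - (psi A - Phi A (ρ * B)) / ρ ^ 2)
      - (psi ρ - (1 - ρ ^ 2) * Real.log 2) / ρ ^ 2 * B ^ 2)
      = Phi A (ρ * B) + betaT ρ A B * ((WW ρ (A + B) + WW ρ (A - B)) / 2 - Phi A B) - WW ρ A := by
    unfold WW Phi
    field_simp
    ring
  rw [e] at h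
  linarith

/-- **Main reduction**: if the closure quantity is nonnegative on the step domain, then the
target `W` bounds the noise entropy from below, for all Boolean functions. -/
theorem WW_bound_of_VW {ρ t : ℝ} (hρ0 : 0 < ρ) (hρ1 : ρ < 1) (ht : Real.exp (-t) = ρ)
    (hV : ∀ A B : ℝ, 0 ≤ A → 0 < B → A + B ≤ 1 → StepDom A B → 0 ≤ VW ρ A B) :
    ∀ (n : ℕ) (F : (Fin n → Bool) → ℝ), (∀ x, F x = 1 ∨ F x = -1) →
      WW ρ (avg F) ≤ avg (fun y => psi (UU F t y)) := by
  refine bellman2 hρ1 ht (WW ρ) (WW_neg ρ) (by rw [WW_one]) (by rw [WW_zero]) ?_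
  intro A B hA hB hAB hdom
  rcases hB.eq_or_lt with rfl | hB0
  · exact planeStep_zero hρ0.le hρ1.le
  · have hB12 : B ≤ 1 / 2 := by
      rcases hdom with h | ⟨h, _⟩
      · linarith
      · exact h.le
    exact planeStep_of_touch hρ0 hρ1 hA hB0 (by linarith) hAB
      (rho_sq_le_betaT hρ0 hρ1 hA hB0 hB12 hAB) (hS_of_VW hρ0 (hV A B hA hB0 hAB hdom))

/-- Consequently the Courtade-Kumar inequality at this noise level. -/
theorem CK_of_VW {ρ t : ℝ} (hρ0 : 0 < ρ) (hρ1 : ρ < 1) (ht : Real.exp (-t) = ρ)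
    (hV : ∀ A B : ℝ, 0 ≤ A → 0 < B → A + B ≤ 1 → StepDom A B → 0 ≤ VW ρ A B)
    (n : ℕ) (F : (Fin n → Bool) → ℝ) (hF : ∀ x, F x = 1 ∨ F x = -1) :
    psi ρ + psi (avg F) - Real.log 2 ≤ avg (fun y => psi (UU F t y)) := by
  have h := WW_bound_of_VW hρ0 hρ1 ht hV n F hF
  have hm : |avg F| ≤ 1 := abs_avg_le_one (fun x => by rcases hF x with h | h <;> rw [h] <;> norm_num)
  exact (WW_ge_CK hρ0 hρ1 hm).trans h

end Vale.Agent.P322W
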