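import Vale.Agent.P322W.Coord2

namespace Vale.Agent.P322W

open Real Finset
open Vale.Agent.P322 hiding psi
open Vale.Agent.P322V

variable {n : ℕ}

/-- A function on the cube with values in `[-1,1]` and mean `1` is identically `1`. -/
lemma eq_one_of_avg {g : (Fin n → Bool) → ℝ} (hg : ∀ w, |g w| ≤ 1) (h : avg g = 1) (w) : g w = 1 := by
  have h0 : ∑ x, (1 - g x) = 0 := by
    have h2 : ∑ x, g x = 2 ^ n := by
      unfold avg at h
      have hp : (2 : ℝ) ^ n ≠ 0 := by positivity
      field_simp at h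
      linarith
    rw [Finset.sum_sub_distrib, h2]
    simp
  have h1 := (Finset.sum_eq_zero_iff_of_nonneg
    (fun x _ => by linarith [(abs_le.mp (hg x)).2])).mp h0 w (Finset.mem_univ w)
  linarith

/-- One step of the induction for an ordered pair of slices, through a plane certificate. -/
lemma step_pair {ρ : ℝ} (U : ℝ → ℝ) (a b : (Fin n → Bool) → ℝ) (ha : ∀ w, |a w| ≤ 1)
    (hb : ∀ w, |b w| ≤ 1) (k p q c : ℝ) (hc : 0 ≤ c)
    (hplane : ∀ s t : ℝ, |s| ≤ 1 → |t| ≤ 1 → ((avg a + avg b) / 2 + (avg a - avg b) / 2 = 1 → s = 1) →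
      k + p * ((s + t) / 2) + q * ((s - t) / 2) + c * ((psi s + psi t) / 2) ≤ pairY ρ s t)
    (hU : U ((avg a + avg b) / 2) ≤ k + p * ((avg a + avg b) / 2) + q * ((avg a - avg b) / 2)
      + c * ((U ((avg a + avg b) / 2 + (avg a - avg b) / 2)
        + U ((avg a + avg b) / 2 - (avg a - avg b) / 2)) / 2))
    (iha : U (avg a) ≤ avg (fun w => psi (a w))) (ihb : U (avg b) ≤ avg (fun w => psi (b w))) :
    U ((avg a + avg b) / 2) ≤ avg (fun w => pairY ρ (a w) (b w)) := by
  have e1 : (avg a + avg b) / 2 + (avg a - avg b) / 2 = avg a := by ring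
  have e2 : (avg a + avg b) / 2 - (avg a - avg b) / 2 = avg b := by ring
  rw [e1, e2] at hU
  have hpt : ∀ w, k + p * ((a w + b w) / 2) + q * ((a w - b w) / 2) + c * ((psi (a w) + psi (b w)) / 2)
      ≤ pairY ρ (a w) (b w) := by
    intro w
    refine hplane _ _ (ha w) (hb w) ?_
    rw [e1]
    exact fun h => eq_one_of_avg ha h w
  have h2 := avg_le_avg hpt
  have e3 : avg (fun w => k + p * ((a w + b w) / 2) + q * ((a w - b w) / 2)
        + c * ((psi (a w) + psi (b w)) / 2))
      = k + p * ((avg a + avg b) / 2) + q * ((avg a - avg b) / 2)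
        + c * ((avg (fun w => psi (a w)) + avg (fun w => psi (b w))) / 2) := by
    rw [avg_add, avg_add, avg_add, avg_const, avg_mul_left, avg_mul_left, avg_mul_left, avg_div_two,
      avg_div_two, avg_div_two, avg_add, avg_sub, avg_add]
  rw [e3] at h2
  have h3 : c * ((U (avg a) + U (avg b)) / 2)
      ≤ c * ((avg (fun w => psi (a w)) + avg (fun w => psi (b w))) / 2) :=
    mul_le_mul_of_nonneg_left (by linarith) hc
  linarith

/-- `UU` of a negated function. -/
lemma UU_neg (F : (Fin n → Bool) → ℝ) (t : ℝ) (y : Fin n → Bool) :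
    UU (fun x => - F x) t y = - UU F t y := by
  unfold UU
  rw [← Finset.sum_neg_distrib]
  exact Finset.sum_congr rfl (fun x _ => by ring)

lemma avg_neg' (g : (Fin n → Bool) → ℝ) : avg (fun x => - g x) = - avg g := by
  unfold avg
  rw [Finset.sum_neg_distrib]
  ring

/-- The step domain: the coefficient bound of `exists_coord2`, after normalization `0 ≤ A`. -/
def StepDom (A B : ℝ) : Prop := B ≤ 3 / 8 ∨ (B = 1 / 2 ∧ (A = 0 ∨ A = 1 / 2))

/-- The plane-certificate step hypothesis at `(A, B)`. -/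
def PlaneStep (ρ : ℝ) (U : ℝ → ℝ) (A B : ℝ) : Prop :=
  ∃ k p q c : ℝ, 0 ≤ c ∧
    (∀ s t : ℝ, |s| ≤ 1 → |t| ≤ 1 → (A + B = 1 → s = 1) →
      k + p * ((s + t) / 2) + q * ((s - t) / 2) + c * ((psi s + psi t) / 2) ≤ pairY ρ s t) ∧
    U A ≤ k + p * A + q * B + c * ((U (A + B) + U (A - B)) / 2)

/-- The inductive step, for a function of nonnegative mean. -/
lemma step_nonneg {ρ t : ℝ} (hρ1 : ρ < 1) (ht : Real.exp (-t) = ρ) (U : ℝ → ℝ)
    (hstep : ∀ A B : ℝ, 0 ≤ A → 0 ≤ B → A + B ≤ 1 → StepDom A B → PlaneStep ρ U A B)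
    {n : ℕ} (F : (Fin (n + 1) → Bool) → ℝ) (hF : ∀ x, F x = 1 ∨ F x = -1) (hA : 0 ≤ avg F)
    (i : Fin (n + 1)) (hdom : StepDom (avg F) |coef F i|)
    (ih : ∀ G : (Fin n → Bool) → ℝ, (∀ x, G x = 1 ∨ G x = -1) →
      U (avg G) ≤ avg (fun y => psi (UU G t y))) :
    U (avg F) ≤ avg (fun y => psi (UU F t y)) := by
  have ht0 : 0 < t := by
    have h1 : Real.exp (-t) < 1 := by rw [ht]; exact hρ1
    rw [Real.exp_lt_one_iff] at h1
    linarith
  set Fp : (Fin n → Bool) → ℝ := fun x => F (i.insertNth true x) with hFp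
  set Fm : (Fin n → Bool) → ℝ := fun x => F (i.insertNth false x) with hFm
  have hFpv : ∀ x, Fp x = 1 ∨ Fp x = -1 := fun x => hF _
  have hFmv : ∀ x, Fm x = 1 ∨ Fm x = -1 := fun x => hF _
  have hus := abs_UU_le_of_values hFpv ht0
  have hum := abs_UU_le_of_values hFmv ht0
  have hEA : avg F = (avg Fp + avg Fm) / 2 := avg_insertNth i F
  have hEB : coef F i = (avg Fp - avg Fm) / 2 := (coef_eq F i).symm
  rw [y_split ht F i]
  have iha := ih Fp hFpv
  have ihb := ih Fm hFmv
  have hm1 : |avg Fp| ≤ 1 := abs_avg_le_one (fun x => by rcases hFpv x with h | h <;> rw [h] <;> norm_num)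
  have hm2 : |avg Fm| ≤ 1 := abs_avg_le_one (fun x => by rcases hFmv x with h | h <;> rw [h] <;> norm_num)
  have h1 := abs_le.mp hm1
  have h2 := abs_le.mp hm2
  rcases le_total (avg Fm) (avg Fp) with hle | hle
  · have eB : |coef F i| = (avg Fp - avg Fm) / 2 := by
      rw [hEB]; exact abs_of_nonneg (by linarith)
    rw [eB] at hdom
    rw [hEA] at hA hdom ⊢
    obtain ⟨k, p, q, c, hc, hplane, hU⟩ := hstep _ _ hA (by linarith) (by linarith) hdom
    have h3 := step_pair (ρ := ρ) U (UU Fp t) (UU Fm t) hus hum k p q c hc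
      (by rw [avg_UU, avg_UU]; exact hplane) (by rw [avg_UU, avg_UU]; exact hU)
      (by rw [avg_UU]; exact iha) (by rw [avg_UU]; exact ihb)
    rw [avg_UU, avg_UU] at h3
    exact h3
  · have eB : |coef F i| = (avg Fm - avg Fp) / 2 := by
      rw [hEB, abs_of_nonpos (by linarith)]
      ring
    rw [eB] at hdom
    rw [hEA, add_comm (avg Fp)] at hA hdom ⊢
    obtain ⟨k, p, q, c, hc, hplane, hU⟩ := hstep _ _ hA (by linarith) (by linarith) hdom
    have h3 := step_pair (ρ := ρ) U (UU Fm t) (UU Fp t) hum hus k p q c hc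
      (by rw [avg_UU, avg_UU]; exact hplane) (by rw [avg_UU, avg_UU]; exact hU)
      (by rw [avg_UU]; exact ihb) (by rw [avg_UU]; exact iha)
    rw [avg_UU, avg_UU] at h3
    have e3 : (fun w => pairY ρ (UU Fm t w) (UU Fp t w))
        = (fun w => pairY ρ (UU Fp t w) (UU Fm t w)) := by
      funext w
      exact pairY_comm _ _ _
    rw [e3] at h3
    exact h3

/-- **Bellman induction with plane certificates**: an even function `U` of the mean with
`U 1 ≤ 0`, `U 0 ≤ ψ ρ` and the plane-certificate step on the domain of `exists_coord2`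
bounds the average entropy of the noised function from below. -/
theorem bellman2 {ρ t : ℝ} (hρ1 : ρ < 1) (ht : Real.exp (-t) = ρ) (U : ℝ → ℝ)
    (hUe : ∀ m, U (-m) = U m) (hU1 : U 1 ≤ 0) (hU0 : U 0 ≤ psi ρ)
    (hstep : ∀ A B : ℝ, 0 ≤ A → 0 ≤ B → A + B ≤ 1 → StepDom A B → PlaneStep ρ U A B) :
    ∀ (n : ℕ) (F : (Fin n → Bool) → ℝ), (∀ x, F x = 1 ∨ F x = -1) →
      U (avg F) ≤ avg (fun y => psi (UU F t y)) := by
  have hUm : U (-1) ≤ 0 := by rw [hUe]; exact hU1
  intro n
  induction n with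
  | zero => exact fun F hF => base_zero U hU1 hUm F hF
  | succ n ih =>
    intro F hF
    cases n with
    | zero => exact base_one ht U hU1 hUm hU0 F hF
    | succ m =>
      -- normalization: nonnegative mean
      have key : ∀ G : (Fin (m + 2) → Bool) → ℝ, (∀ x, G x = 1 ∨ G x = -1) → 0 ≤ avg G →
          U (avg G) ≤ avg (fun y => psi (UU G t y)) := by
        intro G hG hA
        obtain ⟨i, hi⟩ := exists_coord2 G hG
        refine step_nonneg hρ1 ht U hstep G hG hA i ?_ ih
        rcases hi with h | ⟨h1, h2⟩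
        · exact Or.inl h
        · refine Or.inr ⟨h1, ?_⟩
          rcases h2 with h | h | h
          · exact Or.inl h
          · exact Or.inr h
          · exfalso; rw [h] at hA; norm_num at hA
      rcases le_total 0 (avg F) with h | h
      · exact key F hF h
      · have h1 := key (fun x => - F x)
          (fun x => by rcases hF x with h | h <;> rw [h] <;> norm_num)
          (by rw [avg_neg']; linarith)
        rw [avg_neg', hUe] at h1
        have e : (fun y => psi (UU (fun x => - F x) t y)) = fun y => psi (UU F t y) := by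
          funext y
          rw [UU_neg, psi_neg]
        rwa [e] at h1

end Vale.Agent.P322W
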