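import Vale.Agent.P322W.Series
import Vale.Agent.P322W.Assembly

/-! `VW` of the assembly is the closure quantity `Vstar` of the series file. -/

namespace Vale.Agent.P322W

open Real
open Vale.Agent.P322V

/-- `chat` in closed form. -/
lemma chat_eq {ρ : ℝ} (hρ0 : 0 < ρ) : chat ρ = (psi ρ - (1 - ρ ^ 2) * Real.log 2) / ρ ^ 2 := by
  unfold chat del
  field_simp
  ring

/-- `1 - betaT = yV`. -/
lemma one_sub_betaT {ρ A B : ℝ} (hρ0 : 0 < ρ) (hρ1 : ρ < 1) (hA : 0 ≤ A) (hB0 : 0 < B) (hB1 : B < 1)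
    (hAB : A + B ≤ 1) : 1 - betaT ρ A B = yV ρ A B := by
  have hL0 := L0V_pos hA hB0 hAB hB1
  have hS : 0 < (1 + A) ^ 2 - B ^ 2 := by nlinarith
  have hr : ρ ^ 2 ≤ 1 := by nlinarith
  have hS2 : 0 < (1 + A) ^ 2 - (ρ * B) ^ 2 := by
    have : (ρ * B) ^ 2 ≤ B ^ 2 := by
      rw [mul_pow]
      nlinarith [sq_nonneg B]
    linarith
  have e1 : LA A B = L0V A B := rfl
  have e2 : DeltaV ρ A B = LA A B - LA A (ρ * B) := by
    unfold DeltaV LA
    rw [← Real.log_div (by positivity) (by positivity)]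
    congr 1
    have e3 : (1 + A) ^ 2 - ρ ^ 2 * B ^ 2 = (1 + A) ^ 2 - (ρ * B) ^ 2 := by ring
    rw [e3]
    field_simp
  unfold yV betaT
  rw [e2, e1]
  rw [sub_div, div_self hL0.ne']

/-- The closure quantities agree. -/
theorem VW_eq_Vstar {ρ A B : ℝ} (hρ0 : 0 < ρ) (hρ1 : ρ < 1) (hA : 0 ≤ A) (hB0 : 0 < B) (hB1 : B < 1)
    (hAB : A + B ≤ 1) : VW ρ A B = Vstar ρ A B := by
  unfold VW Vstar XV DhV JJ psibar Phi
  rw [one_sub_betaT hρ0 hρ1 hA hB0 hB1 hAB, chat_eq hρ0]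

end Vale.Agent.P322W
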