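import Vale.Agent.P322W.Bridge

namespace Vale.Agent.P322W

open Real Set
open Vale.Agent.P322 hiding psi
open Vale.Agent.P322V

/-- **Low-noise bound**: the closure `Vstar ≥ 0` on the step domain yields the target bound. -/
theorem WW_bound_of_Vstar {ρ t : ℝ} (hρ0 : 0 < ρ) (hρ1 : ρ < 1) (ht : Real.exp (-t) = ρ)
    (hV : ∀ A B : ℝ, 0 ≤ A → 0 < B → A + B ≤ 1 → StepDom A B → 0 ≤ Vstar ρ A B) :
    ∀ (n : ℕ) (F : (Fin n → Bool) → ℝ), (∀ x, F x = 1 ∨ F x = -1) →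
      WW ρ (avg F) ≤ avg (fun y => psi (UU F t y)) := by
  refine WW_bound_of_VW hρ0 hρ1 ht ?_
  intro A B hA hB hAB hdom
  have hB12 : B < 1 := by
    rcases hdom with h | ⟨h, _⟩ <;> linarith
  rw [VW_eq_Vstar hρ0 hρ1 hA hB hB12 hAB]
  exact hV A B hA hB hAB hdom

/-- The Courtade-Kumar inequality at noise `ρ` given the closure. -/
theorem CK_of_Vstar {ρ t : ℝ} (hρ0 : 0 < ρ) (hρ1 : ρ < 1) (ht : Real.exp (-t) = ρ)
    (hV : ∀ A B : ℝ, 0 ≤ A → 0 < B → A + B ≤ 1 → StepDom A B → 0 ≤ Vstar ρ A B)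
    (n : ℕ) (F : (Fin n → Bool) → ℝ) (hF : ∀ x, F x = 1 ∨ F x = -1) :
    psi ρ + psi (avg F) - Real.log 2 ≤ avg (fun y => psi (UU F t y)) := by
  have h := WW_bound_of_Vstar hρ0 hρ1 ht hV n F hF
  have hm : |avg F| ≤ 1 := abs_avg_le_one (fun x => by rcases hF x with h | h <;> rw [h] <;> norm_num)
  exact (WW_ge_CK hρ0 hρ1 hm).trans h

end Vale.Agent.P322W
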