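import Vale.Agent.P322W.Series

/-! The closure inequality near the corner `A → 1`. -/

namespace Vale.Agent.P322W

open Real
open Vale.Agent.P322V

/-- Concavity: `psibar A B ≥ ψ(2A-1)/2` when `B ≤ 1 - A`. -/
lemma psibar_ge {A B : ℝ} (hA0 : 0 ≤ A) (hB0 : 0 < B) (hAB : A + B ≤ 1) :
    psi (2 * A - 1) / 2 ≤ psibar A B := by
  have hA1 : A < 1 := by linarith
  have hQ : 0 < 1 - A := by linarith
  set l := (1 + B / (1 - A)) / 2 with hl
  have hq : B / (1 - A) ≤ 1 := by rw [div_le_one hQ]; linarith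
  have hq0 : 0 ≤ B / (1 - A) := by positivity
  have hl0 : 0 ≤ l := by rw [hl]; linarith
  have hl1 : 0 ≤ 1 - l := by rw [hl]; linarith
  have hm1 : (2 * A - 1) ∈ Set.Icc (-1 : ℝ) 1 := ⟨by linarith, by linarith⟩
  have hone : (1 : ℝ) ∈ Set.Icc (-1 : ℝ) 1 := ⟨by norm_num, le_rfl⟩
  have e1 : l * 1 + (1 - l) * (2 * A - 1) = A + B := by
    rw [hl]
    field_simp
    ring
  have e2 : (1 - l) * 1 + l * (2 * A - 1) = A - B := by
    rw [hl]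
    field_simp
    ring
  have c1 := concaveOn_psi.2 hone hm1 hl0 hl1 (by ring)
  have c2 := concaveOn_psi.2 hone hm1 hl1 hl0 (by ring)
  simp only [smul_eq_mul] at c1 c2
  rw [e1] at c1
  rw [e2] at c2
  rw [psi_one] at c1 c2
  unfold psibar
  nlinarith

/-- `ψ(1 - 2ε) ≥ ε log (1/ε) ≥ (46/10) ε` for `ε ≤ 1/100`. -/
lemma psi_one_sub_ge {e : ℝ} (he0 : 0 < e) (he1 : e ≤ 1 / 100) : 46 / 10 * e ≤ psi (1 - 2 * e) := by
  have e1 : psi (1 - 2 * e) = Real.negMulLog (1 - e) + Real.negMulLog e := by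
    rw [psi_eq_negMulLog]
    congr 2 <;> ring
  have h1 : 0 ≤ Real.negMulLog (1 - e) :=
    Real.negMulLog_nonneg (by linarith) (by linarith)
  have h2 : 46 / 10 ≤ - Real.log e := by
    have h3 : Real.log e ≤ Real.log (1 / 100) := Real.log_le_log he0 he1
    have h4 : Real.log (1 / 100) = - Real.log 100 := by
      rw [one_div, Real.log_inv]
    have h5 : (46 : ℝ) / 10 ≤ Real.log 100 := by
      rw [Real.le_log_iff_exp_le (by norm_num)]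
      have h6 : Real.exp (46 / 10) = Real.exp 1 ^ (46 / 10 : ℝ) := by
        rw [← Real.exp_mul]; norm_num
      have h7 := Real.exp_one_lt_d9
      have h8 : Real.exp (46 / 10) ^ 5 = Real.exp 1 ^ 23 := by
        rw [← Real.exp_nat_mul, ← Real.exp_nat_mul]; norm_num
      have h9 : Real.exp 1 ^ 23 ≤ (100 : ℝ) ^ 5 := by
        calc Real.exp 1 ^ 23 ≤ (2.7182818286 : ℝ) ^ 23 := pow_le_pow_left₀ (Real.exp_pos _).le h7.le 23
          _ ≤ (100 : ℝ) ^ 5 := by norm_num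
      rw [← h8] at h9
      exact (pow_le_pow_iff_left₀ (Real.exp_pos _).le (by norm_num) (by norm_num)).mp h9
    linarith
  rw [e1]
  unfold Real.negMulLog at h1 ⊢
  nlinarith

/-- Upper bound on the logarithm `L0V` near the corner. -/
lemma L0V_le {A B : ℝ} (hA : 0 < A) (hB0 : 0 < B) (hAB : A + B ≤ 1) : L0V A B ≤ (1 - A) / A := by
  have h1 : 4 * A ≤ (1 + A) ^ 2 - B ^ 2 := by nlinarith
  have h2 : 0 < (1 + A) ^ 2 - B ^ 2 := by nlinarith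
  have h3 : 4 / ((1 + A) ^ 2 - B ^ 2) ≤ 1 / A := by
    rw [div_le_div_iff₀ h2 hA]
    linarith
  unfold L0V
  have h4 : Real.log (4 / ((1 + A) ^ 2 - B ^ 2)) ≤ Real.log (1 / A) :=
    Real.log_le_log (by positivity) h3
  have h5 : Real.log (1 / A) ≤ 1 / A - 1 := Real.log_le_sub_one_of_pos (by positivity)
  have e : 1 / A - 1 = (1 - A) / A := by
    field_simp
  linarith

lemma tail_poly {r : ℝ} (h0 : 0 ≤ r) (h1 : r ≤ 7 / 10) :
    1932 / 10000 - r / 12 ≤ (1 - r) * (99 / 100) * (23 / 10 - 2 * (1932 / 10000 - r / 12)) / 4 := by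
  nlinarith [mul_nonneg h0 (sub_nonneg.mpr h1)]

lemma tail_chat {ρ : ℝ} (hρ0 : 0 < ρ) (hρ1 : ρ < 1) : chat ρ ≤ 1932 / 10000 - ρ ^ 2 / 12 := by
  have hc1 := chat_le hρ0 hρ1
  have hlog : Real.log 2 < 0.6931471808 := Real.log_two_lt_d9
  norm_num at hlog
  linarith

lemma tail_X {ρ A B : ℝ} (hρ0 : 0 < ρ) (hρ1 : ρ < 1) (hA : 99 / 100 ≤ A) (hB0 : 0 < B)
    (hAB : A + B ≤ 1) :
    (1 - A) * (23 / 10 - 2 * chat ρ) ≤ XV ρ A B := by
  have hA0 : 0 < A := by linarith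
  have he0 : 0 < 1 - A := by linarith
  have he1 : 1 - A ≤ 1 / 100 := by linarith
  have hc0 := chat_nonneg hρ0 hρ1
  have hpsi : 23 / 10 * (1 - A) ≤ psibar A B := by
    have h1 := psibar_ge hA0.le hB0 hAB
    have h2 := psi_one_sub_ge he0 he1
    have e2 : 1 - 2 * (1 - A) = 2 * A - 1 := by ring
    rw [e2] at h2
    linarith
  have hq : 1 - A ^ 2 - B ^ 2 ≤ 2 * (1 - A) := by
    nlinarith [sq_nonneg B]
  have h3 := mul_le_mul_of_nonneg_left hq hc0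
  unfold XV
  nlinarith

lemma tail_delta {ρ A B : ℝ} (hρ0 : 0 < ρ) (hρ1 : ρ < 1) (hA : 0 < A) (hB0 : 0 < B)
    (hAB : A + B ≤ 1) (hB1 : B < 1) : (1 - ρ ^ 2) * B ^ 2 / 4 ≤ DeltaV ρ A B := by
  have hD := DeltaV_ge hρ0 hρ1 hA.le hB0 hAB hB1
  have hA1 : A < 1 := by linarith
  have hP : (1 + A) ^ 2 ≤ 4 := by nlinarith
  have hPpos : 0 < (1 + A) ^ 2 := by positivity
  refine le_trans ?_ hD
  have hr0 : 0 ≤ ρ ^ 2 := by positivity
  have hr1 : ρ ^ 2 ≤ 1 := by nlinarith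
  generalize ρ ^ 2 = r at *
  have h1r : 0 ≤ 1 - r := by linarith
  have h1r2 : 0 ≤ 1 - r ^ 2 := by nlinarith
  have hX' : 0 ≤ B ^ 2 / (1 + A) ^ 2 := by positivity
  have h3 : (1 - r) ≤ (1 - r) + (1 - r ^ 2) * (B ^ 2 / (1 + A) ^ 2) / 2 := by
    have : 0 ≤ (1 - r ^ 2) * (B ^ 2 / (1 + A) ^ 2) / 2 := by positivity
    linarith
  rw [le_div_iff₀ hPpos]
  have hh : 0 ≤ (1 - r) * B ^ 2 := mul_nonneg h1r (by positivity)
  have h5 := mul_le_mul_of_nonneg_left hP hh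
  have h6 : B ^ 2 * (1 - r) ≤ B ^ 2 * ((1 - r) + (1 - r ^ 2) * (B ^ 2 / (1 + A) ^ 2) / 2) :=
    mul_le_mul_of_nonneg_left h3 (by positivity)
  nlinarith

lemma tail_y {ρ A B : ℝ} (hρ0 : 0 < ρ) (hρ1 : ρ < 1) (hA : 0 < A) (hB0 : 0 < B)
    (hAB : A + B ≤ 1) (hB1 : B < 1) :
    (1 - ρ ^ 2) * B ^ 2 / 4 * (A / (1 - A)) ≤ yV ρ A B := by
  have hA1 : 0 < 1 - A := by linarith
  have hr1 : 0 ≤ 1 - ρ ^ 2 := by nlinarith
  have hD2 := tail_delta hρ0 hρ1 hA hB0 hAB hB1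
  have hL := L0V_pos hA.le hB0 hAB hB1
  have hL2 := L0V_le hA hB0 hAB
  unfold yV
  have h1 : (1 - ρ ^ 2) * B ^ 2 / 4 * (A / (1 - A)) = (1 - ρ ^ 2) * B ^ 2 / 4 / ((1 - A) / A) := by
    field_simp
  rw [h1]
  have h1r : 0 ≤ (1 - ρ ^ 2) * B ^ 2 / 4 := by positivity
  calc (1 - ρ ^ 2) * B ^ 2 / 4 / ((1 - A) / A) ≤ (1 - ρ ^ 2) * B ^ 2 / 4 / L0V A B :=
        div_le_div_of_nonneg_left h1r hL hL2
    _ ≤ DeltaV ρ A B / L0V A B := div_le_div_of_nonneg_right hD2 hL.le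

lemma DhV_nonneg {ρ A B : ℝ} (hρ0 : 0 < ρ) (hρ1 : ρ < 1) (hA : 0 ≤ A) (hB0 : 0 < B)
    (hAB : A + B ≤ 1) : 0 ≤ DhV ρ A B := by
  refine le_trans ?_ (DhV_ge hρ0 hρ1 hA hB0 hAB)
  have hr0 : 0 ≤ ρ ^ 2 := by positivity
  have hr1 : ρ ^ 2 ≤ 1 := by nlinarith
  generalize ρ ^ 2 = r at *
  have h1r : 0 ≤ 1 - r := by linarith
  have h1r2 : 0 ≤ 1 - r ^ 2 := by nlinarith
  have hQ : 0 < 1 - A := by linarith
  positivity

lemma tail_final {r c A : ℝ} (hr0 : 0 ≤ r) (hr : r ≤ 7 / 10) (hc : c ≤ 1932 / 10000 - r / 12)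
    (hA : 99 / 100 ≤ A) : c ≤ (1 - r) * A * (23 / 10 - 2 * c) / 4 := by
  have h1r : 0 ≤ 1 - r := by linarith
  have hp : 0 ≤ 23 / 10 - 2 * c := by linarith
  have h1 : (1 - r) * (99 / 100) * (23 / 10 - 2 * c) ≤ (1 - r) * A * (23 / 10 - 2 * c) :=
    mul_le_mul_of_nonneg_right (mul_le_mul_of_nonneg_left hA h1r) hp
  have h2 : (1 - r) * (99 / 100) * (23 / 10 - 2 * (1932 / 10000 - r / 12))
      ≤ (1 - r) * (99 / 100) * (23 / 10 - 2 * c) := by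
    apply mul_le_mul_of_nonneg_left _ (by positivity)
    linarith
  have h3 := tail_poly hr0 hr
  linarith

/-- **Tail closure**: `Vstar ≥ 0` for `A ≥ 99/100`. -/
theorem tail_closure {ρ A B : ℝ} (hρ0 : 0 < ρ) (hρ : ρ ^ 2 ≤ 7 / 10) (hA : 99 / 100 ≤ A) (hB0 : 0 < B)
    (hAB : A + B ≤ 1) : 0 ≤ Vstar ρ A B := by
  have hρ1 : ρ < 1 := by nlinarith
  have hA0 : 0 < A := by linarith
  have hA1 : 0 < 1 - A := by linarith
  have hB1 : B < 1 := by linarith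
  have hr0 : 0 ≤ ρ ^ 2 := by positivity
  have hc2 := tail_chat hρ0 hρ1
  have hc0 := chat_nonneg hρ0 hρ1
  have hX := tail_X hρ0 hρ1 hA hB0 hAB
  have hy := tail_y hρ0 hρ1 hA0 hB0 hAB hB1
  have hDh := DhV_nonneg hρ0 hρ1 hA0.le hB0 hAB
  have hfinal := tail_final hr0 hρ hc2 hA
  unfold Vstar
  generalize chat ρ = c at *
  generalize XV ρ A B = X at *
  generalize yV ρ A B = y at *
  generalize DhV ρ A B = Dh at *
  generalize ρ ^ 2 = r at *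
  have h1r : 0 ≤ 1 - r := by linarith
  have hXpos : 0 ≤ (1 - A) * (23 / 10 - 2 * c) := mul_nonneg hA1.le (by linarith)
  have hprod : (1 - r) * B ^ 2 / 4 * (A / (1 - A)) * ((1 - A) * (23 / 10 - 2 * c)) ≤ y * X := by
    refine mul_le_mul hy hX hXpos (le_trans ?_ hy)
    positivity
  have e3 : (1 - r) * B ^ 2 / 4 * (A / (1 - A)) * ((1 - A) * (23 / 10 - 2 * c))
      = B ^ 2 * ((1 - r) * A * (23 / 10 - 2 * c) / 4) := by
    field_simp
  rw [e3] at hprod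
  have h7 : B ^ 2 * c ≤ B ^ 2 * ((1 - r) * A * (23 / 10 - 2 * c) / 4) :=
    mul_le_mul_of_nonneg_left hfinal (by positivity)
  nlinarith

end Vale.Agent.P322W
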