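import Vale.Agent.P322W.NumFast
import Vale.Agent.P322W.Tail
import Vale.Agent.P322W.LowBound

/-! Quad-tree check of the closure `Vstar ≥ 0`. -/

namespace Vale.Agent.P322W

open Real
open Vale.Agent.P322V

/-- `min 1 x` on rationals. -/
def clip1 (x : ℚ) : ℚ := if x ≤ 1 then x else 1

/-- `max x y` on rationals. -/
def maxq (x y : ℚ) : ℚ := if x ≤ y then y else x

lemma clip1_eq (x : ℚ) : clip1 x = min 1 x := by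
  unfold clip1
  split_ifs with h
  · exact (min_eq_right h).symm
  · exact (min_eq_left (not_le.mp h).le).symm

lemma maxq_eq (x y : ℚ) : maxq x y = max x y := by
  unfold maxq
  split_ifs with h
  · exact (max_eq_right h).symm
  · exact (max_eq_left (not_le.mp h).le).symm

/-- The final expression of the cell check. -/
def chkExpr (rb cb A1 A2 B1 X Lb : ℚ) : ℚ :=
  let P := 1 + A2
  let Q := 1 - A1
  let P2 := P * P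
  let P3 := P2 * P
  let Q3 := Q * Q * Q
  let B12 := B1 * B1
  ((1 - rb) + (1 - rb * rb) * (B12 / P2) / 2) / P2 * X
    + ((1 - rb) * B12 / 24 * (1 / P3 + 1 / Q3)
        + (1 - rb * rb) * (B12 * B12) / 60 * (1 / (P3 * P2) + 1 / (Q3 * Q * Q)) - cb) * Lb

/-- The check on one cell; cells entirely above `A + B = 1` are vacuous. -/
def cellCheck (rb cb A1 A2 B1 B2 : ℚ) : Bool :=
  if 1 < A1 + B1 then true
  else
    let p1 := psiLoF (clip1 (A2 + B2))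
    let p2 := psiLoF (maxq (qabs (A1 - B2)) (qabs (A2 - B1)))
    let Lb := logHiF (4 / ((1 + A1) * (1 + A1) - B2 * B2))
    let X := (p1 + p2) / 2 - cb * (1 - A1 * A1 - B1 * B1)
    decide (0 ≤ X) && decide (0 ≤ chkExpr rb cb A1 A2 B1 X Lb)

/-- Soundness of the cell check. -/
theorem cellCheck_sound {rb cb A1 A2 B1 B2 : ℚ} (h : cellCheck rb cb A1 A2 B1 B2 = true)
    (hrb : rb ≤ 1) (hcb0 : 0 ≤ cb) (hA1 : 0 ≤ A1) (hA2 : A2 ≤ 1) (hB1 : 0 ≤ B1) (hB2 : B2 < 1)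
    {ρ A B : ℝ} (hρ0 : 0 < ρ) (hρ1 : ρ < 1) (hr : ρ ^ 2 ≤ (rb : ℝ)) (hcb : chat ρ ≤ (cb : ℝ))
    (hAl : (A1 : ℝ) ≤ A) (hAu : A ≤ (A2 : ℝ)) (hBl : (B1 : ℝ) ≤ B) (hBu : B ≤ (B2 : ℝ))
    (hB0 : 0 < B) (hAB : A + B ≤ 1) : 0 ≤ Vstar ρ A B := by
  have hA1' : (0 : ℝ) ≤ (A1 : ℝ) := by exact_mod_cast hA1
  have hA2' : (A2 : ℝ) ≤ 1 := by exact_mod_cast hA2
  have hB1' : (0 : ℝ) ≤ (B1 : ℝ) := by exact_mod_cast hB1
  have hB2' : (B2 : ℝ) < 1 := by exact_mod_cast hB2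
  have hrb' : (rb : ℝ) ≤ 1 := by exact_mod_cast hrb
  have hcb0' : (0 : ℝ) ≤ (cb : ℝ) := by exact_mod_cast hcb0
  have hA12 : A1 ≤ A2 := by exact_mod_cast hAl.trans hAu
  have hB12 : B1 ≤ B2 := by exact_mod_cast hBl.trans hBu
  unfold cellCheck at h
  split_ifs at h with h0
  · -- vacuous
    exfalso
    have : (1 : ℝ) < (A1 : ℝ) + (B1 : ℝ) := by exact_mod_cast h0
    linarith
  simp only [Bool.and_eq_true, decide_eq_true_eq] at h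
  obtain ⟨hX, hC⟩ := h
  obtain ⟨p1, hp1⟩ : ∃ p1, p1 = psiLoF (clip1 (A2 + B2)) := ⟨_, rfl⟩
  obtain ⟨p2, hp2⟩ : ∃ p2, p2 = psiLoF (maxq (qabs (A1 - B2)) (qabs (A2 - B1))) := ⟨_, rfl⟩
  obtain ⟨Lb, hLb⟩ : ∃ Lb, Lb = logHiF (4 / ((1 + A1) * (1 + A1) - B2 * B2)) := ⟨_, rfl⟩
  rw [← hp1, ← hp2] at hX hC
  rw [← hLb] at hC
  have hB20 : 0 ≤ B2 := hB1.trans hB12
  have hA20 : 0 ≤ A2 := hA1.trans hA12
  have hp1' : ((p1 : ℚ) : ℝ) ≤ psi (min 1 ((A2 : ℝ) + (B2 : ℝ))) := by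
    rw [hp1]
    have hx : |clip1 (A2 + B2)| ≤ 1 := by
      rw [clip1_eq, abs_le]
      constructor
      · exact le_trans (by norm_num : (-1 : ℚ) ≤ 0) (le_min (by norm_num) (by linarith))
      · exact min_le_left _ _
    have := psiLoF_le hx
    rw [clip1_eq] at this ⊢
    push_cast at this
    exact this
  have hp2' : ((p2 : ℚ) : ℝ) ≤ psi (max |(A1 : ℝ) - (B2 : ℝ)| |(A2 : ℝ) - (B1 : ℝ)|) := by
    rw [hp2]
    have hx : |maxq (qabs (A1 - B2)) (qabs (A2 - B1))| ≤ 1 := by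
      rw [maxq_eq, qabs_eq, qabs_eq]
      have h1 : |A1 - B2| ≤ 1 := by
        rw [abs_le]
        constructor <;> linarith
      have h2 : |A2 - B1| ≤ 1 := by
        rw [abs_le]
        constructor <;> linarith
      rw [abs_of_nonneg (le_max_of_le_left (abs_nonneg _))]
      exact max_le h1 h2
    have := psiLoF_le hx
    rw [maxq_eq, qabs_eq, qabs_eq] at this ⊢
    push_cast at this
    exact this
  have hpos : 0 < 4 / ((1 + A1) * (1 + A1) - B2 * B2) := by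
    have : B2 * B2 < 1 := by nlinarith
    have h2 : 1 ≤ (1 + A1) * (1 + A1) := by nlinarith
    apply div_pos (by norm_num)
    linarith
  have hLb' : Real.log (4 / ((1 + (A1 : ℝ)) ^ 2 - (B2 : ℝ) ^ 2)) ≤ ((Lb : ℚ) : ℝ) := by
    rw [hLb]
    have := le_logHiF hpos
    push_cast at this
    have e : (1 + (A1 : ℝ)) ^ 2 - (B2 : ℝ) ^ 2 = (1 + (A1 : ℝ)) * (1 + (A1 : ℝ)) - (B2 : ℝ) * (B2 : ℝ) := by ring
    rw [e]
    exact this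
  have hX' : (0 : ℝ) ≤ (((p1 : ℚ) : ℝ) + ((p2 : ℚ) : ℝ)) / 2
      - (cb : ℝ) * (1 - (A1 : ℝ) ^ 2 - (B1 : ℝ) ^ 2) := by
    have : (0 : ℝ) ≤ (((p1 + p2) / 2 - cb * (1 - A1 * A1 - B1 * B1) : ℚ) : ℝ) := by exact_mod_cast hX
    push_cast at this
    have e : (cb : ℝ) * (1 - (A1 : ℝ) ^ 2 - (B1 : ℝ) ^ 2) = (cb : ℝ) * (1 - (A1 : ℝ) * (A1 : ℝ) - (B1 : ℝ) * (B1 : ℝ)) := by ring
    rw [e]
    exact this
  have hC' : (0 : ℝ) ≤ (((1 : ℝ) - (rb : ℝ)) + (1 - (rb : ℝ) ^ 2) * ((B1 : ℝ) ^ 2 / (1 + (A2 : ℝ)) ^ 2) / 2) / (1 + (A2 : ℝ)) ^ 2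
          * ((((p1 : ℚ) : ℝ) + ((p2 : ℚ) : ℝ)) / 2 - (cb : ℝ) * (1 - (A1 : ℝ) ^ 2 - (B1 : ℝ) ^ 2))
        + ((1 - (rb : ℝ)) * (B1 : ℝ) ^ 2 / 24 * (((1 + (A2 : ℝ)) ^ 3)⁻¹ + ((1 - (A1 : ℝ)) ^ 3)⁻¹)
            + (1 - (rb : ℝ) ^ 2) * (B1 : ℝ) ^ 4 / 60 * (((1 + (A2 : ℝ)) ^ 5)⁻¹ + ((1 - (A1 : ℝ)) ^ 5)⁻¹) - (cb : ℝ)) * ((Lb : ℚ) : ℝ) := by
    have h3 : (0 : ℝ) ≤ ((chkExpr rb cb A1 A2 B1 ((p1 + p2) / 2 - cb * (1 - A1 * A1 - B1 * B1)) Lb : ℚ) : ℝ) := by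
      exact_mod_cast hC
    unfold chkExpr at h3
    simp only at h3
    push_cast at h3
    obtain ⟨P, hP⟩ : ∃ P : ℝ, P = 1 + (A2 : ℝ) := ⟨_, rfl⟩
    obtain ⟨Q, hQ⟩ : ∃ Q : ℝ, Q = 1 - (A1 : ℝ) := ⟨_, rfl⟩
    rw [← hP, ← hQ] at h3 ⊢
    refine le_trans h3 (le_of_eq ?_)
    have e1 : 1 / (P * P * P) = (P ^ 3)⁻¹ := by rw [one_div]; ring_nf
    have e2 : 1 / (Q * Q * Q) = (Q ^ 3)⁻¹ := by rw [one_div]; ring_nf
    have e3 : 1 / (P * P * P * (P * P)) = (P ^ 5)⁻¹ := by rw [one_div]; ring_nf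
    have e4 : 1 / (Q * Q * Q * Q * Q) = (Q ^ 5)⁻¹ := by rw [one_div]; ring_nf
    rw [e1, e2, e3, e4]
    have e5 : (A1 : ℝ) * (A1 : ℝ) = (A1 : ℝ) ^ 2 := by ring
    rw [e5]
    ring
  refine Vstar_nonneg_of_cell hρ0 hρ1 hr hrb' hcb hcb0' hA1' hAl hAu hA2' hB1' hB0 hBl hBu hB2' hAB
    hp1' hp2' hLb' hX' hC'

/-- The quad-tree recursion. -/
def qt (rb cb : ℚ) : ℕ → ℚ → ℚ → ℚ → ℚ → Bool
  | 0, A1, A2, B1, B2 => cellCheck rb cb A1 A2 B1 B2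
  | d + 1, A1, A2, B1, B2 =>
    cellCheck rb cb A1 A2 B1 B2 ||
      (qt rb cb d A1 ((A1 + A2) / 2) B1 ((B1 + B2) / 2)
        && qt rb cb d ((A1 + A2) / 2) A2 B1 ((B1 + B2) / 2)
        && qt rb cb d A1 ((A1 + A2) / 2) ((B1 + B2) / 2) B2
        && qt rb cb d ((A1 + A2) / 2) A2 ((B1 + B2) / 2) B2)

/-- Soundness of the quad-tree. -/
theorem qt_sound {rb cb : ℚ} (hrb : rb ≤ 1) (hcb0 : 0 ≤ cb) (d : ℕ) :
    ∀ {A1 A2 B1 B2 : ℚ}, qt rb cb d A1 A2 B1 B2 = true →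
      0 ≤ A1 → A2 ≤ 1 → 0 ≤ B1 → B2 < 1 →
      ∀ {ρ A B : ℝ}, 0 < ρ → ρ < 1 → ρ ^ 2 ≤ (rb : ℝ) → chat ρ ≤ (cb : ℝ) →
        (A1 : ℝ) ≤ A → A ≤ (A2 : ℝ) → (B1 : ℝ) ≤ B → B ≤ (B2 : ℝ) → 0 < B → A + B ≤ 1 →
        0 ≤ Vstar ρ A B := by
  induction d with
  | zero =>
    intro A1 A2 B1 B2 h hA1 hA2 hB1 hB2 ρ A B hρ0 hρ1 hr hcb hAl hAu hBl hBu hB0 hAB
    exact cellCheck_sound h hrb hcb0 hA1 hA2 hB1 hB2 hρ0 hρ1 hr hcb hAl hAu hBl hBu hB0 hAB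
  | succ d ih =>
    intro A1 A2 B1 B2 h hA1 hA2 hB1 hB2 ρ A B hρ0 hρ1 hr hcb hAl hAu hBl hBu hB0 hAB
    unfold qt at h
    simp only [Bool.or_eq_true, Bool.and_eq_true] at h
    rcases h with h | ⟨⟨⟨h1, h2⟩, h3⟩, h4⟩
    · exact cellCheck_sound h hrb hcb0 hA1 hA2 hB1 hB2 hρ0 hρ1 hr hcb hAl hAu hBl hBu hB0 hAB
    · have hA12 : A1 ≤ A2 := by exact_mod_cast hAl.trans hAu
      have hB12 : B1 ≤ B2 := by exact_mod_cast hBl.trans hBu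
      have hAm0 : 0 ≤ (A1 + A2) / 2 := by linarith
      have hAm1 : (A1 + A2) / 2 ≤ 1 := by linarith
      have hBm0 : 0 ≤ (B1 + B2) / 2 := by linarith
      have hBm1 : (B1 + B2) / 2 < 1 := by linarith
      rcases le_total A (((A1 + A2) / 2 : ℚ) : ℝ) with hA | hA <;>
        rcases le_total B (((B1 + B2) / 2 : ℚ) : ℝ) with hB | hB
      · exact ih h1 hA1 hAm1 hB1 hBm1 hρ0 hρ1 hr hcb hAl hA hBl hB hB0 hAB
      · exact ih h3 hA1 hAm1 hBm0 hB2 hρ0 hρ1 hr hcb hAl hA hB hBu hB0 hAB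
      · exact ih h2 hAm0 hA2 hB1 hBm1 hρ0 hρ1 hr hcb hA hAu hBl hB hB0 hAB
      · exact ih h4 hAm0 hA2 hBm0 hB2 hρ0 hρ1 hr hcb hA hAu hB hBu hB0 hAB

end Vale.Agent.P322W
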