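import Vale.Agent.P322W.Cell

/-! The kernel run of the quad-tree check: `Vstar ≥ 0` for `ρ ≤ 16/25`. -/

namespace Vale.Agent.P322W

open Real
open Vale.Agent.P322V

set_option maxRecDepth 100000 in
theorem qt_run1 : qt (4 / 25) (1931471808 / 10000000000) 9 0 (127 / 128) 0 (3 / 8) = true := by
  decide +kernel

set_option maxRecDepth 100000 in
theorem qt_run2 : qt (121 / 400) (1798138475 / 10000000000) 9 0 (127 / 128) 0 (3 / 8) = true := by
  decide +kernel

set_option maxRecDepth 100000 in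
theorem qt_run3 : qt (256 / 625) (1679388475 / 10000000000) 9 0 (127 / 128) 0 (3 / 8) = true := by
  decide +kernel

theorem sp1_run1 : cellCheck (4 / 25) (1931471808 / 10000000000) 0 0 (1 / 2) (1 / 2) = true := by
  decide +kernel

theorem sp2_run1 : cellCheck (4 / 25) (1931471808 / 10000000000) (1 / 2) (1 / 2) (1 / 2) (1 / 2) = true := by
  decide +kernel

theorem sp1_run2 : cellCheck (121 / 400) (1798138475 / 10000000000) 0 0 (1 / 2) (1 / 2) = true := by
  decide +kernel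

theorem sp2_run2 : cellCheck (121 / 400) (1798138475 / 10000000000) (1 / 2) (1 / 2) (1 / 2) (1 / 2) = true := by
  decide +kernel

theorem sp1_run3 : cellCheck (256 / 625) (1679388475 / 10000000000) 0 0 (1 / 2) (1 / 2) = true := by
  decide +kernel

theorem sp2_run3 : cellCheck (256 / 625) (1679388475 / 10000000000) (1 / 2) (1 / 2) (1 / 2) (1 / 2) = true := by
  decide +kernel

/-- Closure on the whole step domain from the three checks for one interval of `ρ`. -/
theorem pair_closure {rb cb : ℚ} (hrb : rb ≤ 1) (hcb0 : 0 ≤ cb)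
    (hq : qt rb cb 9 0 (127 / 128) 0 (3 / 8) = true)
    (hs1 : cellCheck rb cb 0 0 (1 / 2) (1 / 2) = true)
    (hs2 : cellCheck rb cb (1 / 2) (1 / 2) (1 / 2) (1 / 2) = true)
    {ρ A B : ℝ} (hρ0 : 0 < ρ) (hρ1 : ρ ^ 2 ≤ 7 / 10) (hr : ρ ^ 2 ≤ (rb : ℝ)) (hcb : chat ρ ≤ (cb : ℝ))
    (hA : 0 ≤ A) (hB : 0 < B) (hAB : A + B ≤ 1) (hdom : StepDom A B) : 0 ≤ Vstar ρ A B := by
  have hρ1' : ρ < 1 := by nlinarith
  rcases hdom with h | ⟨h1, h2⟩
  · by_cases hA2 : A ≤ 127 / 128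
    · refine qt_sound hrb hcb0 9 hq (by norm_num) (by norm_num) (by norm_num) (by norm_num)
        hρ0 hρ1' hr hcb ?_ ?_ ?_ ?_ hB hAB
      · simpa using hA
      · push_cast
        linarith
      · simpa using hB.le
      · push_cast
        linarith
    · exact tail_closure hρ0 hρ1 (by linarith [not_le.mp hA2]) hB hAB
  · rcases h2 with h2 | h2
    · refine cellCheck_sound hs1 hrb hcb0 (by norm_num) (by norm_num) (by norm_num) (by norm_num)
        hρ0 hρ1' hr hcb ?_ ?_ ?_ ?_ hB hAB <;> push_cast <;> linarith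
    · refine cellCheck_sound hs2 hrb hcb0 (by norm_num) (by norm_num) (by norm_num) (by norm_num)
        hρ0 hρ1' hr hcb ?_ ?_ ?_ ?_ hB hAB <;> push_cast <;> linarith

/-- Upper bound on `chat` from a lower bound on `ρ`. -/
lemma chat_le_of {ρ ρ₀ : ℝ} (h0 : 0 < ρ) (h1 : ρ < 1) (h00 : 0 ≤ ρ₀) (h : ρ₀ ≤ ρ) :
    chat ρ ≤ 6931471808 / 10000000000 - 1 / 2 - ρ₀ ^ 2 / 12 := by
  have h2 := chat_le h0 h1
  have h3 := Real.log_two_lt_d9
  have h4 : ρ₀ ^ 2 ≤ ρ ^ 2 := pow_le_pow_left₀ h00 h 2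
  linarith

/-- **Low closure**: `Vstar ≥ 0` on the step domain for all `0 < ρ ≤ 16/25`. -/
theorem low_closure {ρ A B : ℝ} (hρ0 : 0 < ρ) (hρ1 : ρ ≤ 16 / 25) (hA : 0 ≤ A) (hB : 0 < B)
    (hAB : A + B ≤ 1) (hdom : StepDom A B) : 0 ≤ Vstar ρ A B := by
  have hρ1' : ρ < 1 := by linarith
  have hsq : ρ ^ 2 ≤ 7 / 10 := by nlinarith
  rcases le_total ρ (2 / 5) with h1 | h1
  · refine pair_closure (rb := 4 / 25) (cb := 1931471808 / 10000000000) (by norm_num) (by norm_num)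
      qt_run1 sp1_run1 sp2_run1 hρ0 hsq ?_ ?_ hA hB hAB hdom
    · push_cast; nlinarith
    · have := chat_le_of hρ0 hρ1' (le_refl 0) hρ0.le
      push_cast
      norm_num at this ⊢
      linarith
  rcases le_total ρ (11 / 20) with h2 | h2
  · refine pair_closure (rb := 121 / 400) (cb := 1798138475 / 10000000000) (by norm_num) (by norm_num)
      qt_run2 sp1_run2 sp2_run2 hρ0 hsq ?_ ?_ hA hB hAB hdom
    · push_cast; nlinarith
    · have := chat_le_of hρ0 hρ1' (by norm_num : (0 : ℝ) ≤ 2 / 5) h1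
      push_cast
      norm_num at this ⊢
      linarith
  · refine pair_closure (rb := 256 / 625) (cb := 1679388475 / 10000000000) (by norm_num) (by norm_num)
      qt_run3 sp1_run3 sp2_run3 hρ0 hsq ?_ ?_ hA hB hAB hdom
    · push_cast; nlinarith
    · have := chat_le_of hρ0 hρ1' (by norm_num : (0 : ℝ) ≤ 11 / 20) h2
      push_cast
      norm_num at this ⊢
      linarith

/-- **The Courtade-Kumar inequality for `0 < ρ ≤ 16/25`, in the strong target form**. -/
theorem low_bound {ρ t : ℝ} (hρ0 : 0 < ρ) (hρ1 : ρ ≤ 16 / 25) (ht : Real.exp (-t) = ρ) :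
    ∀ (n : ℕ) (F : (Fin n → Bool) → ℝ), (∀ x, F x = 1 ∨ F x = -1) →
      WW ρ (Vale.Agent.P322.avg F) ≤ Vale.Agent.P322.avg (fun y => psi (Vale.Agent.P322.UU F t y)) :=
  WW_bound_of_Vstar hρ0 (by linarith) ht
    (fun _ _ hA hB hAB hdom => low_closure hρ0 hρ1 hA hB hAB hdom)

/-- The Courtade-Kumar inequality for `0 < ρ ≤ 16/25`. -/
theorem low_CK {ρ t : ℝ} (hρ0 : 0 < ρ) (hρ1 : ρ ≤ 16 / 25) (ht : Real.exp (-t) = ρ)
    (n : ℕ) (F : (Fin n → Bool) → ℝ) (hF : ∀ x, F x = 1 ∨ F x = -1) :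
    psi ρ + psi (Vale.Agent.P322.avg F) - Real.log 2
      ≤ Vale.Agent.P322.avg (fun y => psi (Vale.Agent.P322.UU F t y)) :=
  CK_of_Vstar hρ0 (by linarith) ht
    (fun _ _ hA hB hAB hdom => low_closure hρ0 hρ1 hA hB hAB hdom) n F hF

end Vale.Agent.P322W
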