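import Vale.Agent.P322W.CertK

namespace Vale.Agent.P322W

open Real Set
open Vale.Agent.P322V

/-- Conditional entropy of a bit seen through a binary-symmetric-type split. -/
noncomputable def Phi (c x : ℝ) : ℝ := (psi (c + x) + psi (c - x)) / 2

lemma Phi_abs (c x : ℝ) : Phi c x = Phi |c| |x| := by
  unfold Phi
  rcases abs_cases c with ⟨e1, _⟩ | ⟨e1, _⟩ <;> rcases abs_cases x with ⟨e2, _⟩ | ⟨e2, _⟩ <;>
    rw [e1, e2]
  · have h1 : c + -x = c - x := by ring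
    have h2 : c - -x = c + x := by ring
    rw [h1, h2]
    ring
  · have h1 : -c + x = -(c - x) := by ring
    have h2 : -c - x = -(c + x) := by ring
    rw [h1, h2, psi_neg, psi_neg]
    ring
  · have h1 : -c + -x = -(c + x) := by ring
    have h2 : -c - -x = -(c - x) := by ring
    rw [h1, h2, psi_neg, psi_neg]

lemma pairY_eq (ρ s t : ℝ) : pairY ρ s t = Phi ((s + t) / 2) (ρ * ((s - t) / 2)) := rfl

lemma Phi_add_sub (s t : ℝ) : (psi s + psi t) / 2 = Phi ((s + t) / 2) ((s - t) / 2) := by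
  unfold Phi
  have e1 : (s + t) / 2 + (s - t) / 2 = s := by ring
  have e2 : (s + t) / 2 - (s - t) / 2 = t := by ring
  rw [e1, e2]

/-- The algebraic identity behind the certificate. -/
lemma core_algebra {PhiR PhiD psic delq delr delrq delrr kq kr kqs krs kDqs kDrs omqs omrs qs rs q r d c
    β lp lq KLv : ℝ}
    (E1 : PhiD = psic - (1 + c) / 2 * delq - (1 - c) / 2 * delr)
    (E2 : PhiR = psic - (1 + c) / 2 * delrq - (1 - c) / 2 * delrr)
    (E3 : (1 + c) / 2 * q = d / 2) (E4 : (1 - c) / 2 * r = d / 2)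
    (E5 : omqs = qs * kDqs - kqs) (E6 : omrs = rs * kDrs - krs)
    (E7 : omqs = (1 - β) * lp)
    (E8 : KLv = - psic + (1 + c) / 2 * lp + (1 - c) / 2 * lq)
    (E9 : kq = β * delq - delrq) (E10 : kr = β * delr - delrr) :
    PhiR - ((kDqs + kDrs) / 2 * d + β * PhiD - (omrs - (1 - β) * lq) / 2 * (1 - c))
      = (1 + c) / 2 * (kq - kqs - kDqs * (q - qs)) + (1 - c) / 2 * (kr - krs - kDrs * (r - rs))
        - (1 - β) * KLv := by
  subst E1 E2 E8 E9 E10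
  have e5 : (1 + c) / 2 * omqs = (1 + c) / 2 * (qs * kDqs - kqs) := by rw [E5]
  have e7 : (1 + c) / 2 * omqs = (1 + c) / 2 * ((1 - β) * lp) := by rw [E7]
  have e6 : (1 - c) / 2 * omrs = (1 - c) / 2 * (rs * kDrs - krs) := by rw [E6]
  linear_combination kDqs * E3 + kDrs * E4 + e5 - e7 + e6

/-- The chain of inequalities for `c ≥ 0`, `d ≥ 0`. -/
lemma core_pos {ρ β A B kDrs krs omrs c d : ℝ} (hρ0 : 0 < ρ) (hρ1 : ρ < 1) (hβ : ρ ^ 2 ≤ β) (hβ1 : β ≤ 1)
    (hA : 0 ≤ A) (hB : 0 < B) (hB1 : B < 1) (hAB : A + B ≤ 1)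
    (hrel : om ρ β (B / (1 + A)) = (1 - β) * Real.log (2 / (1 + A)))
    (homrs : omrs = B / (1 - A) * kDrs - krs)
    (hc0 : 0 ≤ c) (hc1 : c < 1) (hd0 : 0 ≤ d) (hd1 : d ≤ 1 - c)
    (hBr : om ρ β (B / (1 + A)) / (B / (1 + A)) ^ 2 * (d / (1 - c) - B / (1 - A)) ^ 2
      ≤ kap ρ β (d / (1 - c)) - krs - kDrs * (d / (1 - c) - B / (1 - A))) :
    (kapD ρ β (B / (1 + A)) + kDrs) / 2 * d + β * Phi c d
        - (omrs - (1 - β) * Real.log (2 / (1 - A))) / 2 * (1 - c)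
      ≤ Phi c (ρ * d) := by
  have hA1 : A < 1 := by linarith
  have hPa : 0 < 1 + A := by linarith
  have hQa : 0 < 1 - A := by linarith
  have hPc : 0 < 1 + c := by linarith
  have hQc : 0 < 1 - c := by linarith
  obtain ⟨qs, hqs⟩ : ∃ qs, qs = B / (1 + A) := ⟨_, rfl⟩
  obtain ⟨rs, hrs⟩ : ∃ rs, rs = B / (1 - A) := ⟨_, rfl⟩
  obtain ⟨q, hq⟩ : ∃ q, q = d / (1 + c) := ⟨_, rfl⟩
  obtain ⟨r, hr⟩ : ∃ r, r = d / (1 - c) := ⟨_, rfl⟩
  obtain ⟨lp, hlp⟩ : ∃ lp, lp = Real.log (2 / (1 + A)) := ⟨_, rfl⟩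
  obtain ⟨lq, hlq⟩ : ∃ lq, lq = Real.log (2 / (1 - A)) := ⟨_, rfl⟩
  rw [← hqs, ← hlp] at hrel
  rw [← hrs] at homrs
  rw [← hqs, ← hrs, ← hr] at hBr
  rw [← hqs, ← hlq]
  have hqs0 : 0 < qs := by rw [hqs]; positivity
  have hrs0 : 0 < rs := by rw [hrs]; positivity
  have hqs1 : qs < 1 := by
    rw [hqs, div_lt_one hPa]; linarith
  have hlp0 : 0 ≤ lp := by
    rw [hlp]
    apply Real.log_nonneg
    rw [le_div_iff₀ hPa]
    linarith
  -- identities
  have E1 : Phi c d = psi c - (1 + c) / 2 * del q - (1 - c) / 2 * del r := by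
    rw [hq, hr]
    exact phi_identity (by linarith) hc1
  have E2 : Phi c (ρ * d) = psi c - (1 + c) / 2 * del (ρ * q) - (1 - c) / 2 * del (ρ * r) := by
    have e1 : ρ * q = ρ * d / (1 + c) := by rw [hq]; ring
    have e2 : ρ * r = ρ * d / (1 - c) := by rw [hr]; ring
    rw [e1, e2]
    exact phi_identity (by linarith) hc1
  have E3 : (1 + c) / 2 * q = d / 2 := by rw [hq]; field_simp
  have E4 : (1 - c) / 2 * r = d / 2 := by rw [hr]; field_simp
  have hqsabs : |qs| < 1 := by rw [abs_of_pos hqs0]; exact hqs1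
  have E5 : om ρ β qs = qs * kapD ρ β qs - kap ρ β qs := om_eq hρ0 hρ1 hqsabs
  have e_ps : Real.log ((1 + A) / 2) = - lp := by
    rw [hlp, ← Real.log_inv, inv_div]
  have e_qs : Real.log (1 - (1 + A) / 2) = - lq := by
    rw [hlq, ← Real.log_inv, inv_div]
    congr 1
    ring
  have E8 : kl ((1 + c) / 2) ((1 + A) / 2) = - psi c + (1 + c) / 2 * lp + (1 - c) / 2 * lq := by
    unfold kl
    rw [e_ps, e_qs, psi_eq_negMulLog]
    have e : 1 - (1 + c) / 2 = (1 - c) / 2 := by ring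
    rw [e]
    ring
  have hid := core_algebra (PhiR := Phi c (ρ * d)) (PhiD := Phi c d) (q := q) (r := r) (d := d)
    (kq := kap ρ β q) (kr := kap ρ β r) (kqs := kap ρ β qs) (krs := krs) (kDqs := kapD ρ β qs)
    (kDrs := kDrs) (omqs := om ρ β qs) (omrs := omrs) (qs := qs) (rs := rs) (lp := lp) (lq := lq)
    (KLv := kl ((1 + c) / 2) ((1 + A) / 2)) (β := β) E1 E2 E3 E4 E5 homrs hrel E8 rfl rfl
  -- lower bounds
  have hq0 : 0 ≤ q := by rw [hq]; positivity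
  have hq1 : q ≤ 1 := by
    rw [hq, div_le_one hPc]; linarith
  have K1 := breg_lower hρ0 hρ1 hβ hqs0 hqs1 hq0 hq1
  set Cq := om ρ β qs / qs ^ 2 with hCq
  have hy : 0 ≤ 1 - β := by linarith
  have hom0 : 0 ≤ om ρ β qs := by rw [hrel]; positivity
  have hCq0 : 0 ≤ Cq := by rw [hCq]; positivity
  -- the quadratic
  have hpb : 0 < (1 + c) / 2 := by positivity
  have hqb : 0 < (1 - c) / 2 := by positivity
  have K3 := quad_lower (pb := (1 + c) / 2) (qb := (1 - c) / 2) (d := d) (qs := qs) (rs := rs) hpb hqb (by ring)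
  have e3 : d / (2 * ((1 + c) / 2)) = q := by rw [hq]; ring_nf
  have e4 : d / (2 * ((1 - c) / 2)) = r := by rw [hr]; ring_nf
  rw [e3, e4] at K3
  have hsum : (1 + c) / 2 * (Cq * (q - qs) ^ 2) + (1 - c) / 2 * (Cq * (r - rs) ^ 2)
      ≤ (1 + c) / 2 * (kap ρ β q - kap ρ β qs - kapD ρ β qs * (q - qs))
        + (1 - c) / 2 * (kap ρ β r - krs - kDrs * (r - rs)) := by
    apply add_le_add
    · exact mul_le_mul_of_nonneg_left K1 hpb.le
    · exact mul_le_mul_of_nonneg_left hBr hqb.le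
  have hK3 : Cq * ((1 + c) / 2 * qs - (1 - c) / 2 * rs) ^ 2
      ≤ (1 + c) / 2 * (Cq * (q - qs) ^ 2) + (1 - c) / 2 * (Cq * (r - rs) ^ 2) := by
    have := mul_le_mul_of_nonneg_left K3 hCq0
    linarith
  -- the value of the quadratic
  have hQsb : 0 < (1 - A) / 2 := by positivity
  set X := ((1 + c) / 2 - (1 + A) / 2) ^ 2 / ((1 - A) / 2) ^ 2 with hX
  have hval : Cq * ((1 + c) / 2 * qs - (1 - c) / 2 * rs) ^ 2 = om ρ β qs * X := by
    have e : (1 + c) / 2 * qs - (1 - c) / 2 * rs = ((1 + c) / 2 - (1 + A) / 2) * (qs + rs) := by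
      rw [hqs, hrs]
      field_simp
      ring
    have e2 : qs = (1 - A) / 2 * (qs + rs) := by
      rw [hqs, hrs]
      field_simp
      ring
    have hT : qs + rs ≠ 0 := by positivity
    rw [e, hCq, hX]
    have e3 : qs ^ 2 = ((1 - A) / 2) ^ 2 * (qs + rs) ^ 2 := by
      conv_lhs => rw [e2]
      ring
    rw [e3]
    field_simp
  -- the relative entropy
  have K4 := kl_le (p := (1 + c) / 2) (a := (1 + A) / 2) (by linarith) (by linarith) (by linarith)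
    (by linarith)
  rw [← Real.log_inv, inv_div, ← hlp] at K4
  have e1A : 1 - (1 + A) / 2 = (1 - A) / 2 := by ring
  rw [e1A] at K4
  have hkl : kl ((1 + c) / 2) ((1 + A) / 2) ≤ X * lp := by
    rw [hX, div_mul_eq_mul_div, le_div_iff₀ (by positivity)]
    linarith
  have hkl2 : (1 - β) * kl ((1 + c) / 2) ((1 + A) / 2) ≤ om ρ β qs * X := by
    rw [hrel]
    have := mul_le_mul_of_nonneg_left hkl hy
    linarith
  rw [← hr] at *
  linarith

/-- The identity at the touching point. -/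
lemma core_touch {ρ β A B kDrs krs omrs : ℝ} (hρ0 : 0 < ρ) (hρ1 : ρ < 1)
    (hA : 0 ≤ A) (hB : 0 < B) (hB1 : B < 1) (hAB : A + B ≤ 1)
    (hrel : om ρ β (B / (1 + A)) = (1 - β) * Real.log (2 / (1 + A)))
    (homrs : omrs = B / (1 - A) * kDrs - krs) (hkrs : krs = kap ρ β (B / (1 - A))) :
    (kapD ρ β (B / (1 + A)) + kDrs) / 2 * B + β * Phi A B
        - (omrs - (1 - β) * Real.log (2 / (1 - A))) / 2 * (1 - A)
      = Phi A (ρ * B) := by
  have hA1 : A < 1 := by linarith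
  have hPa : 0 < 1 + A := by linarith
  have hQa : 0 < 1 - A := by linarith
  obtain ⟨qs, hqs⟩ : ∃ qs, qs = B / (1 + A) := ⟨_, rfl⟩
  obtain ⟨rs, hrs⟩ : ∃ rs, rs = B / (1 - A) := ⟨_, rfl⟩
  obtain ⟨lp, hlp⟩ : ∃ lp, lp = Real.log (2 / (1 + A)) := ⟨_, rfl⟩
  obtain ⟨lq, hlq⟩ : ∃ lq, lq = Real.log (2 / (1 - A)) := ⟨_, rfl⟩
  rw [← hqs, ← hlp] at hrel
  rw [← hrs] at homrs hkrs
  rw [← hqs, ← hlq]
  have hqs0 : 0 < qs := by rw [hqs]; positivity
  have hqs1 : qs < 1 := by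
    rw [hqs, div_lt_one hPa]; linarith
  have E1 : Phi A B = psi A - (1 + A) / 2 * del qs - (1 - A) / 2 * del rs := by
    rw [hqs, hrs]
    exact phi_identity (by linarith) hA1
  have E2 : Phi A (ρ * B) = psi A - (1 + A) / 2 * del (ρ * qs) - (1 - A) / 2 * del (ρ * rs) := by
    have e1 : ρ * qs = ρ * B / (1 + A) := by rw [hqs]; ring
    have e2 : ρ * rs = ρ * B / (1 - A) := by rw [hrs]; ring
    rw [e1, e2]
    exact phi_identity (by linarith) hA1
  have E3 : (1 + A) / 2 * qs = B / 2 := by rw [hqs]; field_simp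
  have E4 : (1 - A) / 2 * rs = B / 2 := by rw [hrs]; field_simp
  have hqsabs : |qs| < 1 := by rw [abs_of_pos hqs0]; exact hqs1
  have E5 : om ρ β qs = qs * kapD ρ β qs - kap ρ β qs := om_eq hρ0 hρ1 hqsabs
  have e_ps : Real.log ((1 + A) / 2) = - lp := by
    rw [hlp, ← Real.log_inv, inv_div]
  have e_qs : Real.log (1 - (1 + A) / 2) = - lq := by
    rw [hlq, ← Real.log_inv, inv_div]
    congr 1
    ring
  have E8 : kl ((1 + A) / 2) ((1 + A) / 2) = - psi A + (1 + A) / 2 * lp + (1 - A) / 2 * lq := by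
    unfold kl
    rw [e_ps, e_qs, psi_eq_negMulLog]
    have e : 1 - (1 + A) / 2 = (1 - A) / 2 := by ring
    rw [e]
    ring
  have hid := core_algebra (PhiR := Phi A (ρ * B)) (PhiD := Phi A B) (q := qs) (r := rs) (d := B)
    (kq := kap ρ β qs) (kr := kap ρ β rs) (kqs := kap ρ β qs) (krs := krs) (kDqs := kapD ρ β qs)
    (kDrs := kDrs) (omqs := om ρ β qs) (omrs := omrs) (qs := qs) (rs := rs) (lp := lp) (lq := lq)
    (KLv := kl ((1 + A) / 2) ((1 + A) / 2)) (β := β) E1 E2 E3 E4 E5 homrs hrel E8 rfl rfl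
  rw [kl_self, ← hkrs] at hid
  simp only [sub_self, mul_zero, add_zero] at hid
  linarith

lemma ath_nonneg' {x : ℝ} (h0 : 0 ≤ x) (h1 : x < 1) : 0 ≤ ath x := by
  have := ath_mono (a := 0) (b := x) (by norm_num) h0 h1
  rwa [ath_zero] at this

lemma kapD_nonneg {ρ β x : ℝ} (hρ0 : 0 < ρ) (hρ1 : ρ < 1) (hβ : ρ ^ 2 ≤ β) (h0 : 0 ≤ x) (h1 : x < 1) :
    0 ≤ kapD ρ β x := by
  unfold kapD
  have h2 := ath_mul_le hρ0.le hρ1.le h0 h1
  have h3 := ath_nonneg' h0 h1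
  have h4 : ρ * ath (ρ * x) ≤ ρ * (ρ * ath x) := mul_le_mul_of_nonneg_left h2 hρ0.le
  nlinarith

/-- `γ ≥ 0` for the interior certificate. -/
lemma gamma_nonneg {ρ β A B : ℝ} (hρ0 : 0 < ρ) (hρ1 : ρ < 1) (hβ : ρ ^ 2 ≤ β) (hβ1 : β ≤ 1)
    (hA : 0 ≤ A) (hB : 0 < B) (hAB : A + B < 1)
    (hrel : om ρ β (B / (1 + A)) = (1 - β) * Real.log (2 / (1 + A))) :
    (1 - β) * Real.log (2 / (1 - A)) ≤ om ρ β (B / (1 - A)) := by
  have hA1 : A < 1 := by linarith
  have hPa : 0 < 1 + A := by linarith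
  have hQa : 0 < 1 - A := by linarith
  have hqr : B / (1 + A) ≤ B / (1 - A) :=
    div_le_div_of_nonneg_left hB.le hQa (by linarith)
  have hr1 : B / (1 - A) < 1 := by rw [div_lt_one hQa]; linarith
  have h2 := om_ratio_mono hρ0 hρ1 hβ (by positivity) hqr hr1
  rw [hrel] at h2
  obtain ⟨lp, hlp⟩ : ∃ lp, lp = Real.log (2 / (1 + A)) := ⟨_, rfl⟩
  obtain ⟨lq, hlq⟩ : ∃ lq, lq = Real.log (2 / (1 - A)) := ⟨_, rfl⟩
  rw [← hlp] at h2
  rw [← hlq]
  have hK5 := lam_nonneg (a := (1 + A) / 2) (by linarith) (by linarith)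
  have e1 : 1 - (1 + A) / 2 = (1 - A) / 2 := by ring
  rw [e1] at hK5
  have e_ps : Real.negMulLog ((1 + A) / 2) = (1 + A) / 2 * lp := by
    unfold Real.negMulLog
    have : Real.log (2 / (1 + A)) = - Real.log ((1 + A) / 2) := by
      rw [← Real.log_inv, inv_div]
    rw [hlp, this]
    ring
  have e_qs : Real.negMulLog ((1 - A) / 2) = (1 - A) / 2 * lq := by
    unfold Real.negMulLog
    have : Real.log (2 / (1 - A)) = - Real.log ((1 - A) / 2) := by
      rw [← Real.log_inv, inv_div]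
    rw [hlq, this]
    ring
  rw [e_ps, e_qs] at hK5
  have hlq2 : (1 - A) ^ 2 * lq ≤ (1 + A) ^ 2 * lp := by nlinarith
  have hy : 0 ≤ 1 - β := by linarith
  have e2 : (B / (1 + A)) ^ 2 = B ^ 2 / (1 + A) ^ 2 := by rw [div_pow]
  have e3 : (B / (1 - A)) ^ 2 = B ^ 2 / (1 - A) ^ 2 := by rw [div_pow]
  rw [e2, e3] at h2
  have e4 : (1 - β) * lp / (B ^ 2 / (1 + A) ^ 2) = (1 - β) * (lp * (1 + A) ^ 2) / B ^ 2 := by
    field_simp
  have e5 : om ρ β (B / (1 - A)) / (B ^ 2 / (1 - A) ^ 2) = om ρ β (B / (1 - A)) * (1 - A) ^ 2 / B ^ 2 := by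
    field_simp
  rw [e4, e5, div_le_div_iff_of_pos_right (by positivity)] at h2
  have h3 : (1 - β) * ((1 - A) ^ 2 * lq) ≤ (1 - β) * ((1 + A) ^ 2 * lp) :=
    mul_le_mul_of_nonneg_left hlq2 hy
  have h4 : (1 - β) * lq * (1 - A) ^ 2 ≤ om ρ β (B / (1 - A)) * (1 - A) ^ 2 := by nlinarith
  exact le_of_mul_le_mul_right h4 (by positivity)

/-- The logarithmic quantity in the exact touching exponent. -/
noncomputable def LA (A x : ℝ) : ℝ := Real.log (4 / ((1 + A) ^ 2 - x ^ 2))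

/-- The exact touching exponent `β = LL(ρ B) / LL(B)`. -/
noncomputable def betaT (ρ A B : ℝ) : ℝ := LA A (ρ * B) / LA A B

lemma LA_pos {A x : ℝ} (hA : 0 ≤ A) (hx : 0 < x) (hx1 : x < 1) (hAx : A + x ≤ 1) : 0 < LA A x := by
  unfold LA
  have h0 : 0 < (1 + A) ^ 2 - x ^ 2 := by nlinarith
  apply Real.log_pos
  rw [lt_div_iff₀ h0]
  nlinarith

lemma betaT_rel {ρ A B : ℝ} (hρ0 : 0 < ρ) (hρ1 : ρ < 1) (hA : 0 ≤ A) (hB : 0 < B) (hB1 : B < 1)
    (hAB : A + B ≤ 1) :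
    om ρ (betaT ρ A B) (B / (1 + A)) = (1 - betaT ρ A B) * Real.log (2 / (1 + A)) := by
  have hPa : 0 < 1 + A := by linarith
  have hL1 := LA_pos hA hB hB1 hAB
  have hS1 : 0 < (1 + A) ^ 2 - B ^ 2 := by nlinarith
  have hS2 : 0 < (1 + A) ^ 2 - (ρ * B) ^ 2 := by
    have : (ρ * B) ^ 2 ≤ B ^ 2 := by
      have : ρ ^ 2 ≤ 1 := by nlinarith
      nlinarith [sq_nonneg B]
    linarith
  obtain ⟨β, hβ⟩ : ∃ β, β = betaT ρ A B := ⟨_, rfl⟩
  rw [← hβ]
  have hβL : β * LA A B = LA A (ρ * B) := by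
    rw [hβ]
    unfold betaT
    field_simp
  have hP2 : (1 + A) ^ 2 ≠ 0 := by positivity
  have e1 : 1 - (ρ * (B / (1 + A))) ^ 2 = ((1 + A) ^ 2 - (ρ * B) ^ 2) / (1 + A) ^ 2 := by
    field_simp
  have e2 : 1 - (B / (1 + A)) ^ 2 = ((1 + A) ^ 2 - B ^ 2) / (1 + A) ^ 2 := by
    field_simp
  have hlogS : Real.log ((1 + A) ^ 2) = 2 * Real.log (1 + A) := by
    rw [Real.log_pow]
    norm_num
  have hlog4 : Real.log 4 = 2 * Real.log 2 := by
    have : (4 : ℝ) = 2 ^ 2 := by norm_num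
    rw [this, Real.log_pow]
    norm_num
  have hL1' : LA A B = 2 * Real.log 2 - Real.log ((1 + A) ^ 2 - B ^ 2) := by
    unfold LA
    rw [Real.log_div (by norm_num) hS1.ne', hlog4]
  have hL2' : LA A (ρ * B) = 2 * Real.log 2 - Real.log ((1 + A) ^ 2 - (ρ * B) ^ 2) := by
    unfold LA
    rw [Real.log_div (by norm_num) hS2.ne', hlog4]
  unfold om
  rw [e1, e2, Real.log_div hS2.ne' hP2, Real.log_div hS1.ne' hP2, hlogS,
    Real.log_div (by norm_num) hPa.ne']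
  rw [hL1', hL2'] at hβL
  linear_combination (1 / 2) * hβL

lemma betaT_pos {ρ A B : ℝ} (hρ0 : 0 < ρ) (hρ1 : ρ < 1) (hA : 0 ≤ A) (hB : 0 < B) (hB1 : B < 1)
    (hAB : A + B ≤ 1) : 0 < betaT ρ A B := by
  have h1 := LA_pos hA hB hB1 hAB
  have h2 : ρ * B < B := by nlinarith
  have h3 := LA_pos (x := ρ * B) hA (by positivity) (by linarith) (by linarith)
  exact div_pos h3 h1

lemma betaT_le_one {ρ A B : ℝ} (hρ0 : 0 < ρ) (hρ1 : ρ < 1) (hA : 0 ≤ A) (hB : 0 < B) (hB1 : B < 1)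
    (hAB : A + B ≤ 1) : betaT ρ A B ≤ 1 := by
  have h1 := LA_pos hA hB hB1 hAB
  unfold betaT
  rw [div_le_one h1]
  unfold LA
  have hS1 : 0 < (1 + A) ^ 2 - B ^ 2 := by nlinarith
  have hle : (ρ * B) ^ 2 ≤ B ^ 2 := by
    have : ρ ^ 2 ≤ 1 := by nlinarith
    nlinarith [sq_nonneg B]
  apply Real.log_le_log
  · have hS2 : 0 < (1 + A) ^ 2 - (ρ * B) ^ 2 := by linarith
    positivity
  · apply div_le_div_of_nonneg_left (by norm_num) hS1
    linarith

/-- The interior plane certificate on the whole square. -/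
lemma plane_interior {ρ β A B : ℝ} (hρ0 : 0 < ρ) (hρ1 : ρ < 1) (hβ : ρ ^ 2 ≤ β) (hβ1 : β ≤ 1)
    (hA : 0 ≤ A) (hB : 0 < B) (hB1 : B < 1) (hAB : A + B < 1)
    (hrel : om ρ β (B / (1 + A)) = (1 - β) * Real.log (2 / (1 + A)))
    {s t : ℝ} (hs : |s| ≤ 1) (ht : |t| ≤ 1) :
    (kapD ρ β (B / (1 + A)) + kapD ρ β (B / (1 - A))) / 2 * ((s - t) / 2)
      + β * ((psi s + psi t) / 2)
      - (om ρ β (B / (1 - A)) - (1 - β) * Real.log (2 / (1 - A))) / 2 * (1 - (s + t) / 2)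
      ≤ pairY ρ s t := by
  have hA1 : A < 1 := by linarith
  have hPa : 0 < 1 + A := by linarith
  have hQa : 0 < 1 - A := by linarith
  have hqs0 : 0 < B / (1 + A) := by positivity
  have hrs0 : 0 < B / (1 - A) := by positivity
  have hqs1 : B / (1 + A) < 1 := by rw [div_lt_one hPa]; linarith
  have hrs1 : B / (1 - A) < 1 := by rw [div_lt_one hQa]; linarith
  have hqr : B / (1 + A) ≤ B / (1 - A) :=
    div_le_div_of_nonneg_left hB.le hQa (by linarith)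
  have hα : 0 ≤ (kapD ρ β (B / (1 + A)) + kapD ρ β (B / (1 - A))) / 2 := by
    have h1 := kapD_nonneg hρ0 hρ1 hβ hqs0.le hqs1
    have h2 := kapD_nonneg hρ0 hρ1 hβ hrs0.le hrs1
    linarith
  have hγ : 0 ≤ (om ρ β (B / (1 - A)) - (1 - β) * Real.log (2 / (1 - A))) / 2 := by
    have := gamma_nonneg hρ0 hρ1 hβ hβ1 hA hB hAB hrel
    linarith
  rw [pairY_eq, Phi_add_sub]
  have hs' := abs_le.mp hs
  have ht' := abs_le.mp ht
  obtain ⟨c, hc⟩ : ∃ c, c = (s + t) / 2 := ⟨_, rfl⟩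
  obtain ⟨d, hd⟩ : ∃ d, d = (s - t) / 2 := ⟨_, rfl⟩
  rw [← hc, ← hd]
  have hcd : |c| + |d| ≤ 1 := by
    rw [hc, hd]
    rcases abs_cases ((s + t) / 2) with ⟨e1, _⟩ | ⟨e1, _⟩ <;>
      rcases abs_cases ((s - t) / 2) with ⟨e2, _⟩ | ⟨e2, _⟩ <;> rw [e1, e2] <;>
      linarith [hs'.1, hs'.2, ht'.1, ht'.2]
  have hρabs : |ρ * d| = ρ * |d| := by rw [abs_mul, abs_of_pos hρ0]
  rw [Phi_abs c ((ρ * d)), Phi_abs c d, hρabs]
  have hcle : c ≤ |c| := le_abs_self c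
  have hdle : d ≤ |d| := le_abs_self d
  obtain ⟨c', hc'⟩ : ∃ c', c' = |c| := ⟨_, rfl⟩
  obtain ⟨d', hd'⟩ : ∃ d', d' = |d| := ⟨_, rfl⟩
  rw [← hc'] at hcd hcle
  rw [← hd'] at hcd hdle
  rw [← hc', ← hd']
  have hc0 : 0 ≤ c' := by rw [hc']; exact abs_nonneg _
  have hd0 : 0 ≤ d' := by rw [hd']; exact abs_nonneg _
  -- it suffices to prove the plane bound at `(c', d')`
  have hmain : (kapD ρ β (B / (1 + A)) + kapD ρ β (B / (1 - A))) / 2 * d' + β * Phi c' d'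
      - (om ρ β (B / (1 - A)) - (1 - β) * Real.log (2 / (1 - A))) / 2 * (1 - c')
      ≤ Phi c' (ρ * d') := by
    by_cases hc1 : c' < 1
    · refine core_pos (kDrs := kapD ρ β (B / (1 - A))) (krs := kap ρ β (B / (1 - A)))
        (omrs := om ρ β (B / (1 - A))) hρ0 hρ1 hβ hβ1 hA hB hB1 hAB.le hrel ?_ hc0 hc1 hd0
        (by linarith) ?_
      · exact om_eq (β := β) (x := B / (1 - A)) hρ0 hρ1 (by rw [abs_of_pos hrs0]; exact hrs1)
      · have hr0 : 0 ≤ d' / (1 - c') := div_nonneg hd0 (by linarith)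
        have hr1 : d' / (1 - c') ≤ 1 := by
          rw [div_le_one (by linarith)]
          linarith
        have K1 := breg_lower hρ0 hρ1 hβ hrs0 hrs1 hr0 hr1
        have K2 := om_ratio_mono hρ0 hρ1 hβ hqs0 hqr hrs1
        have h3 := mul_le_mul_of_nonneg_right K2 (sq_nonneg (d' / (1 - c') - B / (1 - A)))
        linarith
    · have hc2 : c' = 1 := by linarith
      have hd2 : d' = 0 := by linarith
      rw [hc2, hd2]
      simp only [mul_zero, sub_self, zero_add, sub_zero]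
      have : Phi 1 0 = 0 := by
        unfold Phi
        simp [psi_one]
      rw [this]
      simp
  have h1 := mul_le_mul_of_nonneg_left hdle hα
  have h2 := mul_le_mul_of_nonneg_left hcle hγ
  nlinarith

/-- The plane certificate on the edge `s = 1`. -/
lemma plane_edge {ρ β A B : ℝ} (hρ0 : 0 < ρ) (hρ1 : ρ < 1) (hβ : ρ ^ 2 ≤ β) (hβ1 : β ≤ 1)
    (hA : 0 ≤ A) (hB : 0 < B) (hB1 : B < 1) (hAB : A + B = 1)
    (hrel : om ρ β (B / (1 + A)) = (1 - β) * Real.log (2 / (1 + A)))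
    {t : ℝ} (ht : |t| ≤ 1) :
    (kapD ρ β (B / (1 + A)) + 0) / 2 * ((1 - t) / 2)
      + β * ((psi 1 + psi t) / 2)
      - ((- kap ρ β 1) - (1 - β) * Real.log (2 / (1 - A))) / 2 * (1 - (1 + t) / 2)
      ≤ pairY ρ 1 t := by
  have ht' := abs_le.mp ht
  have hQa : 0 < 1 - A := by linarith
  have hrs : B / (1 - A) = 1 := by
    rw [div_eq_one_iff_eq hQa.ne']
    linarith
  rw [pairY_eq, Phi_add_sub]
  by_cases ht1 : t < 1
  · have hc0 : 0 ≤ (1 + t) / 2 := by linarith [ht'.1]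
    have hc1 : (1 + t) / 2 < 1 := by linarith
    have hd : 1 - (1 + t) / 2 = (1 - t) / 2 := by ring
    refine core_pos (kDrs := 0) (krs := kap ρ β 1) (omrs := - kap ρ β 1) hρ0 hρ1 hβ hβ1 hA hB hB1 hAB.le hrel
      ?_ hc0 hc1 (by linarith) (by linarith) ?_
    · rw [hrs]
      ring
    · have hr : (1 - t) / 2 / (1 - (1 + t) / 2) = 1 := by
        rw [hd]
        exact div_self (by linarith)
      rw [hr, hrs]
      simp
  · have ht2 : t = 1 := by linarith [ht'.2]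
    rw [ht2]
    norm_num
    have : Phi 1 0 = 0 := by
      unfold Phi
      simp [psi_one]
    rw [this]
    simp

/-- **Touching plane certificate step**: the inequality at the touching point yields the
plane certificate step of the Bellman induction. -/
theorem planeStep_of_touch {ρ A B : ℝ} {U : ℝ → ℝ} (hρ0 : 0 < ρ) (hρ1 : ρ < 1)
    (hA : 0 ≤ A) (hB : 0 < B) (hB1 : B < 1) (hAB : A + B ≤ 1)
    (hβ : ρ ^ 2 ≤ betaT ρ A B)
    (hS : U A ≤ Phi A (ρ * B)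
      + betaT ρ A B * ((U (A + B) + U (A - B)) / 2 - Phi A B)) :
    PlaneStep ρ U A B := by
  have hβ1 := betaT_le_one hρ0 hρ1 hA hB hB1 hAB
  have hβ0 := betaT_pos hρ0 hρ1 hA hB hB1 hAB
  have hrel := betaT_rel hρ0 hρ1 hA hB hB1 hAB
  obtain ⟨β, hβdef⟩ : ∃ β, β = betaT ρ A B := ⟨_, rfl⟩
  rw [← hβdef] at hβ hS hβ1 hβ0 hrel
  rcases lt_or_eq_of_le hAB with hlt | heq
  · -- interior
    have hA1 : A < 1 := by linarith
    have hQa : 0 < 1 - A := by linarith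
    have hrs0 : 0 < B / (1 - A) := by positivity
    have hrs1 : B / (1 - A) < 1 := by rw [div_lt_one hQa]; linarith
    have htouch := core_touch (kDrs := kapD ρ β (B / (1 - A))) (krs := kap ρ β (B / (1 - A)))
      (omrs := om ρ β (B / (1 - A))) hρ0 hρ1 hA hB hB1 hAB hrel
      (om_eq hρ0 hρ1 (by rw [abs_of_pos hrs0]; exact hrs1)) rfl
    obtain ⟨α, hα⟩ : ∃ α, α = (kapD ρ β (B / (1 + A)) + kapD ρ β (B / (1 - A))) / 2 := ⟨_, rfl⟩
    obtain ⟨γ, hγ⟩ : ∃ γ, γ = (om ρ β (B / (1 - A)) - (1 - β) * Real.log (2 / (1 - A))) / 2 := ⟨_, rfl⟩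
    rw [← hα, ← hγ] at htouch
    refine ⟨-γ, γ, α, β, hβ0.le, ?_, ?_⟩
    · intro s t hs ht _
      have := plane_interior hρ0 hρ1 hβ hβ1 hA hB hB1 hlt hrel hs ht
      rw [← hα, ← hγ] at this
      linarith
    · rw [← htouch] at hS
      linarith
  · -- edge
    have htouch := core_touch (kDrs := 0) (krs := kap ρ β 1)
      (omrs := - kap ρ β 1) hρ0 hρ1 hA hB hB1 hAB hrel
      (by
        have hQa : 0 < 1 - A := by linarith
        have hrs : B / (1 - A) = 1 := by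
          rw [div_eq_one_iff_eq hQa.ne']
          linarith
        rw [hrs]
        ring)
      (by
        have hQa : 0 < 1 - A := by linarith
        have hrs : B / (1 - A) = 1 := by
          rw [div_eq_one_iff_eq hQa.ne']
          linarith
        rw [hrs])
    obtain ⟨α, hα⟩ : ∃ α, α = (kapD ρ β (B / (1 + A)) + 0) / 2 := ⟨_, rfl⟩
    obtain ⟨γ, hγ⟩ : ∃ γ, γ = ((- kap ρ β 1) - (1 - β) * Real.log (2 / (1 - A))) / 2 := ⟨_, rfl⟩
    rw [← hα, ← hγ] at htouch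
    refine ⟨-γ, γ, α, β, hβ0.le, ?_, ?_⟩
    · intro s t hs ht hs1
      have h1 := hs1 heq
      subst h1
      have := plane_edge hρ0 hρ1 hβ hβ1 hA hB hB1 heq hrel ht
      rw [← hα, ← hγ] at this
      linarith
    · rw [← htouch] at hS
      linarith

/-- The step with zero slice difference is trivial. -/
theorem planeStep_zero {ρ A : ℝ} {U : ℝ → ℝ} (hρ0 : 0 ≤ ρ) (hρ1 : ρ ≤ 1) : PlaneStep ρ U A 0 := by
  refine ⟨0, 0, 0, 1, by norm_num, ?_, ?_⟩
  · intro s t hs ht _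
    have h1 := chord hρ0 hρ1 hs ht
    have hs' := abs_le.mp hs
    have ht' := abs_le.mp ht
    have h2 := concaveOn_psi.2 (⟨hs'.1, hs'.2⟩ : s ∈ Icc (-1 : ℝ) 1) (⟨ht'.1, ht'.2⟩ : t ∈ Icc (-1 : ℝ) 1)
      (by norm_num : (0 : ℝ) ≤ 1 / 2) (by norm_num : (0 : ℝ) ≤ 1 / 2) (by norm_num)
    simp only [smul_eq_mul] at h2
    have e : 1 / 2 * s + 1 / 2 * t = (s + t) / 2 := by ring
    rw [e] at h2
    have h3 : ρ ^ 2 ≤ 1 := by nlinarith
    have h4 : (1 - ρ ^ 2) * ((psi s + psi t) / 2) ≤ (1 - ρ ^ 2) * psi ((s + t) / 2) :=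
      mul_le_mul_of_nonneg_left (by linarith) (by linarith)
    nlinarith
  · simp

end Vale.Agent.P322W
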