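import Mathlib

namespace Vale.Agent.P322W

open Real Set

/-- Monotonicity from a nonnegative derivative on the open interval. -/
lemma mono_Icc {f f' : ℝ → ℝ} {u v : ℝ} (huv : u ≤ v) (hc : ContinuousOn f (Icc u v))
    (hd : ∀ x ∈ Ioo u v, HasDerivAt f (f' x) x) (h : ∀ x ∈ Ioo u v, 0 ≤ f' x) : f u ≤ f v := by
  have hm : MonotoneOn f (Icc u v) := by
    apply monotoneOn_of_hasDerivWithinAt_nonneg (f' := f') (convex_Icc u v) hc
    · intro x hx
      rw [interior_Icc] at hx ⊢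
      exact (hd x hx).hasDerivWithinAt
    · intro x hx
      rw [interior_Icc] at hx
      exact h x hx
  exact hm (left_mem_Icc.mpr huv) (right_mem_Icc.mpr huv) huv

lemma anti_Icc {f f' : ℝ → ℝ} {u v : ℝ} (huv : u ≤ v) (hc : ContinuousOn f (Icc u v))
    (hd : ∀ x ∈ Ioo u v, HasDerivAt f (f' x) x) (h : ∀ x ∈ Ioo u v, f' x ≤ 0) : f v ≤ f u := by
  have hm : AntitoneOn f (Icc u v) := by
    apply antitoneOn_of_hasDerivWithinAt_nonpos (f' := f') (convex_Icc u v) hc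
    · intro x hx
      rw [interior_Icc] at hx ⊢
      exact (hd x hx).hasDerivWithinAt
    · intro x hx
      rw [interior_Icc] at hx
      exact h x hx
  exact hm (left_mem_Icc.mpr huv) (right_mem_Icc.mpr huv) huv

/-- Convexity from a monotone derivative. -/
lemma convexOn_Ico_of_hasDerivAt {f f' : ℝ → ℝ} {a b : ℝ}
    (hd : ∀ x ∈ Ico a b, HasDerivAt f (f' x) x) (hm : MonotoneOn f' (Ico a b)) :
    ConvexOn ℝ (Ico a b) f := by
  apply MonotoneOn.convexOn_of_deriv (convex_Ico a b)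
  · exact fun x hx => (hd x hx).continuousAt.continuousWithinAt
  · intro x hx
    rw [interior_Ico] at hx
    exact (hd x ⟨hx.1.le, hx.2⟩).differentiableAt.differentiableWithinAt
  · intro x hx y hy hxy
    rw [interior_Ico] at hx hy
    rw [(hd x ⟨hx.1.le, hx.2⟩).deriv, (hd y ⟨hy.1.le, hy.2⟩).deriv]
    exact hm ⟨hx.1.le, hx.2⟩ ⟨hy.1.le, hy.2⟩ hxy

lemma concaveOn_Ico_of_hasDerivAt {f f' : ℝ → ℝ} {a b : ℝ}
    (hd : ∀ x ∈ Ico a b, HasDerivAt f (f' x) x) (hm : AntitoneOn f' (Ico a b)) :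
    ConcaveOn ℝ (Ico a b) f := by
  apply AntitoneOn.concaveOn_of_deriv (convex_Ico a b)
  · exact fun x hx => (hd x hx).continuousAt.continuousWithinAt
  · intro x hx
    rw [interior_Ico] at hx
    exact (hd x ⟨hx.1.le, hx.2⟩).differentiableAt.differentiableWithinAt
  · intro x hx y hy hxy
    rw [interior_Ico] at hx hy
    rw [(hd x ⟨hx.1.le, hx.2⟩).deriv, (hd y ⟨hy.1.le, hy.2⟩).deriv]
    exact hm ⟨hx.1.le, hx.2⟩ ⟨hy.1.le, hy.2⟩ hxy

/-- A function whose derivative is convex and which vanishes at `a` and doubly at `m`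
is nonnegative to the right of `a`. -/
lemma three_zero {f f' : ℝ → ℝ} {a m b : ℝ} (ham : a < m) (hmb : m < b)
    (hcont : ContinuousOn f (Icc a b))
    (hd : ∀ x ∈ Ico a b, HasDerivAt f (f' x) x)
    (hconv : ConvexOn ℝ (Ico a b) f')
    (h0 : f a = 0) (h1 : f m = 0) (h2 : f' m = 0) :
    ∀ x ∈ Icc a b, 0 ≤ f x := by
  obtain ⟨ξ, hξ, hξ0⟩ : ∃ ξ ∈ Ioo a m, f' ξ = 0 :=
    exists_hasDerivAt_eq_zero ham (hcont.mono (Icc_subset_Icc le_rfl hmb.le))
      (h0.trans h1.symm) (fun x hx => hd x ⟨hx.1.le, hx.2.trans hmb⟩)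
  have hξm : ξ ∈ Ico a b := ⟨hξ.1.le, hξ.2.trans hmb⟩
  have hmm : m ∈ Ico a b := ⟨ham.le, hmb⟩
  have hl : ∀ x ∈ Ioo a ξ, 0 ≤ f' x := by
    intro x hx
    have hs := hconv.slope_mono_adjacent (x := x) (y := ξ) (z := m)
      ⟨hx.1.le, hx.2.trans hξm.2⟩ hmm hx.2 hξ.2
    rw [hξ0, h2] at hs
    have h3 : 0 < ξ - x := sub_pos.mpr hx.2
    have h4 : 0 < m - ξ := sub_pos.mpr hξ.2
    simp only [sub_zero, zero_sub, zero_div] at hs
    by_contra hneg
    push Not at hneg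
    have : 0 < - f' x / (ξ - x) := div_pos (by linarith) h3
    linarith
  have hc : ∀ x ∈ Ioo ξ m, f' x ≤ 0 := by
    intro x hx
    have hs := hconv.slope_mono_adjacent (x := ξ) (y := x) (z := m) hξm hmm hx.1 hx.2
    rw [hξ0, h2] at hs
    have h3 : 0 < x - ξ := sub_pos.mpr hx.1
    have h4 : 0 < m - x := sub_pos.mpr hx.2
    simp only [sub_zero, zero_sub] at hs
    by_contra hneg
    push Not at hneg
    have h5 : 0 < f' x / (x - ξ) := div_pos hneg h3
    have h6 : 0 < f' x / (m - x) := div_pos hneg h4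
    have h7 : - f' x / (m - x) = - (f' x / (m - x)) := by ring
    linarith
  have hr : ∀ x ∈ Ioo m b, 0 ≤ f' x := by
    intro x hx
    have hs := hconv.slope_mono_adjacent (x := ξ) (y := m) (z := x) hξm
      ⟨(ham.trans hx.1).le, hx.2⟩ hξ.2 hx.1
    rw [hξ0, h2] at hs
    have h3 : 0 < x - m := sub_pos.mpr hx.1
    simp only [sub_zero, zero_div] at hs
    by_contra hneg
    push Not at hneg
    have : f' x / (x - m) < 0 := div_neg_of_neg_of_pos hneg h3
    linarith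
  intro x hx
  rcases le_total x ξ with hxξ | hxξ
  · have := mono_Icc (f := f) (f' := f') hx.1 (hcont.mono (Icc_subset_Icc le_rfl (hxξ.trans (hξ.2.le.trans hmb.le))))
      (fun y hy => hd y ⟨hy.1.le, hy.2.trans_le (hxξ.trans (hξ.2.le.trans hmb.le))⟩)
      (fun y hy => hl y ⟨hy.1, hy.2.trans_le hxξ⟩)
    rw [h0] at this
    exact this
  · rcases le_total x m with hxm | hxm
    · have := anti_Icc (f := f) (f' := f') hxm
        (hcont.mono (Icc_subset_Icc hx.1 hmb.le))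
        (fun y hy => hd y ⟨hx.1.trans hy.1.le, hy.2.trans hmb⟩)
        (fun y hy => hc y ⟨hxξ.trans_lt hy.1, hy.2⟩)
      rw [h1] at this
      exact this
    · have := mono_Icc (f := f) (f' := f') hxm
        (hcont.mono (Icc_subset_Icc ham.le hx.2))
        (fun y hy => hd y ⟨ham.le.trans hy.1.le, hy.2.trans_le hx.2⟩)
        (fun y hy => hr y ⟨hy.1, hy.2.trans_le hx.2⟩)
      rw [h1] at this
      exact this

/-- A function with concave derivative, vanishing doubly at `a` and at `b`, is nonnegative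
between them. -/
lemma two_zero_concave {f f' : ℝ → ℝ} {a b : ℝ} (hab : a < b)
    (hcont : ContinuousOn f (Icc a b))
    (hd : ∀ x ∈ Ico a b, HasDerivAt f (f' x) x)
    (hconc : ConcaveOn ℝ (Ico a b) f')
    (h0 : f a = 0) (h1 : f' a = 0) (h2 : f b = 0) :
    ∀ x ∈ Icc a b, 0 ≤ f x := by
  obtain ⟨ξ, hξ, hξ0⟩ : ∃ ξ ∈ Ioo a b, f' ξ = 0 :=
    exists_hasDerivAt_eq_zero hab hcont (h0.trans h2.symm)
      (fun x hx => hd x ⟨hx.1.le, hx.2⟩)
  have ha : a ∈ Ico a b := ⟨le_rfl, hab⟩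
  have hξm : ξ ∈ Ico a b := ⟨hξ.1.le, hξ.2⟩
  have hl : ∀ x ∈ Ioo a ξ, 0 ≤ f' x := by
    intro x hx
    have hs := hconc.slope_anti_adjacent (x := a) (y := x) (z := ξ) ha hξm hx.1 hx.2
    rw [hξ0, h1] at hs
    have h3 : 0 < x - a := sub_pos.mpr hx.1
    have h4 : 0 < ξ - x := sub_pos.mpr hx.2
    simp only [sub_zero, zero_sub] at hs
    by_contra hneg
    push Not at hneg
    have h5 : f' x / (x - a) < 0 := div_neg_of_neg_of_pos hneg h3
    have h6 : 0 < - f' x / (ξ - x) := div_pos (by linarith) h4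
    linarith
  have hr : ∀ x ∈ Ioo ξ b, f' x ≤ 0 := by
    intro x hx
    have hs := hconc.slope_anti_adjacent (x := a) (y := ξ) (z := x) ha ⟨(hξ.1.trans hx.1).le, hx.2⟩ hξ.1 hx.1
    rw [hξ0, h1] at hs
    have h3 : 0 < x - ξ := sub_pos.mpr hx.1
    simp only [sub_zero, zero_div] at hs
    by_contra hneg
    push Not at hneg
    have : 0 < f' x / (x - ξ) := div_pos hneg h3
    linarith
  intro x hx
  rcases le_total x ξ with hxξ | hxξ
  · have := mono_Icc (f := f) (f' := f') hx.1 (hcont.mono (Icc_subset_Icc le_rfl (hxξ.trans hξ.2.le)))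
      (fun y hy => hd y ⟨hy.1.le, hy.2.trans_le (hxξ.trans hξ.2.le)⟩)
      (fun y hy => hl y ⟨hy.1, hy.2.trans_le hxξ⟩)
    rw [h0] at this
    exact this
  · have := anti_Icc (f := f) (f' := f') hx.2
      (hcont.mono (Icc_subset_Icc (hξ.1.le.trans hxξ) le_rfl))
      (fun y hy => hd y ⟨(hξ.1.le.trans hxξ).trans hy.1.le, hy.2⟩)
      (fun y hy => hr y ⟨hxξ.trans_lt hy.1, hy.2⟩)
    rw [h2] at this
    exact this

end Vale.Agent.P322W
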