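import Vale.Agent.P322W.Chord
import Vale.Agent.P322W.Shape

namespace Vale.Agent.P322W

open Real Set
open Vale.Agent.P322V

/-- Capacity-like function: `del x = log 2 - ψ x`. -/
noncomputable def del (x : ℝ) : ℝ := Real.log 2 - psi x

noncomputable def kap (ρ β x : ℝ) : ℝ := β * del x - del (ρ * x)

noncomputable def kapD (ρ β x : ℝ) : ℝ := β * ath x - ρ * ath (ρ * x)

noncomputable def kapDD (ρ β x : ℝ) : ℝ := β * (1 / (1 - x ^ 2)) - ρ ^ 2 * (1 / (1 - (ρ * x) ^ 2))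

noncomputable def om (ρ β x : ℝ) : ℝ :=
  (1 / 2) * Real.log (1 - (ρ * x) ^ 2) - (β / 2) * Real.log (1 - x ^ 2)

lemma del_zero : del 0 = 0 := by
  unfold del
  rw [psi_zero]
  ring

lemma kap_zero (ρ β : ℝ) : kap ρ β 0 = 0 := by
  unfold kap
  rw [mul_zero, del_zero]
  ring

lemma continuous_del : Continuous del := by
  unfold del
  have := continuous_psi
  fun_prop

lemma continuous_kap (ρ β : ℝ) : Continuous (kap ρ β) := by
  unfold kap
  have := continuous_del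
  fun_prop

lemma abs_mul_lt_one' {ρ x : ℝ} (hρ0 : 0 < ρ) (hρ1 : ρ < 1) (hx : |x| < 1) : |ρ * x| < 1 := by
  rw [abs_mul, abs_of_pos hρ0]
  have := abs_nonneg x
  nlinarith

lemma hasDerivAt_del {x : ℝ} (hx : |x| < 1) : HasDerivAt del (ath x) x := by
  have h := (hasDerivAt_psi hx).const_sub (Real.log 2)
  rw [neg_neg] at h
  exact h

lemma hasDerivAt_kap {ρ β x : ℝ} (hρ0 : 0 < ρ) (hρ1 : ρ < 1) (hx : |x| < 1) :
    HasDerivAt (kap ρ β) (kapD ρ β x) x := by
  have h1 := (hasDerivAt_del hx).const_mul β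
  have h3 : HasDerivAt (fun x => ρ * x) ρ x := by
    simpa using (hasDerivAt_id x).const_mul ρ
  have h2 : HasDerivAt (fun x => del (ρ * x)) (ath (ρ * x) * ρ) x :=
    (hasDerivAt_del (abs_mul_lt_one' hρ0 hρ1 hx)).comp x h3
  have h4 := h1.sub h2
  have e : kapD ρ β x = β * ath x - ath (ρ * x) * ρ := by unfold kapD; ring
  rw [e]
  exact h4

lemma hasDerivAt_kapD {ρ β x : ℝ} (hρ0 : 0 < ρ) (hρ1 : ρ < 1) (hx : |x| < 1) :
    HasDerivAt (kapD ρ β) (kapDD ρ β x) x := by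
  have h1 := (hasDerivAt_ath hx).const_mul β
  have h3 : HasDerivAt (fun x => ρ * x) ρ x := by
    simpa using (hasDerivAt_id x).const_mul ρ
  have h2 : HasDerivAt (fun x => ath (ρ * x)) (1 / (1 - (ρ * x) ^ 2) * ρ) x :=
    (hasDerivAt_ath (abs_mul_lt_one' hρ0 hρ1 hx)).comp x h3
  have h4 := h1.sub (h2.const_mul ρ)
  have e : kapDD ρ β x = β * (1 / (1 - x ^ 2)) - ρ * (1 / (1 - (ρ * x) ^ 2) * ρ) := by
    unfold kapDD; ring
  rw [e]
  exact h4

/-- The derivative of `om` as a function of `τ = x²`. -/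
noncomputable def wD (ρ β τ : ℝ) : ℝ := (β * (1 / (1 - τ)) - ρ ^ 2 * (1 / (1 - ρ ^ 2 * τ))) / 2

lemma wD_mono {ρ β a b : ℝ} (hρ0 : 0 < ρ) (hρ1 : ρ < 1) (hβ : ρ ^ 2 ≤ β) (ha : 0 ≤ a) (hab : a ≤ b)
    (hb : b < 1) : wD ρ β a ≤ wD ρ β b := by
  unfold wD
  have hr2 : ρ ^ 2 < 1 := by nlinarith
  have hr0 : 0 < ρ ^ 2 := by positivity
  have hA : 0 < 1 - a := by linarith
  have hB : 0 < 1 - b := by linarith
  have hA' : 0 < 1 - ρ ^ 2 * a := by nlinarith
  have hB' : 0 < 1 - ρ ^ 2 * b := by nlinarith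
  have e1 : 1 / (1 - b) - 1 / (1 - a) = (b - a) / ((1 - a) * (1 - b)) := by
    field_simp
    ring
  have e2 : 1 / (1 - ρ ^ 2 * b) - 1 / (1 - ρ ^ 2 * a)
      = ρ ^ 2 * (b - a) / ((1 - ρ ^ 2 * a) * (1 - ρ ^ 2 * b)) := by
    field_simp
    ring
  have h1 : (1 - a) * (1 - b) ≤ (1 - ρ ^ 2 * a) * (1 - ρ ^ 2 * b) := by
    apply mul_le_mul <;> nlinarith
  have h2 : (b - a) / ((1 - ρ ^ 2 * a) * (1 - ρ ^ 2 * b)) ≤ (b - a) / ((1 - a) * (1 - b)) :=
    div_le_div_of_nonneg_left (by linarith) (by positivity) h1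
  have h0 : 0 ≤ (b - a) / ((1 - ρ ^ 2 * a) * (1 - ρ ^ 2 * b)) := by
    apply div_nonneg (by linarith) (by positivity)
  have h3 : ρ ^ 2 * (ρ ^ 2 * (b - a) / ((1 - ρ ^ 2 * a) * (1 - ρ ^ 2 * b)))
      ≤ β * ((b - a) / ((1 - a) * (1 - b))) := by
    have e3 : ρ ^ 2 * (ρ ^ 2 * (b - a) / ((1 - ρ ^ 2 * a) * (1 - ρ ^ 2 * b)))
        = (ρ ^ 2 * ρ ^ 2) * ((b - a) / ((1 - ρ ^ 2 * a) * (1 - ρ ^ 2 * b))) := by ring
    rw [e3]
    apply mul_le_mul _ h2 h0 (by linarith)
    nlinarith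
  rw [← e1, ← e2] at h3
  nlinarith

lemma kapDD_eq (ρ β x : ℝ) : kapDD ρ β x = 2 * wD ρ β (x ^ 2) := by
  unfold kapDD wD
  have : (ρ * x) ^ 2 = ρ ^ 2 * x ^ 2 := by ring
  rw [this]
  ring

lemma kapDD_mono {ρ β a b : ℝ} (hρ0 : 0 < ρ) (hρ1 : ρ < 1) (hβ : ρ ^ 2 ≤ β) (ha : 0 ≤ a) (hab : a ≤ b)
    (hb : b < 1) : kapDD ρ β a ≤ kapDD ρ β b := by
  rw [kapDD_eq, kapDD_eq]
  have := wD_mono hρ0 hρ1 hβ (sq_nonneg a) (pow_le_pow_left₀ ha hab 2) (by nlinarith)
  linarith

lemma del_eq {z : ℝ} (hz : |z| < 1) : del z = (1 / 2) * Real.log (1 - z ^ 2) + z * ath z := by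
  unfold del
  rw [psi_eq_LL hz, LL_ath hz]
  ring

/-- The Legendre transform of `kap`. -/
lemma om_eq {ρ β x : ℝ} (hρ0 : 0 < ρ) (hρ1 : ρ < 1) (hx : |x| < 1) :
    om ρ β x = x * kapD ρ β x - kap ρ β x := by
  unfold om kapD kap
  rw [del_eq hx, del_eq (abs_mul_lt_one' hρ0 hρ1 hx)]
  ring

/-- **K1**: Bregman lower bound. -/
lemma breg_lower {ρ β m x : ℝ} (hρ0 : 0 < ρ) (hρ1 : ρ < 1) (hβ : ρ ^ 2 ≤ β) (hm0 : 0 < m) (hm1 : m < 1)
    (hx0 : 0 ≤ x) (hx1 : x ≤ 1) :
    (om ρ β m / m ^ 2) * (x - m) ^ 2 ≤ kap ρ β x - kap ρ β m - kapD ρ β m * (x - m) := by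
  set C := om ρ β m / m ^ 2 with hC
  have hm2 : m ^ 2 ≠ 0 := by positivity
  have hmabs : |m| < 1 := by rw [abs_of_pos hm0]; exact hm1
  have habs : ∀ x ∈ Ico (0 : ℝ) 1, |x| < 1 := fun x hx => by rw [abs_of_nonneg hx.1]; exact hx.2
  set f : ℝ → ℝ := fun x => kap ρ β x - kap ρ β m - kapD ρ β m * (x - m) - C * (x - m) ^ 2 with hf
  set f' : ℝ → ℝ := fun x => kapD ρ β x - kapD ρ β m - C * (2 * (x - m)) with hf'
  have hder : ∀ x ∈ Ico (0 : ℝ) 1, HasDerivAt f (f' x) x := by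
    intro x hx
    have h1 := hasDerivAt_kap (β := β) hρ0 hρ1 (habs x hx)
    have h2 : HasDerivAt (fun x => x - m) 1 x := (hasDerivAt_id x).sub_const m
    have h3 : HasDerivAt (fun x => (x - m) ^ 2) (2 * (x - m)) x := by
      have := h2.fun_pow 2
      simpa using this
    have h4 := ((h1.sub_const (kap ρ β m)).sub (h2.const_mul (kapD ρ β m))).sub (h3.const_mul C)
    have e : f' x = kapD ρ β x - kapD ρ β m * 1 - C * (2 * (x - m)) := by simp [hf']
    rw [e]
    exact h4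
  have hder2 : ∀ x ∈ Ico (0 : ℝ) 1, HasDerivAt f' (kapDD ρ β x - C * 2) x := by
    intro x hx
    have h1 := hasDerivAt_kapD (β := β) hρ0 hρ1 (habs x hx)
    have h2 : HasDerivAt (fun x => 2 * (x - m)) 2 x := by
      have := ((hasDerivAt_id x).sub_const m).const_mul 2
      simpa using this
    exact (h1.sub_const (kapD ρ β m)).sub (h2.const_mul C)
  have hconv : ConvexOn ℝ (Ico (0 : ℝ) 1) f' := by
    apply convexOn_Ico_of_hasDerivAt hder2
    intro a ha b hb hab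
    have := kapDD_mono hρ0 hρ1 hβ ha.1 hab hb.2
    simp only
    linarith
  have hcont : ContinuousOn f (Icc (0 : ℝ) 1) := by
    have := continuous_kap ρ β
    exact Continuous.continuousOn (by rw [hf]; fun_prop)
  have h0 : f 0 = 0 := by
    simp only [hf]
    rw [kap_zero]
    have e1 := om_eq (β := β) hρ0 hρ1 hmabs
    have e2 : C * m ^ 2 = om ρ β m := by rw [hC]; field_simp
    have e3 : (0 - m) ^ 2 = m ^ 2 := by ring
    rw [e3, e2, e1]
    ring
  have h1 : f m = 0 := by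
    simp [hf]
  have h2 : f' m = 0 := by
    simp [hf']
  have := three_zero hm0 hm1 hcont hder hconv h0 h1 h2 x ⟨hx0, hx1⟩
  simp only [hf] at this
  linarith

/-- The function `om` in the variable `τ = x²`. -/
noncomputable def wF (ρ β τ : ℝ) : ℝ :=
  (1 / 2) * Real.log (1 - ρ ^ 2 * τ) - (β / 2) * Real.log (1 - τ)

lemma hasDerivAt_wF {ρ β τ : ℝ} (hρ1 : ρ < 1) (hρ0 : 0 < ρ) (h0 : 0 ≤ τ) (h1 : τ < 1) :
    HasDerivAt (wF ρ β) (wD ρ β τ) τ := by
  have hr2 : ρ ^ 2 < 1 := by nlinarith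
  have hA : 0 < 1 - τ := by linarith
  have hB : 0 < 1 - ρ ^ 2 * τ := by nlinarith [sq_nonneg ρ]
  have d1 : HasDerivAt (fun τ => 1 - τ) (-1) τ := by
    simpa using (hasDerivAt_id τ).const_sub 1
  have d2 : HasDerivAt (fun τ => 1 - ρ ^ 2 * τ) (-(ρ ^ 2)) τ := by
    have := ((hasDerivAt_id τ).const_mul (ρ ^ 2)).const_sub 1
    simpa using this
  have l1 := d1.log hA.ne'
  have l2 := d2.log hB.ne'
  have h := (l2.const_mul (1 / 2)).sub (l1.const_mul (β / 2))
  have e : wD ρ β τ = 1 / 2 * (-(ρ ^ 2) / (1 - ρ ^ 2 * τ)) - β / 2 * (-1 / (1 - τ)) := by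
    unfold wD
    ring
  rw [e]
  exact h

lemma wF_zero (ρ β : ℝ) : wF ρ β 0 = 0 := by
  simp [wF]

lemma convexOn_wF {ρ β : ℝ} (hρ0 : 0 < ρ) (hρ1 : ρ < 1) (hβ : ρ ^ 2 ≤ β) :
    ConvexOn ℝ (Ico (0 : ℝ) 1) (wF ρ β) := by
  apply convexOn_Ico_of_hasDerivAt (f' := wD ρ β)
  · exact fun x hx => hasDerivAt_wF hρ1 hρ0 hx.1 hx.2
  · intro a ha b hb hab
    exact wD_mono hρ0 hρ1 hβ ha.1 hab hb.2

lemma om_eq_wF (ρ β x : ℝ) : om ρ β x = wF ρ β (x ^ 2) := by
  unfold om wF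
  have : (ρ * x) ^ 2 = ρ ^ 2 * x ^ 2 := by ring
  rw [this]

/-- **K2**: `om x / x²` is increasing. -/
lemma om_ratio_mono {ρ β q r : ℝ} (hρ0 : 0 < ρ) (hρ1 : ρ < 1) (hβ : ρ ^ 2 ≤ β) (hq : 0 < q) (hqr : q ≤ r)
    (hr : r < 1) : om ρ β q / q ^ 2 ≤ om ρ β r / r ^ 2 := by
  have hr0 : 0 < r := lt_of_lt_of_le hq hqr
  have hq2 : 0 < q ^ 2 := by positivity
  have hr2 : 0 < r ^ 2 := by positivity
  have hlt : r ^ 2 < 1 := by nlinarith
  have hle : q ^ 2 ≤ r ^ 2 := pow_le_pow_left₀ hq.le hqr 2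
  rw [om_eq_wF, om_eq_wF]
  have hab0 : 0 ≤ 1 - q ^ 2 / r ^ 2 := by rw [sub_nonneg, div_le_one hr2]; exact hle
  have hc := (convexOn_wF hρ0 hρ1 hβ).2 (⟨hr2.le, hlt⟩ : r ^ 2 ∈ Ico (0 : ℝ) 1)
    (⟨le_rfl, by norm_num⟩ : (0 : ℝ) ∈ Ico (0 : ℝ) 1)
    (by positivity : 0 ≤ q ^ 2 / r ^ 2) hab0 (by ring)
  simp only [smul_eq_mul, mul_zero, add_zero] at hc
  rw [wF_zero, mul_zero, add_zero] at hc
  have e : q ^ 2 / r ^ 2 * r ^ 2 = q ^ 2 := by field_simp
  rw [e] at hc
  rw [div_le_div_iff₀ hq2 hr2]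
  have h2 : wF ρ β (q ^ 2) * r ^ 2 ≤ q ^ 2 / r ^ 2 * wF ρ β (r ^ 2) * r ^ 2 :=
    mul_le_mul_of_nonneg_right hc hr2.le
  have e2 : q ^ 2 / r ^ 2 * wF ρ β (r ^ 2) * r ^ 2 = wF ρ β (r ^ 2) * q ^ 2 := by field_simp
  rw [e2] at h2
  exact h2

/-- **K3**: the quadratic inequality. -/
lemma quad_lower {pb qb d qs rs : ℝ} (hp : 0 < pb) (hq : 0 < qb) (hpq : pb + qb = 1) :
    (pb * qs - qb * rs) ^ 2
      ≤ pb * (d / (2 * pb) - qs) ^ 2 + qb * (d / (2 * qb) - rs) ^ 2 := by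
  have e : pb * (d / (2 * pb) - qs) ^ 2 + qb * (d / (2 * qb) - rs) ^ 2 - (pb * qs - qb * rs) ^ 2
      = (d - 2 * pb * qb * (qs + rs)) ^ 2 / (4 * pb * qb) := by
    have : qb = 1 - pb := by linarith
    subst this
    field_simp
    ring
  have h : 0 ≤ (d - 2 * pb * qb * (qs + rs)) ^ 2 / (4 * pb * qb) := by positivity
  linarith

/-- Relative entropy of two bits, as a continuous function of `p`. -/
noncomputable def kl (p a : ℝ) : ℝ :=
  - Real.negMulLog p - Real.negMulLog (1 - p) - p * Real.log a - (1 - p) * Real.log (1 - a)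

lemma kl_self {a : ℝ} : kl a a = 0 := by
  unfold kl Real.negMulLog
  ring

lemma kl_one (a : ℝ) : kl 1 a = - Real.log a := by
  simp [kl]

/-- Auxiliary: `1 - a ≤ 2 a log(1/a)` on `[1/2,1]`. -/
lemma one_sub_le_log {a : ℝ} (h0 : 1 / 2 ≤ a) (h1 : a ≤ 1) : 1 - a ≤ 2 * Real.negMulLog a := by
  have hc := Real.concaveOn_negMulLog.2 (by norm_num [Set.mem_Ici] : (1 / 2 : ℝ) ∈ Ici (0 : ℝ))
    (by norm_num [Set.mem_Ici] : (1 : ℝ) ∈ Ici (0 : ℝ)) (by linarith : 0 ≤ 2 * (1 - a))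
    (by linarith : 0 ≤ 2 * a - 1) (by ring)
  simp only [smul_eq_mul] at hc
  have e : 2 * (1 - a) * (1 / 2) + (2 * a - 1) * 1 = a := by ring
  rw [e] at hc
  have e1 : Real.negMulLog (1 / 2) = (1 / 2) * Real.log 2 := by
    unfold Real.negMulLog
    rw [one_div, Real.log_inv]
    ring
  have e2 : Real.negMulLog 1 = 0 := by simp
  rw [e1, e2] at hc
  have hl : (1 / 2 : ℝ) ≤ Real.log 2 := by
    have := Real.log_two_gt_d9
    linarith
  nlinarith

/-- **K4**: the relative entropy inequality. -/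
lemma kl_le {p a : ℝ} (ha0 : 1 / 2 ≤ a) (ha1 : a < 1) (hp0 : 1 / 2 ≤ p) (hp1 : p ≤ 1) :
    (1 - a) ^ 2 * kl p a ≤ (p - a) ^ 2 * (- Real.log a) := by
  set L := - Real.log a with hL
  have ha0' : 0 < a := by linarith
  have ha1' : 0 < 1 - a := by linarith
  set f : ℝ → ℝ := fun p => (p - a) ^ 2 * L - (1 - a) ^ 2 * kl p a with hf
  set f' : ℝ → ℝ := fun p => 2 * (p - a) * L
    - (1 - a) ^ 2 * (Real.log p - Real.log (1 - p) - Real.log a + Real.log (1 - a)) with hf'
  set f'' : ℝ → ℝ := fun p => 2 * L - (1 - a) ^ 2 * (1 / (p * (1 - p))) with hf''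
  have hder : ∀ x, 0 < x → x < 1 → HasDerivAt f (f' x) x := by
    intro x hx0 hx1
    have d1 : HasDerivAt (fun x => x - a) 1 x := (hasDerivAt_id x).sub_const a
    have d2 : HasDerivAt (fun x => (x - a) ^ 2) (2 * (x - a)) x := by
      simpa using d1.fun_pow 2
    have d3 : HasDerivAt (fun x => 1 - x) (-1) x := by
      simpa using (hasDerivAt_id x).const_sub 1
    have n1 := Real.hasDerivAt_negMulLog hx0.ne'
    have n2 : HasDerivAt (fun x => Real.negMulLog (1 - x)) ((- Real.log (1 - x) - 1) * (-1)) x :=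
      (Real.hasDerivAt_negMulLog (by linarith : (1 - x) ≠ 0)).comp x d3
    have k : HasDerivAt (fun p => kl p a)
        (-(- Real.log x - 1) - ((- Real.log (1 - x) - 1) * (-1)) - 1 * Real.log a
          - (-1) * Real.log (1 - a)) x := by
      unfold kl
      exact ((n1.neg.sub n2).sub ((hasDerivAt_id x).mul_const (Real.log a))).sub
        (d3.mul_const (Real.log (1 - a)))
    have h := (d2.mul_const L).sub (k.const_mul ((1 - a) ^ 2))
    have e : f' x = 2 * (x - a) * L - (1 - a) ^ 2 * (-(- Real.log x - 1)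
        - ((- Real.log (1 - x) - 1) * (-1)) - 1 * Real.log a - (-1) * Real.log (1 - a)) := by
      simp only [hf']
      ring
    rw [e]
    exact h
  have hder2 : ∀ x, 0 < x → x < 1 → HasDerivAt f' (f'' x) x := by
    intro x hx0 hx1
    have d1 : HasDerivAt (fun x => 2 * (x - a)) 2 x := by
      simpa using ((hasDerivAt_id x).sub_const a).const_mul 2
    have d3 : HasDerivAt (fun x => 1 - x) (-1) x := by
      simpa using (hasDerivAt_id x).const_sub 1
    have l1 := Real.hasDerivAt_log hx0.ne'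
    have l2 := d3.log (by linarith : (1 - x) ≠ 0)
    have k := ((l1.sub l2).sub_const (Real.log a)).add_const (Real.log (1 - a))
    have h := (d1.mul_const L).sub (k.const_mul ((1 - a) ^ 2))
    have e : f'' x = 2 * L - (1 - a) ^ 2 * (x⁻¹ - -1 / (1 - x)) := by
      simp only [hf'']
      have hx2 : (1 - x) ≠ 0 := by linarith
      have hx3 : x ≠ 0 := hx0.ne'
      have e2 : x⁻¹ - -1 / (1 - x) = 1 / (x * (1 - x)) := by
        field_simp
        ring
      rw [e2]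
    rw [e]
    exact h
  have hcont : Continuous f := by
    simp only [hf]
    unfold kl
    have := Real.continuous_negMulLog
    fun_prop
  have hfa : f a = 0 := by
    simp only [hf]
    rw [kl_self]
    ring
  have hf'a : f' a = 0 := by
    simp only [hf']
    ring
  have hf1 : f 1 = 0 := by
    simp only [hf]
    rw [kl_one]
    ring
  have hgoal : 0 ≤ f p := by
    rcases le_total a p with hap | hap
    · -- `p ≥ a`
      have hconc : ConcaveOn ℝ (Ico a 1) f' := by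
        apply concaveOn_Ico_of_hasDerivAt (f' := f'')
        · exact fun x hx => hder2 x (by linarith [hx.1]) hx.2
        · intro x hx y hy hxy
          simp only [hf'']
          have hx0 : 0 < x := by linarith [hx.1]
          have hy1 : 0 < 1 - y := by linarith [hy.2]
          have hy0 : 0 < y := by linarith [hy.1]
          have hq : y * (1 - y) ≤ x * (1 - x) := by nlinarith [hx.1, hy.1]
          have : 1 / (x * (1 - x)) ≤ 1 / (y * (1 - y)) :=
            one_div_le_one_div_of_le (by positivity) hq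
          have h2 : (0 : ℝ) ≤ (1 - a) ^ 2 := by positivity
          nlinarith
      exact two_zero_concave ha1 hcont.continuousOn
        (fun x hx => hder x (by linarith [hx.1]) hx.2) hconc hfa hf'a hf1 p ⟨hap, hp1⟩
    · -- `p ≤ a`
      have hL2 : 1 - a ≤ 2 * a * L := by
        have := one_sub_le_log ha0 ha1.le
        unfold Real.negMulLog at this
        rw [hL]
        nlinarith
      have hsec : ∀ x ∈ Icc p a, 0 ≤ f'' x := by
        intro x hx
        simp only [hf'']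
        have hx0 : 0 < x := by linarith [hx.1]
        have hx1 : 0 < 1 - x := by linarith [hx.2]
        have hq : a * (1 - a) ≤ x * (1 - x) := by nlinarith [hx.1, hx.2]
        have h1 : 1 / (x * (1 - x)) ≤ 1 / (a * (1 - a)) :=
          one_div_le_one_div_of_le (by positivity) hq
        have h2 : (1 - a) ^ 2 * (1 / (a * (1 - a))) = (1 - a) / a := by
          field_simp
        have h3 : (1 - a) / a ≤ 2 * L := by
          rw [div_le_iff₀ ha0']
          linarith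
        have h4 : (1 - a) ^ 2 * (1 / (x * (1 - x))) ≤ (1 - a) ^ 2 * (1 / (a * (1 - a))) :=
          mul_le_mul_of_nonneg_left h1 (by positivity)
        linarith
      have hneg : ∀ x ∈ Ioo p a, f' x ≤ 0 := by
        intro x hx
        have := mono_Icc (f := f') (f' := f'') hx.2.le
          (fun y hy => (hder2 y (by linarith [hy.1, hx.1]) (by linarith [hy.2])).continuousAt.continuousWithinAt)
          (fun y hy => hder2 y (by linarith [hy.1, hx.1]) (by linarith [hy.2]))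
          (fun y hy => hsec y ⟨by linarith [hy.1, hx.1], hy.2.le⟩)
        rw [hf'a] at this
        exact this
      have := anti_Icc (f := f) (f' := f') hap hcont.continuousOn
        (fun y hy => hder y (by linarith [hy.1]) (by linarith [hy.2])) hneg
      rw [hfa] at this
      exact this
  simp only [hf] at hgoal
  linarith

/-- **K5**: `(1-a) negMulLog (1-a) ≤ a negMulLog a` on `[1/2,1]`. -/
lemma lam_nonneg {a : ℝ} (h0 : 1 / 2 ≤ a) (h1 : a ≤ 1) :
    (1 - a) * Real.negMulLog (1 - a) ≤ a * Real.negMulLog a := by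
  set Λ : ℝ → ℝ := fun a => a * Real.negMulLog a - (1 - a) * Real.negMulLog (1 - a) with hΛ
  set Λ' : ℝ → ℝ := fun a => 2 * Real.binEntropy a - 1 with hΛ'
  have hder : ∀ x ∈ Ioo (1 / 2 : ℝ) 1, HasDerivAt Λ (Λ' x) x := by
    intro x hx
    have hx0 : x ≠ 0 := by linarith [hx.1]
    have hx1 : 1 - x ≠ 0 := by linarith [hx.2]
    have d3 : HasDerivAt (fun x => 1 - x) (-1) x := by
      simpa using (hasDerivAt_id x).const_sub 1
    have n1 := Real.hasDerivAt_negMulLog hx0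
    have n2 : HasDerivAt (fun x => Real.negMulLog (1 - x)) ((- Real.log (1 - x) - 1) * (-1)) x :=
      (Real.hasDerivAt_negMulLog hx1).comp x d3
    have h := ((hasDerivAt_id x).mul n1).sub (d3.mul n2)
    have e : Λ' x = 1 * Real.negMulLog x + x * (- Real.log x - 1)
        - (-1 * Real.negMulLog (1 - x) + (1 - x) * ((- Real.log (1 - x) - 1) * (-1))) := by
      simp only [hΛ']
      rw [Real.binEntropy_eq_negMulLog_add_negMulLog_one_sub]
      unfold Real.negMulLog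
      ring
    rw [e]
    exact h
  have hcont : Continuous Λ := by
    simp only [hΛ]
    have := Real.continuous_negMulLog
    fun_prop
  have hanti : AntitoneOn (deriv Λ) (interior (Icc (1 / 2 : ℝ) 1)) := by
    rw [interior_Icc]
    intro x hx y hy hxy
    rw [(hder x hx).deriv, (hder y hy).deriv]
    simp only [hΛ']
    have e1 : Real.binEntropy y = psi (2 * y - 1) := by
      unfold psi
      congr 1
      ring
    have e2 : Real.binEntropy x = psi (2 * x - 1) := by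
      unfold psi
      congr 1
      ring
    rw [e1, e2]
    have := psi_anti (a := 2 * x - 1) (b := 2 * y - 1) (by linarith [hx.1]) (by linarith)
      (by linarith [hy.2])
    linarith
  have hconc : ConcaveOn ℝ (Icc (1 / 2 : ℝ) 1) Λ := by
    apply AntitoneOn.concaveOn_of_deriv (convex_Icc _ _) hcont.continuousOn _ hanti
    rw [interior_Icc]
    exact fun x hx => (hder x hx).differentiableAt.differentiableWithinAt
  have hc := hconc.2 (by norm_num : (1 / 2 : ℝ) ∈ Icc (1 / 2 : ℝ) 1)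
    (by norm_num : (1 : ℝ) ∈ Icc (1 / 2 : ℝ) 1) (by linarith : 0 ≤ 2 * (1 - a))
    (by linarith : 0 ≤ 2 * a - 1) (by ring)
  simp only [smul_eq_mul] at hc
  have e : 2 * (1 - a) * (1 / 2) + (2 * a - 1) * 1 = a := by ring
  rw [e] at hc
  have v1 : Λ (1 / 2) = 0 := by
    simp only [hΛ]
    norm_num
  have v2 : Λ 1 = 0 := by
    simp [hΛ]
  rw [v1, v2] at hc
  simp only [hΛ] at hc
  linarith

end Vale.Agent.P322W
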