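import Vale.Agent.P322W.Bellman2

namespace Vale.Agent.P322W

open Real
open Vale.Agent.P322V

/-- `ath` is superadditive along rays: `ath (ρ p) ≤ ρ ath p`. -/
lemma ath_mul_le {ρ p : ℝ} (hρ0 : 0 ≤ ρ) (hρ1 : ρ ≤ 1) (hp0 : 0 ≤ p) (hp1 : p < 1) :
    ath (ρ * p) ≤ ρ * ath p := by
  have hder : ∀ x ∈ Set.Ico (0 : ℝ) 1,
      HasDerivAt (fun x => ρ * ath x - ath (ρ * x)) (ρ * (1 / (1 - x ^ 2)) - ρ * (1 / (1 - (ρ * x) ^ 2))) x := by
    intro x hx
    have hx1 : |x| < 1 := by rw [abs_of_nonneg hx.1]; exact hx.2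
    have hx2 : |ρ * x| < 1 := by
      rw [abs_of_nonneg (mul_nonneg hρ0 hx.1)]
      nlinarith [hx.1, hx.2]
    have h1 := (hasDerivAt_ath hx1).const_mul ρ
    have h2 : HasDerivAt (fun x => ath (ρ * x)) ((1 / (1 - (ρ * x) ^ 2)) * ρ) x := by
      have h3 : HasDerivAt (fun x => ρ * x) ρ x := by
        simpa using (hasDerivAt_id x).const_mul ρ
      exact (hasDerivAt_ath hx2).comp x h3
    have h4 := h1.sub h2
    have e : ρ * (1 / (1 - x ^ 2)) - ρ * (1 / (1 - (ρ * x) ^ 2))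
        = ρ * (1 / (1 - x ^ 2)) - (1 / (1 - (ρ * x) ^ 2)) * ρ := by ring
    rw [e]
    exact h4
  have hmono : MonotoneOn (fun x => ρ * ath x - ath (ρ * x)) (Set.Ico (0 : ℝ) 1) := by
    apply monotoneOn_of_deriv_nonneg (convex_Ico 0 1)
    · exact fun x hx => (hder x hx).continuousAt.continuousWithinAt
    · exact fun x hx => ((hder x (interior_subset hx)).differentiableAt).differentiableWithinAt
    · intro x hx
      have hx' := interior_subset hx
      rw [(hder x hx').deriv]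
      have h0 : 0 < 1 - x ^ 2 := by nlinarith [hx'.1, hx'.2]
      have h1 : (ρ * x) ^ 2 ≤ x ^ 2 := by
        have : ρ ^ 2 ≤ 1 := by nlinarith
        nlinarith [sq_nonneg x]
      have h2 : 1 / (1 - (ρ * x) ^ 2) ≤ 1 / (1 - x ^ 2) :=
        one_div_le_one_div_of_le h0 (by linarith)
      nlinarith
  have h := hmono (⟨le_refl _, by norm_num⟩ : (0 : ℝ) ∈ Set.Ico (0 : ℝ) 1) ⟨hp0, hp1⟩ hp0
  simp only [mul_zero, ath_zero, sub_zero] at h
  linarith

/-- The key one-variable inequality: `log 2 - ψ(ρ p) ≤ ρ² (log 2 - ψ p)`. -/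
lemma D_mul_le {ρ p : ℝ} (hρ0 : 0 ≤ ρ) (hρ1 : ρ ≤ 1) (hp : |p| ≤ 1) :
    Real.log 2 - psi (ρ * p) ≤ ρ ^ 2 * (Real.log 2 - psi p) := by
  -- reduce to `p ≥ 0`
  wlog hp0 : 0 ≤ p generalizing p
  · have h := this (p := -p) (by rwa [abs_neg]) (by linarith)
    rw [mul_neg, psi_neg, psi_neg] at h
    exact h
  have hp1 : p ≤ 1 := (abs_le.mp hp).2
  have hder : ∀ x ∈ Set.Ioo (0 : ℝ) 1,
      HasDerivAt (fun x => ρ ^ 2 * (Real.log 2 - psi x) - (Real.log 2 - psi (ρ * x)))
        (ρ ^ 2 * ath x - ρ * ath (ρ * x)) x := by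
    intro x hx
    have hx1 : |x| < 1 := by rw [abs_of_pos hx.1]; exact hx.2
    have hx2 : |ρ * x| < 1 := by
      rw [abs_of_nonneg (mul_nonneg hρ0 hx.1.le)]
      nlinarith [hx.1, hx.2]
    have h1 : HasDerivAt (fun x => ρ ^ 2 * (Real.log 2 - psi x)) (ρ ^ 2 * (0 - (-(ath x)))) x :=
      ((hasDerivAt_const x (Real.log 2)).sub (hasDerivAt_psi hx1)).const_mul (ρ ^ 2)
    have h3 : HasDerivAt (fun x => ρ * x) ρ x := by
      simpa using (hasDerivAt_id x).const_mul ρ
    have h2 : HasDerivAt (fun x => psi (ρ * x)) ((-(ath (ρ * x))) * ρ) x :=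
      (hasDerivAt_psi hx2).comp x h3
    have h4 := h1.sub ((hasDerivAt_const x (Real.log 2)).sub h2)
    have e : ρ ^ 2 * ath x - ρ * ath (ρ * x) = ρ ^ 2 * (0 - (-(ath x))) - (0 - (-(ath (ρ * x))) * ρ) := by
      ring
    rw [e]
    exact h4
  have hcont : Continuous (fun x => ρ ^ 2 * (Real.log 2 - psi x) - (Real.log 2 - psi (ρ * x))) := by
    have := continuous_psi
    fun_prop
  have hmono : MonotoneOn (fun x => ρ ^ 2 * (Real.log 2 - psi x) - (Real.log 2 - psi (ρ * x)))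
      (Set.Icc (0 : ℝ) 1) := by
    apply monotoneOn_of_deriv_nonneg (convex_Icc 0 1) hcont.continuousOn
    · rw [interior_Icc]
      exact fun x hx => ((hder x hx).differentiableAt).differentiableWithinAt
    · intro x hx
      rw [interior_Icc] at hx
      rw [(hder x hx).deriv]
      have h := ath_mul_le hρ0 hρ1 hx.1.le hx.2
      nlinarith
  have h := hmono (⟨le_refl _, by norm_num⟩ : (0 : ℝ) ∈ Set.Icc (0 : ℝ) 1) ⟨hp0, hp1⟩ hp0
  simp only [mul_zero, psi_zero, sub_self] at h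
  linarith

/-- Chain rule for the entropy, half of it: for `a + b = 1` and `w ≥ 0`. -/
lemma negMulLog_split (w a b : ℝ) (hab : a + b = 1) :
    Real.negMulLog (w * a) + Real.negMulLog (w * b)
      = Real.negMulLog w + w * (Real.negMulLog a + Real.negMulLog b) := by
  rw [Real.negMulLog_mul, Real.negMulLog_mul]
  have : a * Real.negMulLog w + w * Real.negMulLog a + (b * Real.negMulLog w + w * Real.negMulLog b)
      = (a + b) * Real.negMulLog w + w * (Real.negMulLog a + Real.negMulLog b) := by ring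
  rw [this, hab]
  ring

lemma psi_eq_negMulLog (z : ℝ) : psi z = Real.negMulLog ((1 + z) / 2) + Real.negMulLog ((1 - z) / 2) := by
  unfold psi
  rw [Real.binEntropy_eq_negMulLog_add_negMulLog_one_sub]
  congr 2
  ring

/-- The chain-rule identity: `Φ(c,d) = ψ c - P D(d/(1+c)) - Q D(d/(1-c))`. -/
lemma phi_identity {c d : ℝ} (hc0 : -1 < c) (hc1 : c < 1) :
    (psi (c + d) + psi (c - d)) / 2
      = psi c - (1 + c) / 2 * (Real.log 2 - psi (d / (1 + c)))
          - (1 - c) / 2 * (Real.log 2 - psi (d / (1 - c))) := by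
  have hP : (1 + c) ≠ 0 := by linarith
  have hQ : (1 - c) ≠ 0 := by linarith
  simp only [psi_eq_negMulLog]
  have e1 : (1 + (c + d)) / 2 = (1 + c) * ((1 + d / (1 + c)) / 2) := by field_simp; ring
  have e2 : (1 - (c - d)) / 2 = (1 - c) * ((1 + d / (1 - c)) / 2) := by field_simp; ring
  have e3 : (1 + (c - d)) / 2 = (1 + c) * ((1 - d / (1 + c)) / 2) := by field_simp; ring
  have e4 : (1 - (c + d)) / 2 = (1 - c) * ((1 - d / (1 - c)) / 2) := by field_simp; ring
  rw [e1, e2, e3, e4]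
  have s1 := negMulLog_split (1 + c) ((1 + d / (1 + c)) / 2) ((1 - d / (1 + c)) / 2) (by ring)
  have s2 := negMulLog_split (1 - c) ((1 + d / (1 - c)) / 2) ((1 - d / (1 - c)) / 2) (by ring)
  -- `negMulLog (1 ± c)` in terms of `negMulLog ((1 ± c)/2)`
  have t1 : Real.negMulLog (1 + c) = 2 * Real.negMulLog ((1 + c) / 2) - (1 + c) * Real.log 2 := by
    have : (1 + c) = 2 * ((1 + c) / 2) := by ring
    conv_lhs => rw [this, Real.negMulLog_mul]
    have h2 : Real.negMulLog 2 = - (2 * Real.log 2) := by simp [Real.negMulLog]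
    rw [h2]
    ring
  have t2 : Real.negMulLog (1 - c) = 2 * Real.negMulLog ((1 - c) / 2) - (1 - c) * Real.log 2 := by
    have : (1 - c) = 2 * ((1 - c) / 2) := by ring
    conv_lhs => rw [this, Real.negMulLog_mul]
    have h2 : Real.negMulLog 2 = - (2 * Real.log 2) := by simp [Real.negMulLog]
    rw [h2]
    ring
  rw [t1] at s1
  rw [t2] at s2
  linear_combination (1 / 2) * s1 + (1 / 2) * s2

/-- **Chord lemma** (one-coordinate strong data processing): with `c = (s+t)/2`,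
`pairY ρ s t ≥ ρ² (ψ s + ψ t)/2 + (1-ρ²) ψ c`. -/
theorem chord {ρ s t : ℝ} (hρ0 : 0 ≤ ρ) (hρ1 : ρ ≤ 1) (hs : |s| ≤ 1) (ht : |t| ≤ 1) :
    ρ ^ 2 * ((psi s + psi t) / 2) + (1 - ρ ^ 2) * psi ((s + t) / 2) ≤ pairY ρ s t := by
  unfold pairY
  have hs' := abs_le.mp hs
  have ht' := abs_le.mp ht
  set c := (s + t) / 2 with hc
  set d := (s - t) / 2 with hd
  have es : s = c + d := by rw [hc, hd]; ring
  have et : t = c - d := by rw [hc, hd]; ring
  by_cases h1 : c = 1
  · have hd0 : d = 0 := by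
      have h3 : s = 1 := by rw [hc] at h1; linarith [hs'.2, ht'.2]
      have h4 : t = 1 := by rw [hc] at h1; linarith [hs'.2, ht'.2]
      rw [hd, h3, h4]; norm_num
    rw [es, et, hd0, h1]
    simp only [add_zero, sub_zero, mul_zero]
    ring_nf
    rfl
  by_cases h2 : c = -1
  · have hd0 : d = 0 := by
      have h3 : s = -1 := by rw [hc] at h2; linarith [hs'.1, ht'.1]
      have h4 : t = -1 := by rw [hc] at h2; linarith [hs'.1, ht'.1]
      rw [hd, h3, h4]; norm_num
    rw [es, et, hd0, h2]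
    simp only [add_zero, sub_zero, mul_zero]
    ring_nf
    rfl
  have hc0 : -1 < c := lt_of_le_of_ne (by rw [hc]; linarith [hs'.1, ht'.1]) (Ne.symm h2)
  have hc1 : c < 1 := lt_of_le_of_ne (by rw [hc]; linarith [hs'.2, ht'.2]) h1
  have hP : 0 < 1 + c := by linarith
  have hQ : 0 < 1 - c := by linarith
  have hp : |d / (1 + c)| ≤ 1 := by
    rw [abs_div, abs_of_pos hP, div_le_one hP, abs_le, hd]
    constructor <;> rw [hc] <;> linarith [hs'.1, hs'.2, ht'.1, ht'.2]
  have hp' : |d / (1 - c)| ≤ 1 := by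
    rw [abs_div, abs_of_pos hQ, div_le_one hQ, abs_le, hd]
    constructor <;> rw [hc] <;> linarith [hs'.1, hs'.2, ht'.1, ht'.2]
  have id1 := phi_identity (c := c) (d := d) hc0 hc1
  have id2 := phi_identity (c := c) (d := ρ * d) hc0 hc1
  have k1 := D_mul_le hρ0 hρ1 hp
  have k2 := D_mul_le hρ0 hρ1 hp'
  have e1 : ρ * d / (1 + c) = ρ * (d / (1 + c)) := by ring
  have e2 : ρ * d / (1 - c) = ρ * (d / (1 - c)) := by ring
  rw [e1, e2] at id2
  have k1' := mul_le_mul_of_nonneg_left k1 (by positivity : 0 ≤ (1 + c) / 2)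
  have k2' := mul_le_mul_of_nonneg_left k2 (by positivity : 0 ≤ (1 - c) / 2)
  rw [id2]
  rw [es, et]
  rw [id1]
  nlinarith [k1', k2']

end Vale.Agent.P322W
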