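import Vale.Agent.P322V.Cube

namespace Vale.Agent.P322W

open Finset
open Vale.Agent.P322 Vale.Agent.P322V

variable {n : ℕ}

/-- The mean of a `±1`-valued function on a cube with at least one coordinate is a multiple of
`2 ^ (-m)` where `m + 1` is the dimension. -/
lemma avg_half_int {m : ℕ} (G : (Fin (m + 1) → Bool) → ℝ) (hG : ∀ x, G x = 1 ∨ G x = -1) :
    ∃ S : ℤ, avg G = (S : ℝ) / 2 ^ m := by
  have hS : ∀ x : Fin (m + 1) → Bool, ∃ z : ℤ, G x = 2 * (z : ℝ) - 1 := by
    intro x
    rcases hG x with h | h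
    · exact ⟨1, by rw [h]; norm_num⟩
    · exact ⟨0, by rw [h]; norm_num⟩
  choose z hz using hS
  refine ⟨∑ x, z x - 2 ^ m, ?_⟩
  unfold avg
  have h1 : ∑ x, G x = 2 * (∑ x, (z x : ℝ)) - 2 ^ (m + 1) := by
    rw [Finset.sum_congr rfl (fun x _ => hz x), Finset.sum_sub_distrib, ← Finset.mul_sum]
    simp [Fintype.card_fin]
  rw [h1]
  push_cast
  rw [pow_succ]
  field_simp

/-- The level-one residual: `E (F - L)^2 = 1 - ∑ coef^2`. -/
lemma avg_residual (F : (Fin n → Bool) → ℝ) (hF : ∀ x, F x = 1 ∨ F x = -1) :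
    avg (fun x => (F x - ∑ i, coef F i * sg (x i)) ^ 2) = 1 - ∑ i, coef F i ^ 2 := by
  set g : (Fin n → Bool) → ℝ := fun x => ∑ i, coef F i * sg (x i) with hg
  have h1 : avg (fun x => F x * g x) = ∑ i, coef F i ^ 2 := by
    have : (fun x => F x * g x) = fun x => ∑ i, coef F i * (F x * sg (x i)) := by
      funext x
      rw [hg]
      simp only
      rw [Finset.mul_sum]
      exact Finset.sum_congr rfl (fun i _ => by ring)
    rw [this, avg_finsetSum]
    refine Finset.sum_congr rfl (fun i _ => ?_)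
    rw [avg_mul_left]
    unfold coef
    ring
  have h2 : avg (fun x => g x * g x) = ∑ i, coef F i ^ 2 := by
    have : (fun x => g x * g x)
        = fun x => ∑ i, ∑ j, coef F i * coef F j * (sg (x i) * sg (x j)) := by
      funext x
      rw [hg]
      simp only
      rw [Finset.sum_mul_sum]
      refine Finset.sum_congr rfl (fun i _ => Finset.sum_congr rfl (fun j _ => by ring))
    rw [this, avg_finsetSum]
    refine Finset.sum_congr rfl (fun i _ => ?_)
    rw [avg_finsetSum, Finset.sum_eq_single i]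
    · rw [avg_mul_left, avg_sg_mul_sg, if_pos rfl]; ring
    · intro j _ hj
      rw [avg_mul_left, avg_sg_mul_sg, if_neg (Ne.symm hj)]; ring
    · simp
  have h4 : (fun x => (F x - g x) ^ 2)
      = fun x => (F x ^ 2 - 2 * (F x * g x)) + g x * g x := by
    funext x; ring
  rw [h4, avg_add, avg_sub, avg_mul_left, h1, h2, avg_sq_eq_one F hF]
  ring

/-- The aligned-points inequality. -/
lemma aligned {m : ℕ} (F : (Fin (m + 1) → Bool) → ℝ) (hF : ∀ x, F x = 1 ∨ F x = -1)
    (S : ℝ) (hS : S = ∑ i, |coef F i|) (hS1 : 1 ≤ S) :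
    2 * (S - 1) ^ 2 / 2 ^ (m + 1) ≤ 1 - ∑ i, coef F i ^ 2 := by
  rw [← avg_residual F hF]
  set xp : Fin (m + 1) → Bool := fun i => decide (0 ≤ coef F i) with hxp
  set xm : Fin (m + 1) → Bool := fun i => ! decide (0 ≤ coef F i) with hxm
  have hne : xp ≠ xm := by
    intro h
    have := congrFun h 0
    simp only [hxp, hxm] at this
    cases hd : decide (0 ≤ coef F 0) <;> simp [hd] at this
  have gp : ∑ i, coef F i * sg (xp i) = S := by
    rw [hS]
    refine Finset.sum_congr rfl (fun i _ => ?_)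
    by_cases h : 0 ≤ coef F i
    · simp [hxp, h, abs_of_nonneg h]
    · have h' : coef F i < 0 := not_le.mp h
      simp [hxp, h, abs_of_neg h']
  have gm : ∑ i, coef F i * sg (xm i) = -S := by
    rw [hS, ← Finset.sum_neg_distrib]
    refine Finset.sum_congr rfl (fun i _ => ?_)
    by_cases h : 0 ≤ coef F i
    · simp [hxm, h, abs_of_nonneg h]
    · have h' : coef F i < 0 := not_le.mp h
      simp [hxm, h, abs_of_neg h']
  have hp : (S - 1) ^ 2 ≤ (F xp - S) ^ 2 := by
    rcases hF xp with h | h <;> rw [h] <;> nlinarith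
  have hm : (S - 1) ^ 2 ≤ (F xm - (-S)) ^ 2 := by
    rcases hF xm with h | h <;> rw [h] <;> nlinarith
  unfold avg
  apply div_le_div_of_nonneg_right _ (by positivity)
  have hsub : ∑ x ∈ ({xp, xm} : Finset (Fin (m + 1) → Bool)),
      (F x - ∑ i, coef F i * sg (x i)) ^ 2 ≤ ∑ x, (F x - ∑ i, coef F i * sg (x i)) ^ 2 :=
    Finset.sum_le_sum_of_subset_of_nonneg (Finset.subset_univ _) (fun _ _ _ => sq_nonneg _)
  rw [Finset.sum_pair hne, gp, gm] at hsub
  linarith

/-- The bound on coefficient sums when all are large. -/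
lemma sums_of_all_ge {m : ℕ} (F : (Fin m → Bool) → ℝ) {c : ℝ} (hc : 0 ≤ c)
    (h : ∀ i, c ≤ |coef F i|) :
    (m : ℝ) * c ≤ ∑ i, |coef F i| ∧ (m : ℝ) * c ^ 2 ≤ ∑ i, coef F i ^ 2 := by
  constructor
  · have := Finset.card_nsmul_le_sum (Finset.univ : Finset (Fin m)) (fun i => |coef F i|) c
      (fun i _ => h i)
    simpa using this
  · have := Finset.card_nsmul_le_sum (Finset.univ : Finset (Fin m)) (fun i => coef F i ^ 2) (c ^ 2)
      (fun i _ => by
        rw [← sq_abs (coef F i)]
        exact pow_le_pow_left₀ hc (h i) 2)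
    simpa using this

lemma bessel_one (F : (Fin n → Bool) → ℝ) (hF : ∀ x, F x = 1 ∨ F x = -1) :
    ∑ i, coef F i ^ 2 ≤ 1 := by
  have := bessel F
  rwa [avg_sq_eq_one F hF] at this

/-- `coef` has the parity of a mean. -/
lemma coef_half_int {m : ℕ} (F : (Fin (m + 1) → Bool) → ℝ) (hF : ∀ x, F x = 1 ∨ F x = -1)
    (i : Fin (m + 1)) : ∃ S : ℤ, coef F i = (S : ℝ) / 2 ^ m := by
  apply avg_half_int
  intro x
  rcases hF x with h | h <;> cases x i <;> rw [h] <;> simp

/-- Integer step: a coefficient above `3/8` on the grid `Z/2^m` is at least `K/2^m`. -/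
lemma grid_ge {m : ℕ} {x : ℝ} {S : ℤ} (hx : x = (S : ℝ) / 2 ^ m) {K : ℤ}
    (hK : (K : ℝ) - 1 ≤ (3 : ℝ) / 8 * 2 ^ m) (h : 3 / 8 < |x|) : (K : ℝ) / 2 ^ m ≤ |x| := by
  have hpos : (0 : ℝ) < 2 ^ m := by positivity
  have hx' : |x| = ((|S| : ℤ) : ℝ) / 2 ^ m := by
    rw [hx, abs_div, abs_of_pos hpos]
    push_cast
    rfl
  rw [hx'] at h ⊢
  rw [div_le_div_iff_of_pos_right hpos]
  rw [lt_div_iff₀ hpos] at h
  have h2 : ((K : ℝ) - 1) < ((|S| : ℤ) : ℝ) := by linarith
  have h3 : K - 1 < |S| := by exact_mod_cast h2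
  have h4 : K ≤ |S| := by omega
  exact_mod_cast h4

/-- The mean and a first-level coefficient satisfy `|A| + |B| ≤ 1`. -/
lemma mean_add_coef_le {m : ℕ} (F : (Fin (m + 1) → Bool) → ℝ) (hF : ∀ x, F x = 1 ∨ F x = -1)
    (i : Fin (m + 1)) : |avg F| + |coef F i| ≤ 1 := by
  have habs : ∀ G : (Fin m → Bool) → ℝ, (∀ x, G x = 1 ∨ G x = -1) → |avg G| ≤ 1 := by
    intro G hG
    apply abs_avg_le_one
    intro x
    rcases hG x with h | h <;> rw [h] <;> norm_num
  have h1 := abs_le.mp (habs (fun w => F (i.insertNth true w)) (fun x => hF _))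
  have h2 := abs_le.mp (habs (fun w => F (i.insertNth false w)) (fun x => hF _))
  have e1 : avg F = (avg (fun w => F (i.insertNth true w)) + avg (fun w => F (i.insertNth false w))) / 2 :=
    avg_split_coord F i
  have e2 := coef_eq F i
  rw [e1, ← e2]
  set a := avg (fun w => F (i.insertNth true w))
  set b := avg (fun w => F (i.insertNth false w))
  rcases abs_cases ((a + b) / 2) with ⟨e3, _⟩ | ⟨e3, _⟩ <;>
    rcases abs_cases ((a - b) / 2) with ⟨e4, _⟩ | ⟨e4, _⟩ <;> rw [e3, e4] <;> linarith [h1.1, h1.2, h2.1, h2.2]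

lemma finish_half {x c : ℝ} (hc : |c| = 1 / 2) (hm : |x| + |c| ≤ 1) (T : ℤ) (hT : 2 * x = (T : ℝ)) :
    x = 0 ∨ x = 1 / 2 ∨ x = -1 / 2 := by
  have hx : |x| ≤ 1 / 2 := by rw [hc] at hm; linarith
  have h1 := abs_le.mp hx
  have h2 : (-1 : ℝ) ≤ T := by rw [← hT]; linarith [h1.1]
  have h3 : (T : ℝ) ≤ 1 := by rw [← hT]; linarith [h1.2]
  have h4 : (-1 : ℤ) ≤ T := by exact_mod_cast h2
  have h5 : T ≤ 1 := by exact_mod_cast h3
  have h6 : T = -1 ∨ T = 0 ∨ T = 1 := by omega
  rcases h6 with h | h | h <;> rw [h] at hT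
  · right; right; push_cast at hT; linarith
  · left; push_cast at hT; linarith
  · right; left; push_cast at hT; linarith

/-- Some coordinate has Fourier coefficient at most `3/8`, or exactly `1/2` with a mean in
`{0, ±1/2}` (this last case occurs only on at most three coordinates). -/
theorem exists_coord2 {n : ℕ} (F : (Fin (n + 2) → Bool) → ℝ) (hF : ∀ x, F x = 1 ∨ F x = -1) :
    ∃ i : Fin (n + 2), |coef F i| ≤ 3 / 8 ∨
      (|coef F i| = 1 / 2 ∧ (avg F = 0 ∨ avg F = 1 / 2 ∨ avg F = -1 / 2)) := by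
  by_contra hcon
  push Not at hcon
  have hlarge : ∀ i, 3 / 8 < |coef F i| := fun i => (hcon i).1
  have hB := bessel_one F hF
  -- the means of the slices
  have hAB : ∀ i : Fin (n + 2), avg F + coef F i = avg (fun w => F (i.insertNth true w)) := by
    intro i
    rw [← coef_eq F i, avg_split_coord F i]
    ring
  have hmean : ∀ i : Fin (n + 2), |avg F| + |coef F i| ≤ 1 := fun i => mean_add_coef_le F hF i
  match n, F, hF, hlarge, hcon, hB, hAB, hmean with
  | 0, F, hF, hlarge, hcon, hB, hAB, hmean =>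
    -- two coordinates
    have hgrid : ∀ i, 1 / 2 ≤ |coef F i| := by
      intro i
      obtain ⟨S, hS⟩ := coef_half_int F hF i
      have := grid_ge (K := 1) hS (by norm_num) (hlarge i)
      simpa using this
    rw [Fin.sum_univ_two] at hB
    obtain ⟨S, hS⟩ := coef_half_int F hF 0
    have hS' : |coef F 0| = ((|S| : ℤ) : ℝ) / 2 := by
      rw [hS, abs_div]
      norm_num
    have h0 : |coef F 0| ^ 2 + |coef F 1| ^ 2 ≤ 1 := by
      rw [sq_abs, sq_abs]; exact hB
    have h1 := hgrid 0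
    have h2 := hgrid 1
    have h4 : (|S| : ℤ) < 2 := by
      by_contra hge
      have hge' : (2 : ℤ) ≤ |S| := not_lt.mp hge
      have h3 : (2 : ℝ) ≤ ((|S| : ℤ) : ℝ) := by exact_mod_cast hge'
      rw [hS'] at h0
      nlinarith
    have h5 : (1 : ℤ) ≤ |S| := by
      rw [hS'] at h1
      have : (1 : ℝ) ≤ ((|S| : ℤ) : ℝ) := by linarith
      exact_mod_cast this
    have h6 : |S| = 1 := by omega
    have hc : |coef F 0| = 1 / 2 := by
      rw [hS', h6]
      norm_num
    obtain ⟨S1, hS1⟩ := avg_half_int (fun w => F ((0 : Fin 2).insertNth true w)) (fun x => hF _)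
    have hm1 := hAB 0
    rw [hS1] at hm1
    have hT : ∃ T : ℤ, 2 * avg F = (T : ℝ) := by
      rcases abs_cases (coef F 0) with ⟨e, _⟩ | ⟨e, _⟩
      · refine ⟨2 * S1 - 1, ?_⟩
        push_cast
        have : coef F 0 = 1 / 2 := by rw [← hc, e]
        rw [this] at hm1
        norm_num at hm1
        linarith
      · refine ⟨2 * S1 + 1, ?_⟩
        push_cast
        have : coef F 0 = -(1 / 2) := by rw [← hc, e]; ring
        rw [this] at hm1
        norm_num at hm1
        linarith
    obtain ⟨T, hT⟩ := hT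
    have h7 := finish_half hc (hmean 0) T hT
    obtain ⟨_, h8⟩ := hcon 0
    obtain ⟨h9, h10, h11⟩ := h8 hc
    rcases h7 with h | h | h
    · exact h9 h
    · exact h10 h
    · exact h11 h
  | 1, F, hF, hlarge, hcon, hB, hAB, hmean =>
    have hgrid : ∀ i, 1 / 2 ≤ |coef F i| := by
      intro i
      obtain ⟨S, hS⟩ := coef_half_int F hF i
      have := grid_ge (K := 2) hS (by norm_num) (hlarge i)
      norm_num at this ⊢
      linarith
    rw [Fin.sum_univ_three] at hB
    obtain ⟨S, hS⟩ := coef_half_int F hF 0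
    have hS' : |coef F 0| = ((|S| : ℤ) : ℝ) / 4 := by
      rw [hS, abs_div]
      norm_num
    have h0 : |coef F 0| ^ 2 + |coef F 1| ^ 2 + |coef F 2| ^ 2 ≤ 1 := by
      rw [sq_abs, sq_abs, sq_abs]; exact hB
    have h1 := hgrid 0
    have h2 := hgrid 1
    have h2' := hgrid 2
    have h4 : (|S| : ℤ) < 3 := by
      by_contra hge
      have hge' : (3 : ℤ) ≤ |S| := not_lt.mp hge
      have h3 : (3 : ℝ) ≤ ((|S| : ℤ) : ℝ) := by exact_mod_cast hge'
      rw [hS'] at h0
      nlinarith
    have h5 : (2 : ℤ) ≤ |S| := by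
      rw [hS'] at h1
      have : (2 : ℝ) ≤ ((|S| : ℤ) : ℝ) := by linarith
      exact_mod_cast this
    have h6 : |S| = 2 := by omega
    have hc : |coef F 0| = 1 / 2 := by
      rw [hS', h6]
      norm_num
    obtain ⟨S1, hS1⟩ := avg_half_int (fun w => F ((0 : Fin 3).insertNth true w)) (fun x => hF _)
    have hm1 := hAB 0
    rw [hS1] at hm1
    have hT : ∃ T : ℤ, 2 * avg F = (T : ℝ) := by
      rcases abs_cases (coef F 0) with ⟨e, _⟩ | ⟨e, _⟩
      · refine ⟨S1 - 1, ?_⟩
        push_cast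
        have : coef F 0 = 1 / 2 := by rw [← hc, e]
        rw [this] at hm1
        norm_num at hm1
        linarith
      · refine ⟨S1 + 1, ?_⟩
        push_cast
        have : coef F 0 = -(1 / 2) := by rw [← hc, e]; ring
        rw [this] at hm1
        norm_num at hm1
        linarith
    obtain ⟨T, hT⟩ := hT
    have h7 := finish_half hc (hmean 0) T hT
    obtain ⟨_, h8⟩ := hcon 0
    obtain ⟨h9, h10, h11⟩ := h8 hc
    rcases h7 with h | h | h
    · exact h9 h
    · exact h10 h
    · exact h11 h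
  | 2, F, hF, hlarge, hcon, hB, hAB, hmean =>
    have hg : ∀ i, 1 / 2 ≤ |coef F i| := by
      intro i
      obtain ⟨S, hS⟩ := coef_half_int F hF i
      have := grid_ge (K := 4) hS (by norm_num) (hlarge i)
      norm_num at this ⊢
      linarith
    obtain ⟨h1, h2⟩ := sums_of_all_ge F (by norm_num) hg
    have h3 := aligned F hF _ rfl (by push_cast at h1; linarith)
    push_cast at h1 h2
    have h4 : (2 - 1 : ℝ) ^ 2 ≤ (∑ i, |coef F i| - 1) ^ 2 :=
      pow_le_pow_left₀ (by norm_num) (by linarith) 2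
    norm_num at h3
    nlinarith
  | 3, F, hF, hlarge, hcon, hB, hAB, hmean =>
    have hg : ∀ i, 7 / 16 ≤ |coef F i| := by
      intro i
      obtain ⟨S, hS⟩ := coef_half_int F hF i
      have := grid_ge (K := 7) hS (by norm_num) (hlarge i)
      norm_num at this ⊢
      linarith
    obtain ⟨h1, h2⟩ := sums_of_all_ge F (by norm_num) hg
    have h3 := aligned F hF _ rfl (by push_cast at h1; linarith)
    push_cast at h1 h2
    have h4 : (35 / 16 - 1 : ℝ) ^ 2 ≤ (∑ i, |coef F i| - 1) ^ 2 :=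
      pow_le_pow_left₀ (by norm_num) (by linarith) 2
    norm_num at h3
    nlinarith
  | 4, F, hF, hlarge, hcon, hB, hAB, hmean =>
    have hg : ∀ i, 13 / 32 ≤ |coef F i| := by
      intro i
      obtain ⟨S, hS⟩ := coef_half_int F hF i
      have := grid_ge (K := 13) hS (by norm_num) (hlarge i)
      norm_num at this ⊢
      linarith
    obtain ⟨h1, h2⟩ := sums_of_all_ge F (by norm_num) hg
    have h3 := aligned F hF _ rfl (by push_cast at h1; linarith)
    push_cast at h1 h2
    have h4 : (78 / 32 - 1 : ℝ) ^ 2 ≤ (∑ i, |coef F i| - 1) ^ 2 :=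
      pow_le_pow_left₀ (by norm_num) (by linarith) 2
    norm_num at h3
    nlinarith
  | 5, F, hF, hlarge, hcon, hB, hAB, hmean =>
    have hg : ∀ i, 25 / 64 ≤ |coef F i| := by
      intro i
      obtain ⟨S, hS⟩ := coef_half_int F hF i
      have := grid_ge (K := 25) hS (by norm_num) (hlarge i)
      norm_num at this ⊢
      linarith
    obtain ⟨_, h2⟩ := sums_of_all_ge F (by norm_num) hg
    push_cast at h2
    norm_num at h2
    linarith
  | k + 6, F, hF, hlarge, hcon, hB, hAB, hmean =>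
    have hg : ∀ i, 3 / 8 ≤ |coef F i| := fun i => (hlarge i).le
    obtain ⟨_, h2⟩ := sums_of_all_ge F (by norm_num) hg
    push_cast at h2
    have hk : (0 : ℝ) ≤ (k : ℝ) := Nat.cast_nonneg k
    nlinarith

end Vale.Agent.P322W
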