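import Vale.Agent.P322V.Defs

/-! Computable rational bounds for `log` and `psi`, for use with `decide +kernel`. -/

namespace Vale.Agent.P322W

open Real
open Vale.Agent.P322V

/-- Partial sums `∑_{i<n} x^(i+1)/(i+1)` together with `x^n`. -/
def sumPow (x : ℚ) : ℕ → ℚ × ℚ
  | 0 => (0, 1)
  | n + 1 =>
    let p := sumPow x n
    let pw := p.2 * x
    (p.1 + pw / ((n : ℚ) + 1), pw)

lemma sumPow_snd (x : ℚ) (n : ℕ) : (sumPow x n).2 = x ^ n := by
  induction n with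
  | zero => simp [sumPow]
  | succ n ih =>
    simp only [sumPow]
    rw [ih, pow_succ]

lemma sumPow_fst (x : ℚ) (n : ℕ) :
    (((sumPow x n).1 : ℚ) : ℝ) = ∑ i ∈ Finset.range n, (x : ℝ) ^ (i + 1) / ((i : ℝ) + 1) := by
  induction n with
  | zero => simp [sumPow]
  | succ n ih =>
    rw [Finset.sum_range_succ, ← ih]
    simp only [sumPow]
    rw [sumPow_snd]
    push_cast
    rw [pow_succ]

/-- Computable absolute value. -/
def qabs (q : ℚ) : ℚ := if 0 ≤ q then q else -q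

lemma qabs_eq (q : ℚ) : qabs q = |q| := by
  unfold qabs
  split_ifs with h
  · exact (abs_of_nonneg h).symm
  · exact (abs_of_neg (not_le.mp h)).symm

/-- Number of series terms. -/
def nTerms : ℕ := 20

/-- The series tail bound. -/
def tailB (x : ℚ) : ℚ := qabs x * qabs (sumPow x nTerms).2 / (1 - qabs x)

/-- Upper bound for `log m`, sound for `m > 0`. -/
def log1Hi (m : ℚ) : ℚ :=
  if -(1 / 2) ≤ 1 - m ∧ 1 - m ≤ 1 / 2 then
    -(sumPow (1 - m) nTerms).1 + tailB (1 - m)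
  else m - 1

/-- Lower bound for `log m`, sound for `m > 0`. -/
def log1Lo (m : ℚ) : ℚ :=
  if -(1 / 2) ≤ 1 - m ∧ 1 - m ≤ 1 / 2 then
    -(sumPow (1 - m) nTerms).1 - tailB (1 - m)
  else 1 - 1 / m

lemma tail_bounds {m : ℚ} (h : -(1 / 2) ≤ 1 - m ∧ 1 - m ≤ 1 / 2) :
    |(((sumPow (1 - m) nTerms).1 : ℚ) : ℝ) + Real.log (m : ℝ)| ≤ ((tailB (1 - m) : ℚ) : ℝ) := by
  have h1 : |((1 - m : ℚ) : ℝ)| < 1 := by
    have h2 : |(1 - m : ℚ)| ≤ 1 / 2 := abs_le.mpr h
    have h3 : ((|(1 - m : ℚ)| : ℚ) : ℝ) ≤ ((1 / 2 : ℚ) : ℝ) := by exact_mod_cast h2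
    rw [Rat.cast_abs] at h3
    push_cast at h3 ⊢
    linarith
  have h4 := Real.abs_log_sub_add_sum_range_le h1 nTerms
  have e : (1 : ℝ) - ((1 - m : ℚ) : ℝ) = (m : ℝ) := by push_cast; ring
  rw [e, ← sumPow_fst] at h4
  refine h4.trans (le_of_eq ?_)
  unfold tailB
  rw [sumPow_snd, qabs_eq, qabs_eq]
  push_cast
  rw [abs_pow, pow_succ]
  ring

lemma log1Hi_sound {m : ℚ} (hm : 0 < m) : Real.log (m : ℝ) ≤ ((log1Hi m : ℚ) : ℝ) := by
  have hm' : (0 : ℝ) < (m : ℝ) := by exact_mod_cast hm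
  unfold log1Hi
  split_ifs with h
  · have := abs_le.mp (tail_bounds h)
    push_cast
    linarith [this.2]
  · have := Real.log_le_sub_one_of_pos hm'
    push_cast
    exact this

lemma log1Lo_sound {m : ℚ} (hm : 0 < m) : ((log1Lo m : ℚ) : ℝ) ≤ Real.log (m : ℝ) := by
  have hm' : (0 : ℝ) < (m : ℝ) := by exact_mod_cast hm
  unfold log1Lo
  split_ifs with h
  · have := abs_le.mp (tail_bounds h)
    push_cast
    linarith [this.1]
  · have := Real.one_sub_inv_le_log_of_pos hm'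
    push_cast
    rwa [one_div]

/-- Normalization by powers of two. -/
def normK : ℕ → ℚ → ℤ → ℚ × ℤ
  | 0, m, k => (m, k)
  | f + 1, m, k =>
    if 4 / 3 < m then normK f (m / 2) (k + 1)
    else if m < 2 / 3 then normK f (m * 2) (k - 1)
    else (m, k)

lemma normK_spec (f : ℕ) (m : ℚ) (k : ℤ) :
    ((normK f m k).1 : ℝ) * (2 : ℝ) ^ (normK f m k).2 = (m : ℝ) * (2 : ℝ) ^ k := by
  induction f generalizing m k with
  | zero => simp [normK]
  | succ f ih =>
    simp only [normK]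
    split_ifs with h1 h2
    · rw [ih]
      push_cast
      rw [zpow_add_one₀ (by norm_num)]
      ring
    · rw [ih]
      push_cast
      rw [zpow_sub_one₀ (by norm_num)]
      field_simp
    · rfl

/-- Upper and lower rational bounds on `log 2`. -/
def L2hi : ℚ := 6931471808 / 10000000000
def L2lo : ℚ := 6931471803 / 10000000000

lemma L2lo_le : ((L2lo : ℚ) : ℝ) ≤ Real.log 2 := by
  have := Real.log_two_gt_d9
  unfold L2lo
  push_cast
  linarith

lemma le_L2hi : Real.log 2 ≤ ((L2hi : ℚ) : ℝ) := by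
  have := Real.log_two_lt_d9
  unfold L2hi
  push_cast
  linarith

/-- Upper bound for `k log 2`. -/
def kLogHi (k : ℤ) : ℚ := if 0 ≤ k then (k : ℚ) * L2hi else (k : ℚ) * L2lo

/-- Lower bound for `k log 2`. -/
def kLogLo (k : ℤ) : ℚ := if 0 ≤ k then (k : ℚ) * L2lo else (k : ℚ) * L2hi

lemma kLogHi_sound (k : ℤ) : (k : ℝ) * Real.log 2 ≤ ((kLogHi k : ℚ) : ℝ) := by
  unfold kLogHi
  split_ifs with h
  · push_cast
    exact mul_le_mul_of_nonneg_left le_L2hi (by exact_mod_cast h)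
  · push_cast
    exact mul_le_mul_of_nonpos_left L2lo_le (by exact_mod_cast (not_le.mp h).le)

lemma kLogLo_sound (k : ℤ) : ((kLogLo k : ℚ) : ℝ) ≤ (k : ℝ) * Real.log 2 := by
  unfold kLogLo
  split_ifs with h
  · push_cast
    exact mul_le_mul_of_nonneg_left L2lo_le (by exact_mod_cast h)
  · push_cast
    exact mul_le_mul_of_nonpos_left le_L2hi (by exact_mod_cast (not_le.mp h).le)

/-- Upper bound for `log q`, sound for `q > 0`. -/
def logHi (q : ℚ) : ℚ :=
  let p := normK 64 q 0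
  kLogHi p.2 + log1Hi p.1

/-- Lower bound for `log q`, sound for `q > 0`. -/
def logLo (q : ℚ) : ℚ :=
  let p := normK 64 q 0
  kLogLo p.2 + log1Lo p.1

lemma log_normK {q : ℚ} (hq : 0 < q) :
    0 < (normK 64 q 0).1 ∧
      Real.log (q : ℝ) = Real.log (((normK 64 q 0).1 : ℚ) : ℝ) + (((normK 64 q 0).2 : ℤ) : ℝ) * Real.log 2 := by
  have hs := normK_spec 64 q 0
  simp only [zpow_zero, mul_one] at hs
  have hq' : (0 : ℝ) < (q : ℝ) := by exact_mod_cast hq
  have h2 : (0 : ℝ) < (2 : ℝ) ^ (normK 64 q 0).2 := by positivity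
  have hm : (0 : ℝ) < ((normK 64 q 0).1 : ℝ) := by
    by_contra hcon
    push Not at hcon
    have : ((normK 64 q 0).1 : ℝ) * (2 : ℝ) ^ (normK 64 q 0).2 ≤ 0 :=
      mul_nonpos_of_nonpos_of_nonneg hcon h2.le
    linarith
  refine ⟨by exact_mod_cast hm, ?_⟩
  rw [← hs, Real.log_mul hm.ne' h2.ne', Real.log_zpow]

/-- Soundness of `logHi`. -/
theorem le_logHi {q : ℚ} (hq : 0 < q) : Real.log (q : ℝ) ≤ ((logHi q : ℚ) : ℝ) := by
  obtain ⟨h1, h2⟩ := log_normK hq
  unfold logHi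
  simp only
  push_cast
  rw [h2]
  have h3 := log1Hi_sound h1
  have h4 := kLogHi_sound (normK 64 q 0).2
  linarith

/-- Soundness of `logLo`. -/
theorem logLo_le {q : ℚ} (hq : 0 < q) : ((logLo q : ℚ) : ℝ) ≤ Real.log (q : ℝ) := by
  obtain ⟨h1, h2⟩ := log_normK hq
  unfold logLo
  simp only
  push_cast
  rw [h2]
  have h3 := log1Lo_sound h1
  have h4 := kLogLo_sound (normK 64 q 0).2
  linarith

/-- Lower bound for `psi x`, sound for `|x| ≤ 1`. -/
def psiLo (x : ℚ) : ℚ :=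
  let a := qabs x
  if a < 1 then L2lo - (1 + a) / 2 * logHi (1 + a) - (1 - a) / 2 * logHi (1 - a) else 0

/-- Upper bound for `psi x`, sound for `|x| ≤ 1`. -/
def psiHi (x : ℚ) : ℚ :=
  let a := qabs x
  if a < 1 then L2hi - (1 + a) / 2 * logLo (1 + a) - (1 - a) / 2 * logLo (1 - a) else 0

lemma psi_cast_abs (x : ℚ) : psi (x : ℝ) = psi ((qabs x : ℚ) : ℝ) := by
  rw [qabs_eq]
  push_cast
  rcases abs_cases (x : ℝ) with ⟨e, _⟩ | ⟨e, _⟩ <;> rw [e]
  rw [psi_neg]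

/-- Soundness of `psiLo`. -/
theorem psiLo_le {x : ℚ} (hx : |x| ≤ 1) : ((psiLo x : ℚ) : ℝ) ≤ psi (x : ℝ) := by
  rw [psi_cast_abs]
  have ha : qabs x = |x| := qabs_eq x
  have ha0 : 0 ≤ qabs x := by rw [ha]; exact abs_nonneg x
  unfold psiLo
  simp only
  obtain ⟨a, hadef⟩ : ∃ a, a = qabs x := ⟨_, rfl⟩
  rw [← hadef] at ha0 ⊢
  split_ifs with h
  · have ha0' : (0 : ℝ) ≤ (a : ℝ) := by exact_mod_cast ha0
    have h' : (a : ℝ) < 1 := by exact_mod_cast h
    have habs : |(a : ℝ)| < 1 := by rw [abs_of_nonneg ha0']; exact h'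
    rw [psi_eq_logs habs]
    have h1 := le_logHi (q := 1 + a) (by linarith)
    have h2 := le_logHi (q := 1 - a) (by linarith)
    push_cast at h1 h2 ⊢
    have h3 := L2lo_le
    have h4 : (1 + (a : ℝ)) / 2 * Real.log (1 + (a : ℝ)) ≤ (1 + (a : ℝ)) / 2 * ((logHi (1 + a) : ℚ) : ℝ) :=
      mul_le_mul_of_nonneg_left h1 (by linarith)
    have h5 : (1 - (a : ℝ)) / 2 * Real.log (1 - (a : ℝ)) ≤ (1 - (a : ℝ)) / 2 * ((logHi (1 - a) : ℚ) : ℝ) :=
      mul_le_mul_of_nonneg_left h2 (by linarith)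
    linarith
  · have ha1 : (a : ℚ) = 1 := by
      have : a ≤ 1 := by rw [hadef, ha]; exact hx
      exact le_antisymm this (not_lt.mp h)
    rw [ha1]
    push_cast
    rw [psi_one]

/-- Soundness of `psiHi`. -/
theorem le_psiHi {x : ℚ} (hx : |x| ≤ 1) : psi (x : ℝ) ≤ ((psiHi x : ℚ) : ℝ) := by
  rw [psi_cast_abs]
  have ha : qabs x = |x| := qabs_eq x
  have ha0 : 0 ≤ qabs x := by rw [ha]; exact abs_nonneg x
  unfold psiHi
  simp only
  obtain ⟨a, hadef⟩ : ∃ a, a = qabs x := ⟨_, rfl⟩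
  rw [← hadef] at ha0 ⊢
  split_ifs with h
  · have ha0' : (0 : ℝ) ≤ (a : ℝ) := by exact_mod_cast ha0
    have h' : (a : ℝ) < 1 := by exact_mod_cast h
    have habs : |(a : ℝ)| < 1 := by rw [abs_of_nonneg ha0']; exact h'
    rw [psi_eq_logs habs]
    have h1 := logLo_le (q := 1 + a) (by linarith)
    have h2 := logLo_le (q := 1 - a) (by linarith)
    push_cast at h1 h2 ⊢
    have h3 := le_L2hi
    have h4 : (1 + (a : ℝ)) / 2 * ((logLo (1 + a) : ℚ) : ℝ) ≤ (1 + (a : ℝ)) / 2 * Real.log (1 + (a : ℝ)) :=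
      mul_le_mul_of_nonneg_left h1 (by linarith)
    have h5 : (1 - (a : ℝ)) / 2 * ((logLo (1 - a) : ℚ) : ℝ) ≤ (1 - (a : ℝ)) / 2 * Real.log (1 - (a : ℝ)) :=
      mul_le_mul_of_nonneg_left h2 (by linarith)
    linarith
  · have ha1 : (a : ℚ) = 1 := by
      have : a ≤ 1 := by rw [hadef, ha]; exact hx
      exact le_antisymm this (not_lt.mp h)
    rw [ha1]
    push_cast
    rw [psi_one]

end Vale.Agent.P322W
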