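import Vale.Agent.P322W.Num

/-! Fast fixed-point bounds for `log` and `psi`, computed on natural numbers. -/

namespace Vale.Agent.P322W

open Real
open Vale.Agent.P322V

/-- The fixed-point scale. -/
def DD : ℕ := 18446744073709551616

lemma DD_pos : (0 : ℝ) < (DD : ℝ) := by
  unfold DD
  norm_num

/-- Lower chain: `(p, s)` with `p/DD ≤ y^n` and `s/DD ≤ ∑_{i<n} y^(i+1)/(i+1)`. -/
def chainLo (x : ℕ) : ℕ → ℕ × ℕ
  | 0 => (DD, 0)
  | n + 1 =>
    let r := chainLo x n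
    let p := r.1 * x / DD
    (p, r.2 + p / (n + 1))

/-- Upper chain: `(p, s)` with `y^n ≤ p/DD` and `∑_{i<n} y^(i+1)/(i+1) ≤ s/DD`. -/
def chainHi (x : ℕ) : ℕ → ℕ × ℕ
  | 0 => (DD, 0)
  | n + 1 =>
    let r := chainHi x n
    let p := r.1 * x / DD + 1
    (p, r.2 + p / (n + 1) + 1)

lemma chainLo_spec {y : ℝ} (hy : 0 ≤ y) {x : ℕ} (hx : (x : ℝ) / DD ≤ y) (n : ℕ) :
    ((chainLo x n).1 : ℝ) / DD ≤ y ^ n ∧
      ((chainLo x n).2 : ℝ) / DD ≤ ∑ i ∈ Finset.range n, y ^ (i + 1) / ((i : ℝ) + 1) := by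
  have hD := DD_pos
  induction n with
  | zero =>
    simp only [chainLo]
    constructor
    · simp [hD.ne']
    · simp
  | succ n ih =>
    obtain ⟨h1, h2⟩ := ih
    simp only [chainLo]
    have hp0 : ((chainLo x n).1 * x / DD : ℕ) ≤ ((chainLo x n).1 : ℝ) * x / DD := by
      have := @Nat.cast_div_le ℝ _ _ _ ((chainLo x n).1 * x) DD
      push_cast at this
      exact this
    have hr0 : (0 : ℝ) ≤ ((chainLo x n).1 : ℝ) / DD := by positivity
    have hx0 : (0 : ℝ) ≤ (x : ℝ) / DD := by positivity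
    have hpw : (((chainLo x n).1 * x / DD : ℕ) : ℝ) / DD ≤ y ^ (n + 1) := by
      have h3 : ((chainLo x n).1 : ℝ) * x / DD / DD = ((chainLo x n).1 : ℝ) / DD * ((x : ℝ) / DD) := by
        field_simp
      have h4 : ((chainLo x n).1 : ℝ) / DD * ((x : ℝ) / DD) ≤ y ^ n * y :=
        mul_le_mul h1 hx hx0 (by positivity)
      calc (((chainLo x n).1 * x / DD : ℕ) : ℝ) / DD
          ≤ ((chainLo x n).1 : ℝ) * x / DD / DD := by
            apply div_le_div_of_nonneg_right hp0 hD.le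
        _ = ((chainLo x n).1 : ℝ) / DD * ((x : ℝ) / DD) := h3
        _ ≤ y ^ n * y := h4
        _ = y ^ (n + 1) := by rw [pow_succ]
    refine ⟨hpw, ?_⟩
    rw [Finset.sum_range_succ]
    push_cast
    rw [add_div]
    apply add_le_add h2
    have h5 : (((chainLo x n).1 * x / DD / (n + 1) : ℕ) : ℝ)
        ≤ (((chainLo x n).1 * x / DD : ℕ) : ℝ) / ((n : ℝ) + 1) := by
      have := @Nat.cast_div_le ℝ _ _ _ ((chainLo x n).1 * x / DD) (n + 1)
      push_cast at this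
      exact this
    have hn : (0 : ℝ) < (n : ℝ) + 1 := by positivity
    calc (((chainLo x n).1 * x / DD / (n + 1) : ℕ) : ℝ) / DD
        ≤ (((chainLo x n).1 * x / DD : ℕ) : ℝ) / ((n : ℝ) + 1) / DD :=
          div_le_div_of_nonneg_right h5 hD.le
      _ = (((chainLo x n).1 * x / DD : ℕ) : ℝ) / DD / ((n : ℝ) + 1) := by ring
      _ ≤ y ^ (n + 1) / ((n : ℝ) + 1) := div_le_div_of_nonneg_right hpw hn.le

/-- `a/b ≤ ⌊a/b⌋ + 1` in the reals. -/
lemma le_floor_add_one (a b : ℕ) (hb : 0 < b) : (a : ℝ) / b ≤ ((a / b + 1 : ℕ) : ℝ) := by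
  have hb' : (0 : ℝ) < (b : ℝ) := by exact_mod_cast hb
  rw [div_le_iff₀ hb']
  have h := Nat.lt_succ_iff.mpr (le_refl (a / b))
  have h2 : a < (a / b + 1) * b := by
    have := Nat.div_add_mod a b
    have h3 := Nat.mod_lt a hb
    nlinarith
  have h4 : (a : ℝ) ≤ (((a / b + 1) * b : ℕ) : ℝ) := by exact_mod_cast h2.le
  push_cast at h4 ⊢
  exact h4

lemma chainHi_spec {y : ℝ} (hy : 0 ≤ y) {x : ℕ} (hx : y ≤ (x : ℝ) / DD) (n : ℕ) :
    y ^ n ≤ ((chainHi x n).1 : ℝ) / DD ∧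
      ∑ i ∈ Finset.range n, y ^ (i + 1) / ((i : ℝ) + 1) ≤ ((chainHi x n).2 : ℝ) / DD := by
  have hD := DD_pos
  have hDn : 0 < DD := by unfold DD; norm_num
  induction n with
  | zero =>
    simp only [chainHi]
    constructor
    · simp [hD.ne']
    · simp
  | succ n ih =>
    obtain ⟨h1, h2⟩ := ih
    simp only [chainHi]
    have hp0 : ((chainHi x n).1 : ℝ) * x / DD ≤ (((chainHi x n).1 * x / DD + 1 : ℕ) : ℝ) := by
      have := le_floor_add_one ((chainHi x n).1 * x) DD hDn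
      push_cast at this ⊢
      exact this
    have hpw : y ^ (n + 1) ≤ (((chainHi x n).1 * x / DD + 1 : ℕ) : ℝ) / DD := by
      have h3 : ((chainHi x n).1 : ℝ) * x / DD / DD = ((chainHi x n).1 : ℝ) / DD * ((x : ℝ) / DD) := by
        field_simp
      have h4 : y ^ n * y ≤ ((chainHi x n).1 : ℝ) / DD * ((x : ℝ) / DD) :=
        mul_le_mul h1 hx hy (by positivity)
      calc y ^ (n + 1) = y ^ n * y := by rw [pow_succ]
        _ ≤ ((chainHi x n).1 : ℝ) / DD * ((x : ℝ) / DD) := h4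
        _ = ((chainHi x n).1 : ℝ) * x / DD / DD := h3.symm
        _ ≤ (((chainHi x n).1 * x / DD + 1 : ℕ) : ℝ) / DD :=
          div_le_div_of_nonneg_right hp0 hD.le
    refine ⟨hpw, ?_⟩
    rw [Finset.sum_range_succ]
    have e : (((chainHi x n).2 + ((chainHi x n).1 * x / DD + 1) / (n + 1) + 1 : ℕ) : ℝ) / DD
        = ((chainHi x n).2 : ℝ) / DD
          + ((((chainHi x n).1 * x / DD + 1) / (n + 1) + 1 : ℕ) : ℝ) / DD := by
      push_cast
      ring
    rw [e]
    apply add_le_add h2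
    have h5 := le_floor_add_one ((chainHi x n).1 * x / DD + 1) (n + 1) (by omega)
    have hn : (0 : ℝ) < (n : ℝ) + 1 := by positivity
    have e2 : ((n + 1 : ℕ) : ℝ) = (n : ℝ) + 1 := by push_cast; ring
    rw [e2] at h5
    calc y ^ (n + 1) / ((n : ℝ) + 1)
        ≤ (((chainHi x n).1 * x / DD + 1 : ℕ) : ℝ) / DD / ((n : ℝ) + 1) :=
          div_le_div_of_nonneg_right hpw hn.le
      _ = (((chainHi x n).1 * x / DD + 1 : ℕ) : ℝ) / ((n : ℝ) + 1) / DD := by ring
      _ ≤ (((chainHi x n).1 * x / DD + 1) / (n + 1) + 1 : ℕ) / DD :=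
          div_le_div_of_nonneg_right h5 hD.le

/-- Number of series terms for the fast version. -/
def nF : ℕ := 20

/-- Lower bound of `-log(1-y)` in fixed point, from a lower approximation of `y`. -/
def sLo (x : ℕ) : ℕ := (chainLo x nF).2

/-- Upper bound of `-log(1-y)` in fixed point, from an upper approximation of `y`. -/
def sHi (x : ℕ) : ℕ :=
  let r := chainHi x nF
  r.2 + 2 * (r.1 * x / DD + 1)

lemma sLo_sound {y : ℝ} (hy : 0 ≤ y) (hy1 : y < 1) {x : ℕ} (hx : (x : ℝ) / DD ≤ y) :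
    (sLo x : ℝ) / DD ≤ - Real.log (1 - y) := by
  have h1 := (chainLo_spec hy hx nF).2
  refine h1.trans ?_
  have habs : |y| < 1 := by rw [abs_of_nonneg hy]; exact hy1
  have hs := Real.hasSum_pow_div_log_of_abs_lt_one habs
  have h2 := sum_le_hasSum (Finset.range nF) (f := fun n : ℕ => y ^ (n + 1) / ((n : ℝ) + 1))
    (fun i _ => by positivity) hs
  exact h2

lemma sHi_sound {y : ℝ} (hy : 0 ≤ y) (hy1 : y ≤ 1 / 2) {x : ℕ} (hx : y ≤ (x : ℝ) / DD) :
    - Real.log (1 - y) ≤ (sHi x : ℝ) / DD := by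
  have hD := DD_pos
  have hDn : 0 < DD := by unfold DD; norm_num
  obtain ⟨h1, h2⟩ := chainHi_spec hy hx nF
  have habs : |y| < 1 := by rw [abs_of_nonneg hy]; linarith
  have h3 := Real.abs_log_sub_add_sum_range_le habs nF
  rw [abs_of_nonneg hy] at h3
  have h4 := (abs_le.mp h3).1
  -- `y^(n+1)/(1-y) ≤ 2 y^(n+1)`
  have h5 : y ^ (nF + 1) / (1 - y) ≤ 2 * y ^ (nF + 1) := by
    rw [div_le_iff₀ (by linarith)]
    have : 0 ≤ y ^ (nF + 1) := by positivity
    nlinarith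
  have h6 : y ^ (nF + 1) ≤ (((chainHi x nF).1 * x / DD + 1 : ℕ) : ℝ) / DD := by
    have hp0 := le_floor_add_one ((chainHi x nF).1 * x) DD hDn
    push_cast at hp0
    have h3' : ((chainHi x nF).1 : ℝ) * x / DD / DD = ((chainHi x nF).1 : ℝ) / DD * ((x : ℝ) / DD) := by
      field_simp
    have h4' : y ^ nF * y ≤ ((chainHi x nF).1 : ℝ) / DD * ((x : ℝ) / DD) :=
      mul_le_mul h1 hx hy (by positivity)
    calc y ^ (nF + 1) = y ^ nF * y := by rw [pow_succ]
      _ ≤ ((chainHi x nF).1 : ℝ) / DD * ((x : ℝ) / DD) := h4'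
      _ = ((chainHi x nF).1 : ℝ) * x / DD / DD := h3'.symm
      _ ≤ (((chainHi x nF).1 * x / DD + 1 : ℕ) : ℝ) / DD := by
        apply div_le_div_of_nonneg_right _ hD.le
        push_cast
        exact hp0
  unfold sHi
  simp only
  push_cast at h6 ⊢
  rw [add_div, mul_div_assoc]
  linarith

/-- Fixed-point approximation from below of `n/d`. -/
def fixLo (n d : ℕ) : ℕ := n * DD / d

/-- Fixed-point approximation from above of `n/d`. -/
def fixHi (n d : ℕ) : ℕ := n * DD / d + 1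

lemma fixLo_sound (n d : ℕ) : (fixLo n d : ℝ) / DD ≤ (n : ℝ) / d := by
  have hD := DD_pos
  have := @Nat.cast_div_le ℝ _ _ _ (n * DD) d
  push_cast at this
  rw [div_le_iff₀ hD]
  unfold fixLo
  refine this.trans (le_of_eq ?_)
  ring

lemma fixHi_sound (n d : ℕ) (hd : 0 < d) : (n : ℝ) / d ≤ (fixHi n d : ℝ) / DD := by
  have hD := DD_pos
  have := le_floor_add_one (n * DD) d hd
  push_cast at this
  rw [le_div_iff₀ hD]
  unfold fixHi
  push_cast
  refine le_trans (le_of_eq ?_) this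
  ring

/-- Scale back to a rational. -/
def ofFix (s : ℕ) : ℚ := (s : ℚ) / (DD : ℚ)

lemma ofFix_cast (s : ℕ) : ((ofFix s : ℚ) : ℝ) = (s : ℝ) / DD := by
  unfold ofFix
  push_cast
  rfl

/-- Upper bound of `log (a/b)` for `a, b > 0`, accurate for `a/b` in `[2/3, 3/2]`. -/
def logABHi (a b : ℕ) : ℚ :=
  if b ≤ a then
    if 2 * (a - b) ≤ a then ofFix (sHi (fixHi (a - b) a))
    else (a : ℚ) / b - 1
  else
    if (b - a) ≤ b then - ofFix (sLo (fixLo (b - a) b))
    else (a : ℚ) / b - 1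

/-- Lower bound of `log (a/b)` for `a, b > 0`, accurate for `a/b` in `[2/3, 3/2]`. -/
def logABLo (a b : ℕ) : ℚ :=
  if b ≤ a then
    ofFix (sLo (fixLo (a - b) a))
  else
    if 2 * (b - a) ≤ b then - ofFix (sHi (fixHi (b - a) b))
    else 1 - (b : ℚ) / a

lemma logABHi_sound {a b : ℕ} (ha : 0 < a) (hb : 0 < b) :
    Real.log ((a : ℝ) / b) ≤ ((logABHi a b : ℚ) : ℝ) := by
  have ha' : (0 : ℝ) < (a : ℝ) := by exact_mod_cast ha
  have hb' : (0 : ℝ) < (b : ℝ) := by exact_mod_cast hb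
  unfold logABHi
  split_ifs with h1 h2 h3
  · -- `a ≥ b`: `log(a/b) = -log(1 - y)`, `y = (a-b)/a`
    rw [ofFix_cast]
    have hcast : ((a - b : ℕ) : ℝ) = (a : ℝ) - b := by
      rw [Nat.cast_sub h1]
    have hy0 : 0 ≤ ((a - b : ℕ) : ℝ) / a := by positivity
    have hy1 : ((a - b : ℕ) : ℝ) / a ≤ 1 / 2 := by
      rw [div_le_iff₀ ha']
      have : ((2 * (a - b) : ℕ) : ℝ) ≤ (a : ℝ) := by exact_mod_cast h2
      push_cast at this
      rw [Nat.cast_sub h1] at this ⊢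
      linarith
    have h := sHi_sound hy0 hy1 (fixHi_sound (a - b) a ha)
    have e : Real.log ((a : ℝ) / b) = - Real.log (1 - ((a - b : ℕ) : ℝ) / a) := by
      have e2 : 1 - ((a : ℝ) - b) / a = b / a := by
        field_simp
        ring
      rw [hcast, e2, ← Real.log_inv, inv_div]
    rw [e]
    exact h
  · have := Real.log_le_sub_one_of_pos (div_pos ha' hb')
    push_cast
    exact this
  · -- `a < b`
    rw [Rat.cast_neg, ofFix_cast]
    have hab : a < b := not_le.mp h1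
    have hy0 : 0 ≤ ((b - a : ℕ) : ℝ) / b := by positivity
    have hcast : ((b - a : ℕ) : ℝ) = (b : ℝ) - a := by
      rw [Nat.cast_sub hab.le]
    have hy1 : ((b - a : ℕ) : ℝ) / b < 1 := by
      rw [div_lt_one hb', hcast]
      linarith
    have h := sLo_sound hy0 hy1 (fixLo_sound (b - a) b)
    have e : Real.log ((a : ℝ) / b) = Real.log (1 - ((b - a : ℕ) : ℝ) / b) := by
      rw [hcast]
      congr 1
      field_simp
      ring
    rw [e]
    linarith
  · have := Real.log_le_sub_one_of_pos (div_pos ha' hb')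
    push_cast
    exact this

lemma logABLo_sound {a b : ℕ} (ha : 0 < a) (hb : 0 < b) :
    ((logABLo a b : ℚ) : ℝ) ≤ Real.log ((a : ℝ) / b) := by
  have ha' : (0 : ℝ) < (a : ℝ) := by exact_mod_cast ha
  have hb' : (0 : ℝ) < (b : ℝ) := by exact_mod_cast hb
  unfold logABLo
  split_ifs with h1 h2
  · rw [ofFix_cast]
    have hcast : ((a - b : ℕ) : ℝ) = (a : ℝ) - b := by
      rw [Nat.cast_sub h1]
    have hy0 : 0 ≤ ((a - b : ℕ) : ℝ) / a := by positivity
    have hy1 : ((a - b : ℕ) : ℝ) / a < 1 := by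
      rw [div_lt_one ha', hcast]
      linarith
    have h := sLo_sound hy0 hy1 (fixLo_sound (a - b) a)
    have e : Real.log ((a : ℝ) / b) = - Real.log (1 - ((a - b : ℕ) : ℝ) / a) := by
      have e2 : 1 - ((a : ℝ) - b) / a = b / a := by
        field_simp
        ring
      rw [hcast, e2, ← Real.log_inv, inv_div]
    rw [e]
    exact h
  · rw [Rat.cast_neg, ofFix_cast]
    have hab : a < b := not_le.mp h1
    have hcast : ((b - a : ℕ) : ℝ) = (b : ℝ) - a := by
      rw [Nat.cast_sub hab.le]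
    have hy0 : 0 ≤ ((b - a : ℕ) : ℝ) / b := by positivity
    have hy1 : ((b - a : ℕ) : ℝ) / b ≤ 1 / 2 := by
      rw [div_le_iff₀ hb']
      have : ((2 * (b - a) : ℕ) : ℝ) ≤ (b : ℝ) := by exact_mod_cast h2
      push_cast at this
      rw [Nat.cast_sub hab.le] at this ⊢
      linarith
    have h := sHi_sound hy0 hy1 (fixHi_sound (b - a) b hb)
    have e : Real.log ((a : ℝ) / b) = Real.log (1 - ((b - a : ℕ) : ℝ) / b) := by
      rw [hcast]
      congr 1
      field_simp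
      ring
    rw [e]
    linarith
  · have := Real.one_sub_inv_le_log_of_pos (div_pos ha' hb')
    rw [inv_div] at this
    push_cast
    exact this

/-- Normalization of a positive rational: `q = (a/b) 2^k` with `a/b` near `1`. -/
def normAB (a b : ℕ) : ℕ × ℕ × ℤ :=
  let la := Nat.log2 a
  let lb := Nat.log2 b
  -- first bring `a/b` into `(1/2, 2)`
  let p : ℕ × ℕ × ℤ :=
    if lb ≤ la then (a, b * 2 ^ (la - lb), ((la - lb : ℕ) : ℤ))
    else (a * 2 ^ (lb - la), b, -((lb - la : ℕ) : ℤ))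
  -- then into `[2/3, 3/2]`, approximately
  if 2 * p.1 > 3 * p.2.1 then (p.1, 2 * p.2.1, p.2.2 + 1)
  else if 4 * p.1 < 3 * p.2.1 then (2 * p.1, p.2.1, p.2.2 - 1)
  else p

lemma normAB_spec {a b : ℕ} (ha : 0 < a) (hb : 0 < b) :
    0 < (normAB a b).1 ∧ 0 < (normAB a b).2.1 ∧
      (a : ℝ) / b = ((normAB a b).1 : ℝ) / ((normAB a b).2.1 : ℝ) * (2 : ℝ) ^ (normAB a b).2.2 := by
  have ha' : (a : ℝ) ≠ 0 := by positivity
  have hb' : (b : ℝ) ≠ 0 := by positivity
  have h20 : (2 : ℝ) ≠ 0 := by norm_num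
  -- the first normalization
  have key : ∀ p : ℕ × ℕ × ℤ, 0 < p.1 → 0 < p.2.1 →
      (a : ℝ) / b = (p.1 : ℝ) / (p.2.1 : ℝ) * (2 : ℝ) ^ p.2.2 →
      0 < (if 2 * p.1 > 3 * p.2.1 then (p.1, 2 * p.2.1, p.2.2 + 1)
          else if 4 * p.1 < 3 * p.2.1 then (2 * p.1, p.2.1, p.2.2 - 1)
          else p).1 ∧
      0 < (if 2 * p.1 > 3 * p.2.1 then (p.1, 2 * p.2.1, p.2.2 + 1)
          else if 4 * p.1 < 3 * p.2.1 then (2 * p.1, p.2.1, p.2.2 - 1)
          else p).2.1 ∧
      (a : ℝ) / b = (((if 2 * p.1 > 3 * p.2.1 then (p.1, 2 * p.2.1, p.2.2 + 1)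
          else if 4 * p.1 < 3 * p.2.1 then (2 * p.1, p.2.1, p.2.2 - 1)
          else p).1 : ℕ) : ℝ)
        / (((if 2 * p.1 > 3 * p.2.1 then (p.1, 2 * p.2.1, p.2.2 + 1)
          else if 4 * p.1 < 3 * p.2.1 then (2 * p.1, p.2.1, p.2.2 - 1)
          else p).2.1 : ℕ) : ℝ)
        * (2 : ℝ) ^ (if 2 * p.1 > 3 * p.2.1 then (p.1, 2 * p.2.1, p.2.2 + 1)
          else if 4 * p.1 < 3 * p.2.1 then (2 * p.1, p.2.1, p.2.2 - 1)
          else p).2.2 := by
    intro p hp1 hp2 hp3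
    have hp1' : (p.1 : ℝ) ≠ 0 := by positivity
    have hp2' : (p.2.1 : ℝ) ≠ 0 := by positivity
    split_ifs with h1 h2
    · refine ⟨hp1, by simpa using hp2, ?_⟩
      simp only
      rw [hp3, zpow_add_one₀ h20]
      push_cast
      field_simp
    · refine ⟨by simpa using hp1, hp2, ?_⟩
      simp only
      rw [hp3, zpow_sub_one₀ h20]
      push_cast
      field_simp
    · exact ⟨hp1, hp2, hp3⟩
  unfold normAB
  simp only
  apply key
  · split_ifs <;> simp only <;> positivity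
  · split_ifs <;> simp only <;> positivity
  · split_ifs with h
    · simp only
      rw [zpow_natCast]
      push_cast
      field_simp
    · simp only
      rw [zpow_neg, zpow_natCast]
      push_cast
      field_simp

/-- Fast upper bound for `log q`, sound for `q > 0`. -/
def logHiF (q : ℚ) : ℚ :=
  let p := normAB q.num.toNat q.den
  kLogHi p.2.2 + logABHi p.1 p.2.1

/-- Fast lower bound for `log q`, sound for `q > 0`. -/
def logLoF (q : ℚ) : ℚ :=
  let p := normAB q.num.toNat q.den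
  kLogLo p.2.2 + logABLo p.1 p.2.1

lemma rat_eq_toNat {q : ℚ} (hq : 0 < q) :
    0 < q.num.toNat ∧ 0 < q.den ∧ (q : ℝ) = (q.num.toNat : ℝ) / (q.den : ℝ) := by
  have h1 : 0 < q.num := Rat.num_pos.mpr hq
  have h2 : ((q.num.toNat : ℤ)) = q.num := Int.toNat_of_nonneg h1.le
  refine ⟨by omega, q.den_pos, ?_⟩
  have h3 : ((q.num.toNat : ℝ)) = ((q.num : ℤ) : ℝ) := by
    have h4 : ((q.num.toNat : ℤ) : ℝ) = ((q.num : ℤ) : ℝ) := by rw [h2]
    rw [← h4]
    push_cast
    rfl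
  rw [h3]
  exact (Rat.cast_def q)

/-- Soundness of `logHiF`. -/
theorem le_logHiF {q : ℚ} (hq : 0 < q) : Real.log (q : ℝ) ≤ ((logHiF q : ℚ) : ℝ) := by
  obtain ⟨ha, hb, hq'⟩ := rat_eq_toNat hq
  obtain ⟨h1, h2, h3⟩ := normAB_spec ha hb
  have hm : (0 : ℝ) < ((normAB q.num.toNat q.den).1 : ℝ) / ((normAB q.num.toNat q.den).2.1 : ℝ) := by
    have : (0 : ℝ) < ((normAB q.num.toNat q.den).1 : ℝ) := by exact_mod_cast h1
    have : (0 : ℝ) < ((normAB q.num.toNat q.den).2.1 : ℝ) := by exact_mod_cast h2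
    positivity
  unfold logHiF
  simp only
  rw [hq', h3, Real.log_mul hm.ne' (by positivity), Real.log_zpow]
  push_cast
  have h4 := logABHi_sound h1 h2
  have h5 := kLogHi_sound (normAB q.num.toNat q.den).2.2
  linarith

/-- Soundness of `logLoF`. -/
theorem logLoF_le {q : ℚ} (hq : 0 < q) : ((logLoF q : ℚ) : ℝ) ≤ Real.log (q : ℝ) := by
  obtain ⟨ha, hb, hq'⟩ := rat_eq_toNat hq
  obtain ⟨h1, h2, h3⟩ := normAB_spec ha hb
  have hm : (0 : ℝ) < ((normAB q.num.toNat q.den).1 : ℝ) / ((normAB q.num.toNat q.den).2.1 : ℝ) := by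
    have : (0 : ℝ) < ((normAB q.num.toNat q.den).1 : ℝ) := by exact_mod_cast h1
    have : (0 : ℝ) < ((normAB q.num.toNat q.den).2.1 : ℝ) := by exact_mod_cast h2
    positivity
  unfold logLoF
  simp only
  rw [hq', h3, Real.log_mul hm.ne' (by positivity), Real.log_zpow]
  push_cast
  have h4 := logABLo_sound h1 h2
  have h5 := kLogLo_sound (normAB q.num.toNat q.den).2.2
  linarith

/-- Fast lower bound for `psi x`, sound for `|x| ≤ 1`. -/
def psiLoF (x : ℚ) : ℚ :=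
  let a := qabs x
  if a < 1 then L2lo - (1 + a) / 2 * logHiF (1 + a) - (1 - a) / 2 * logHiF (1 - a) else 0

/-- Fast upper bound for `psi x`, sound for `|x| ≤ 1`. -/
def psiHiF (x : ℚ) : ℚ :=
  let a := qabs x
  if a < 1 then L2hi - (1 + a) / 2 * logLoF (1 + a) - (1 - a) / 2 * logLoF (1 - a) else 0

/-- Soundness of `psiLoF`. -/
theorem psiLoF_le {x : ℚ} (hx : |x| ≤ 1) : ((psiLoF x : ℚ) : ℝ) ≤ psi (x : ℝ) := by
  rw [psi_cast_abs]
  have ha : qabs x = |x| := qabs_eq x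
  have ha0 : 0 ≤ qabs x := by rw [ha]; exact abs_nonneg x
  unfold psiLoF
  simp only
  obtain ⟨a, hadef⟩ : ∃ a, a = qabs x := ⟨_, rfl⟩
  rw [← hadef] at ha0 ⊢
  split_ifs with h
  · have ha0' : (0 : ℝ) ≤ (a : ℝ) := by exact_mod_cast ha0
    have h' : (a : ℝ) < 1 := by exact_mod_cast h
    have habs : |(a : ℝ)| < 1 := by rw [abs_of_nonneg ha0']; exact h'
    rw [psi_eq_logs habs]
    have h1 := le_logHiF (q := 1 + a) (by linarith)
    have h2 := le_logHiF (q := 1 - a) (by linarith)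
    push_cast at h1 h2 ⊢
    have h3 := L2lo_le
    have h4 : (1 + (a : ℝ)) / 2 * Real.log (1 + (a : ℝ)) ≤ (1 + (a : ℝ)) / 2 * ((logHiF (1 + a) : ℚ) : ℝ) :=
      mul_le_mul_of_nonneg_left h1 (by linarith)
    have h5 : (1 - (a : ℝ)) / 2 * Real.log (1 - (a : ℝ)) ≤ (1 - (a : ℝ)) / 2 * ((logHiF (1 - a) : ℚ) : ℝ) :=
      mul_le_mul_of_nonneg_left h2 (by linarith)
    linarith
  · have ha1 : (a : ℚ) = 1 := by
      have : a ≤ 1 := by rw [hadef, ha]; exact hx
      exact le_antisymm this (not_lt.mp h)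
    rw [ha1]
    push_cast
    rw [psi_one]

/-- Soundness of `psiHiF`. -/
theorem le_psiHiF {x : ℚ} (hx : |x| ≤ 1) : psi (x : ℝ) ≤ ((psiHiF x : ℚ) : ℝ) := by
  rw [psi_cast_abs]
  have ha : qabs x = |x| := qabs_eq x
  have ha0 : 0 ≤ qabs x := by rw [ha]; exact abs_nonneg x
  unfold psiHiF
  simp only
  obtain ⟨a, hadef⟩ : ∃ a, a = qabs x := ⟨_, rfl⟩
  rw [← hadef] at ha0 ⊢
  split_ifs with h
  · have ha0' : (0 : ℝ) ≤ (a : ℝ) := by exact_mod_cast ha0
    have h' : (a : ℝ) < 1 := by exact_mod_cast h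
    have habs : |(a : ℝ)| < 1 := by rw [abs_of_nonneg ha0']; exact h'
    rw [psi_eq_logs habs]
    have h1 := logLoF_le (q := 1 + a) (by linarith)
    have h2 := logLoF_le (q := 1 - a) (by linarith)
    push_cast at h1 h2 ⊢
    have h3 := le_L2hi
    have h4 : (1 + (a : ℝ)) / 2 * ((logLoF (1 + a) : ℚ) : ℝ) ≤ (1 + (a : ℝ)) / 2 * Real.log (1 + (a : ℝ)) :=
      mul_le_mul_of_nonneg_left h1 (by linarith)
    have h5 : (1 - (a : ℝ)) / 2 * ((logLoF (1 - a) : ℚ) : ℝ) ≤ (1 - (a : ℝ)) / 2 * Real.log (1 - (a : ℝ)) :=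
      mul_le_mul_of_nonneg_left h2 (by linarith)
    linarith
  · have ha1 : (a : ℚ) = 1 := by
      have : a ≤ 1 := by rw [hadef, ha]; exact hx
      exact le_antisymm this (not_lt.mp h)
    rw [ha1]
    push_cast
    rw [psi_one]

end Vale.Agent.P322W
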