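import Vale.Agent.P322W.CertK

/-! Series bounds and the common definitions of the low-noise closure `Vstar`. -/

namespace Vale.Agent.P322W

open Real
open Vale.Agent.P322V

/-- `chat ρ = log 2 - del ρ / ρ²`. -/
noncomputable def chat (ρ : ℝ) : ℝ := Real.log 2 - del ρ / ρ ^ 2

/-- `JJ A x = psi A - (psi (A + x) + psi (A - x)) / 2`. -/
noncomputable def JJ (A x : ℝ) : ℝ := psi A - (psi (A + x) + psi (A - x)) / 2

/-- `DeltaV ρ A B = log (((1+A)² - ρ²B²) / ((1+A)² - B²))`. -/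
noncomputable def DeltaV (ρ A B : ℝ) : ℝ :=
  Real.log (((1 + A) ^ 2 - ρ ^ 2 * B ^ 2) / ((1 + A) ^ 2 - B ^ 2))

/-- `L0V A B = log (4 / ((1+A)² - B²))`. -/
noncomputable def L0V (A B : ℝ) : ℝ := Real.log (4 / ((1 + A) ^ 2 - B ^ 2))

/-- `yV = DeltaV / L0V`. -/
noncomputable def yV (ρ A B : ℝ) : ℝ := DeltaV ρ A B / L0V A B

/-- `psibar A B = (psi (A+B) + psi (A-B)) / 2`. -/
noncomputable def psibar (A B : ℝ) : ℝ := (psi (A + B) + psi (A - B)) / 2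

/-- `XV = psibar - chat (1 - A² - B²)`. -/
noncomputable def XV (ρ A B : ℝ) : ℝ := psibar A B - chat ρ * (1 - A ^ 2 - B ^ 2)

/-- `DhV = JJ A B - JJ A (ρ B) / ρ²`. -/
noncomputable def DhV (ρ A B : ℝ) : ℝ := JJ A B - JJ A (ρ * B) / ρ ^ 2

/-- The closure quantity. -/
noncomputable def Vstar (ρ A B : ℝ) : ℝ := yV ρ A B * XV ρ A B + DhV ρ A B - chat ρ * B ^ 2

lemma del_neg (x : ℝ) : del (-x) = del x := by
  unfold del
  rw [psi_neg]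

lemma del_closed_form {x : ℝ} (hx : |x| < 1) :
    del x = (1 / 2) * Real.log (1 - x ^ 2) + (1 / 2) * x * (Real.log (1 + x) - Real.log (1 - x)) := by
  have hx' := abs_lt.mp hx
  have h1 : (1 + x) ≠ 0 := by linarith
  have h2 : (1 - x) ≠ 0 := by linarith
  have e : (1 - x ^ 2) = (1 + x) * (1 - x) := by ring
  rw [e, Real.log_mul h1 h2]
  unfold del
  rw [psi_eq_negMulLog]
  unfold Real.negMulLog
  have h3 : Real.log ((1 + x) / 2) = Real.log (1 + x) - Real.log 2 :=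
    Real.log_div h1 (by norm_num)
  have h4 : Real.log ((1 - x) / 2) = Real.log (1 - x) - Real.log 2 :=
    Real.log_div h2 (by norm_num)
  rw [h3, h4]
  ring

/-- Series of `del`. -/
lemma del_hasSum {x : ℝ} (hx : |x| < 1) :
    HasSum (fun k : ℕ => x ^ (2 * k + 2) / ((2 * k + 1) * (2 * k + 2))) (del x) := by
  have hx2 : |x ^ 2| < 1 := by
    rw [abs_pow]
    exact pow_lt_one₀ (abs_nonneg _) hx (by norm_num)
  have h1 := Real.hasSum_pow_div_log_of_abs_lt_one hx2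
  have h2 := Real.hasSum_log_sub_log_of_abs_lt_one hx
  have h3 := (h1.mul_left (-(1 / 2 : ℝ))).add (h2.mul_left ((1 / 2) * x))
  have e : -(1 / 2 : ℝ) * -Real.log (1 - x ^ 2) + (1 / 2) * x * (Real.log (1 + x) - Real.log (1 - x))
      = del x := by
    rw [del_closed_form hx]
    ring
  rw [e] at h3
  have hf : (fun k : ℕ => x ^ (2 * k + 2) / ((2 * (k : ℝ) + 1) * (2 * k + 2)))
      = fun k : ℕ => -(1 / 2 : ℝ) * ((x ^ 2) ^ (k + 1) / ((k : ℝ) + 1))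
          + (1 / 2) * x * (2 * (1 / (2 * (k : ℝ) + 1)) * x ^ (2 * k + 1)) := by
    funext k
    have hk1 : (2 * (k : ℝ) + 1) ≠ 0 := by positivity
    have hk2 : (2 * (k : ℝ) + 2) ≠ 0 := by positivity
    have hk3 : ((k : ℝ) + 1) ≠ 0 := by positivity
    have p1 : (x ^ 2) ^ (k + 1) = x ^ (2 * k + 2) := by ring
    have p2 : x * x ^ (2 * k + 1) = x ^ (2 * k + 2) := by ring
    rw [p1]
    have p3 : (1 / 2 : ℝ) * x * (2 * (1 / (2 * (k : ℝ) + 1)) * x ^ (2 * k + 1))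
        = x ^ (2 * k + 2) * (1 / (2 * (k : ℝ) + 1)) := by
      rw [← p2]; ring
    rw [p3]
    have hk4 : (2 * (k : ℝ) + 2) = 2 * ((k : ℝ) + 1) := by ring
    rw [hk4]
    field_simp
    ring
  rw [hf]
  exact h3

/-- `del x ≥ x²/2 + x⁴/12` for `|x| ≤ 1`. -/
lemma del_ge {x : ℝ} (hx : |x| ≤ 1) : x ^ 2 / 2 + x ^ 4 / 12 ≤ del x := by
  rcases lt_or_eq_of_le hx with h | h
  · have hs := del_hasSum h
    have h0 : ∀ k ∉ Finset.range 2, 0 ≤ x ^ (2 * k + 2) / ((2 * (k : ℝ) + 1) * (2 * k + 2)) := by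
      intro k _
      have : 0 ≤ x ^ (2 * k + 2) := by
        have e : x ^ (2 * k + 2) = (x ^ (k + 1)) ^ 2 := by ring
        rw [e]; positivity
      positivity
    have h1 := sum_le_hasSum (Finset.range 2) h0 hs
    simp only [Finset.sum_range_succ, Finset.sum_range_zero] at h1
    norm_num at h1
    linarith
  · have h2 : x ^ 2 = 1 := by
      rw [← sq_abs, h]; norm_num
    have h4 : x ^ 4 = 1 := by
      have : x ^ 4 = (x ^ 2) ^ 2 := by ring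
      rw [this, h2]; norm_num
    have hp : psi x = 0 := by
      rcases (abs_eq (by norm_num : (0 : ℝ) ≤ 1)).mp h with h | h
      · rw [h]; exact psi_one
      · rw [h]; exact psi_neg_one
    unfold del
    rw [hp, h2, h4]
    have := Real.log_two_gt_d9
    norm_num at this ⊢
    linarith

/-- On the open interval: the series comparison of `del u` and `del (ρ u) / ρ²`. -/
lemma del_sub_hasSum {ρ u : ℝ} (hρ0 : 0 < ρ) (hρ1 : ρ < 1) (hu : |u| < 1) :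
    HasSum (fun k : ℕ => u ^ (2 * k + 2) * (1 - (ρ ^ 2) ^ k) / ((2 * k + 1) * (2 * k + 2)))
      (del u - del (ρ * u) / ρ ^ 2) := by
  have hρu : |ρ * u| < 1 := by
    rw [abs_mul, abs_of_pos hρ0]
    nlinarith [abs_nonneg u]
  have h1 := del_hasSum hu
  have h2 := (del_hasSum hρu).div_const (ρ ^ 2)
  have h3 := h1.sub h2
  have hf : (fun k : ℕ => u ^ (2 * k + 2) * (1 - (ρ ^ 2) ^ k) / ((2 * (k : ℝ) + 1) * (2 * k + 2)))
      = fun k : ℕ => u ^ (2 * k + 2) / ((2 * (k : ℝ) + 1) * (2 * k + 2))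
          - (ρ * u) ^ (2 * k + 2) / ((2 * (k : ℝ) + 1) * (2 * k + 2)) / ρ ^ 2 := by
    funext k
    have hk1 : (2 * (k : ℝ) + 1) ≠ 0 := by positivity
    have hk2 : (2 * (k : ℝ) + 2) ≠ 0 := by positivity
    have hρ2 : ρ ^ 2 ≠ 0 := by positivity
    have e : (ρ * u) ^ (2 * k + 2) = (ρ ^ 2) ^ k * ρ ^ 2 * u ^ (2 * k + 2) := by
      rw [mul_pow]; ring
    rw [e]
    field_simp
  rw [hf]
  exact h3

/-- `del (ρ u) / ρ²` vs `del u`. -/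
lemma del_sub_ge {ρ u : ℝ} (hρ0 : 0 < ρ) (hρ1 : ρ < 1) (hu : |u| ≤ 1) :
    (1 - ρ ^ 2) * u ^ 4 / 12 + (1 - (ρ ^ 2) ^ 2) * u ^ 6 / 30 ≤ del u - del (ρ * u) / ρ ^ 2 := by
  have hopen : ∀ v : ℝ, |v| < 1 →
      (1 - ρ ^ 2) * v ^ 4 / 12 + (1 - (ρ ^ 2) ^ 2) * v ^ 6 / 30 ≤ del v - del (ρ * v) / ρ ^ 2 := by
    intro v hv
    have hs := del_sub_hasSum hρ0 hρ1 hv
    have h0 : ∀ k ∉ Finset.range 3,
        0 ≤ v ^ (2 * k + 2) * (1 - (ρ ^ 2) ^ k) / ((2 * (k : ℝ) + 1) * (2 * k + 2)) := by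
      intro k _
      have h1 : 0 ≤ v ^ (2 * k + 2) := by
        have e : v ^ (2 * k + 2) = (v ^ (k + 1)) ^ 2 := by ring
        rw [e]; positivity
      have h2 : (ρ ^ 2) ^ k ≤ 1 := pow_le_one₀ (by positivity) (by nlinarith)
      have h3 : 0 ≤ 1 - (ρ ^ 2) ^ k := by linarith
      positivity
    have h1 := sum_le_hasSum (Finset.range 3) h0 hs
    simp only [Finset.sum_range_succ, Finset.sum_range_zero] at h1
    norm_num at h1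
    linarith
  rcases lt_or_eq_of_le hu with h | h
  · exact hopen u h
  · -- closure argument
    have hcl : IsClosed {v : ℝ | (1 - ρ ^ 2) * v ^ 4 / 12 + (1 - (ρ ^ 2) ^ 2) * v ^ 6 / 30
        ≤ del v - del (ρ * v) / ρ ^ 2} := by
      apply isClosed_le
      · fun_prop
      · have := continuous_del
        fun_prop
    have hsub : Set.Ioo (-1 : ℝ) 1 ⊆ {v : ℝ | (1 - ρ ^ 2) * v ^ 4 / 12 + (1 - (ρ ^ 2) ^ 2) * v ^ 6 / 30
        ≤ del v - del (ρ * v) / ρ ^ 2} := by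
      intro v hv
      exact hopen v (abs_lt.mpr hv)
    have hc := closure_minimal hsub hcl
    rw [closure_Ioo (by norm_num : (-1 : ℝ) ≠ 1)] at hc
    exact hc (abs_le.mp hu)

/-- Series of `del x / x²`, monotonicity. -/
lemma del_div_mono {a b : ℝ} (h0 : 0 < a) (h01 : a ≤ b) (h1 : b < 1) :
    del a / a ^ 2 ≤ del b / b ^ 2 := by
  have hb0 : 0 < b := lt_of_lt_of_le h0 h01
  have ha' : |a| < 1 := by rw [abs_of_pos h0]; linarith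
  have hb' : |b| < 1 := by rw [abs_of_pos hb0]; exact h1
  have h2 := (del_hasSum ha').div_const (a ^ 2)
  have h3 := (del_hasSum hb').div_const (b ^ 2)
  refine hasSum_le (fun k => ?_) h2 h3
  have hk : (0 : ℝ) < (2 * (k : ℝ) + 1) * (2 * k + 2) := by positivity
  have e1 : a ^ (2 * k + 2) / ((2 * (k : ℝ) + 1) * (2 * k + 2)) / a ^ 2
      = (a ^ 2) ^ k / ((2 * (k : ℝ) + 1) * (2 * k + 2)) := by
    have : a ^ (2 * k + 2) = (a ^ 2) ^ k * a ^ 2 := by ring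
    rw [this]
    field_simp
  have e2 : b ^ (2 * k + 2) / ((2 * (k : ℝ) + 1) * (2 * k + 2)) / b ^ 2
      = (b ^ 2) ^ k / ((2 * (k : ℝ) + 1) * (2 * k + 2)) := by
    have : b ^ (2 * k + 2) = (b ^ 2) ^ k * b ^ 2 := by ring
    rw [this]
    field_simp
  rw [e1, e2]
  apply div_le_div_of_nonneg_right _ hk.le
  apply pow_le_pow_left₀ (by positivity)
  nlinarith

/-- `chat` is antitone. -/
lemma chat_anti {ρ₀ ρ₁ : ℝ} (h0 : 0 < ρ₀) (h01 : ρ₀ ≤ ρ₁) (h1 : ρ₁ < 1) : chat ρ₁ ≤ chat ρ₀ := by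
  unfold chat
  have := del_div_mono h0 h01 h1
  linarith

/-- `chat ρ ≤ log 2 - 1/2 - ρ²/12`. -/
lemma chat_le {ρ : ℝ} (h0 : 0 < ρ) (h1 : ρ < 1) : chat ρ ≤ Real.log 2 - 1 / 2 - ρ ^ 2 / 12 := by
  unfold chat
  have h2 := del_ge (x := ρ) (by rw [abs_of_pos h0]; exact h1.le)
  have h3 : 1 / 2 + ρ ^ 2 / 12 ≤ del ρ / ρ ^ 2 := by
    rw [le_div_iff₀ (by positivity)]
    nlinarith
  linarith

/-- `chat ρ ≥ 0`; indeed `del ρ / ρ² ≤ log 2`. -/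
lemma chat_nonneg {ρ : ℝ} (h0 : 0 < ρ) (h1 : ρ < 1) : 0 ≤ chat ρ := by
  unfold chat del
  have h2 := D_mul_le (ρ := ρ) (p := 1) h0.le h1.le (by norm_num)
  rw [mul_one, psi_one, sub_zero] at h2
  have h3 : (Real.log 2 - psi ρ) / ρ ^ 2 ≤ Real.log 2 := by
    rw [div_le_iff₀ (by positivity)]
    linarith
  linarith

/-- Two terms of the series of `log ((1 - r v) / (1 - v))`. -/
lemma log_ratio_ge {r v : ℝ} (hr0 : 0 ≤ r) (hr1 : r ≤ 1) (hv0 : 0 ≤ v) (hv1 : v < 1) :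
    (1 - r) * v + (1 - r ^ 2) * v ^ 2 / 2 ≤ Real.log ((1 - r * v) / (1 - v)) := by
  have hrv : r * v ≤ v := by nlinarith
  have h1v : 0 < 1 - v := by linarith
  have h1r : 0 < 1 - r * v := by linarith
  have hv' : |v| < 1 := by rw [abs_of_nonneg hv0]; exact hv1
  have hrv' : |r * v| < 1 := by
    rw [abs_of_nonneg (mul_nonneg hr0 hv0)]; linarith
  have h1 := Real.hasSum_pow_div_log_of_abs_lt_one hv'
  have h2 := Real.hasSum_pow_div_log_of_abs_lt_one hrv'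
  have h3 := h1.sub h2
  have e : -Real.log (1 - v) - -Real.log (1 - r * v) = Real.log ((1 - r * v) / (1 - v)) := by
    rw [Real.log_div h1r.ne' h1v.ne']; ring
  rw [e] at h3
  have h0 : ∀ k ∉ Finset.range 2,
      0 ≤ v ^ (k + 1) / ((k : ℝ) + 1) - (r * v) ^ (k + 1) / ((k : ℝ) + 1) := by
    intro k _
    have : (r * v) ^ (k + 1) ≤ v ^ (k + 1) := pow_le_pow_left₀ (by positivity) hrv _
    have hk : (0 : ℝ) < (k : ℝ) + 1 := by positivity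
    have h4 := div_le_div_of_nonneg_right this hk.le
    linarith
  have h4 := sum_le_hasSum (Finset.range 2) h0 h3
  simp only [Finset.sum_range_succ, Finset.sum_range_zero] at h4
  norm_num at h4
  nlinarith [h4]

/-- Lower bound on `DeltaV`, with `X' = B²/(1+A)²`. -/
lemma DeltaV_ge {ρ A B : ℝ} (hρ0 : 0 < ρ) (hρ1 : ρ < 1) (hA : 0 ≤ A) (hB0 : 0 < B) (hB1 : A + B ≤ 1)
    (hB2 : B < 1) :
    B ^ 2 * ((1 - ρ ^ 2) + (1 - (ρ ^ 2) ^ 2) * (B ^ 2 / (1 + A) ^ 2) / 2) / (1 + A) ^ 2 ≤ DeltaV ρ A B := by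
  have hS : 0 < (1 + A) ^ 2 := by positivity
  have hSB : B ^ 2 < (1 + A) ^ 2 := by nlinarith
  set v := B ^ 2 / (1 + A) ^ 2 with hv
  have hv0 : 0 ≤ v := by positivity
  have hv1 : v < 1 := by
    rw [hv, div_lt_one hS]; exact hSB
  have h := log_ratio_ge (r := ρ ^ 2) (v := v) (by positivity) (by nlinarith) hv0 hv1
  have e1 : ((1 + A) ^ 2 - ρ ^ 2 * B ^ 2) / ((1 + A) ^ 2 - B ^ 2) = (1 - ρ ^ 2 * v) / (1 - v) := by
    have h1 : (1 + A) ^ 2 - B ^ 2 ≠ 0 := by linarith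
    have h2 : 1 - v ≠ 0 := by linarith
    rw [hv] at h2 ⊢
    have h3 : (1 + A) ^ 2 ≠ 0 := hS.ne'
    field_simp
  unfold DeltaV
  rw [e1]
  refine le_trans (le_of_eq ?_) h
  rw [hv]
  field_simp

/-- `L0V` is positive. -/
lemma L0V_pos {A B : ℝ} (hA : 0 ≤ A) (hB0 : 0 < B) (hB1 : A + B ≤ 1) (hB2 : B < 1) : 0 < L0V A B := by
  have hSB : 0 < (1 + A) ^ 2 - B ^ 2 := by nlinarith
  have h4 : (1 + A) ^ 2 - B ^ 2 < 4 := by nlinarith
  unfold L0V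
  apply Real.log_pos
  rw [lt_div_iff₀ hSB]
  linarith

/-- `JJ` through the chain rule. -/
lemma JJ_eq {A x : ℝ} (h0 : -1 < A) (h1 : A < 1) :
    JJ A x = (1 + A) / 2 * del (x / (1 + A)) + (1 - A) / 2 * del (x / (1 - A)) := by
  unfold JJ del
  rw [phi_identity h0 h1]
  ring

/-- Lower bound on `DhV`. -/
lemma DhV_ge {ρ A B : ℝ} (hρ0 : 0 < ρ) (hρ1 : ρ < 1) (hA : 0 ≤ A) (hB0 : 0 < B) (hB1 : A + B ≤ 1) :
    (1 - ρ ^ 2) * B ^ 4 / 24 * (((1 + A) ^ 3)⁻¹ + ((1 - A) ^ 3)⁻¹)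
      + (1 - (ρ ^ 2) ^ 2) * B ^ 6 / 60 * (((1 + A) ^ 5)⁻¹ + ((1 - A) ^ 5)⁻¹) ≤ DhV ρ A B := by
  have hA1 : A < 1 := by linarith
  have hP : 0 < 1 + A := by linarith
  have hQ : 0 < 1 - A := by linarith
  have hu : |B / (1 + A)| ≤ 1 := by
    rw [abs_of_pos (by positivity), div_le_one hP]; linarith
  have hv : |B / (1 - A)| ≤ 1 := by
    rw [abs_of_pos (by positivity), div_le_one hQ]; linarith
  have h1 := del_sub_ge hρ0 hρ1 hu
  have h2 := del_sub_ge hρ0 hρ1 hv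
  have h1' := mul_le_mul_of_nonneg_left h1 (by positivity : 0 ≤ (1 + A) / 2)
  have h2' := mul_le_mul_of_nonneg_left h2 (by positivity : 0 ≤ (1 - A) / 2)
  unfold DhV
  rw [JJ_eq (by linarith) hA1, JJ_eq (x := ρ * B) (by linarith) hA1]
  have e1 : ρ * B / (1 + A) = ρ * (B / (1 + A)) := by ring
  have e2 : ρ * B / (1 - A) = ρ * (B / (1 - A)) := by ring
  rw [e1, e2]
  have e3 : (1 + A) / 2 * ((1 - ρ ^ 2) * (B / (1 + A)) ^ 4 / 12 + (1 - (ρ ^ 2) ^ 2) * (B / (1 + A)) ^ 6 / 30)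
      = (1 - ρ ^ 2) * B ^ 4 / 24 * ((1 + A) ^ 3)⁻¹ + (1 - (ρ ^ 2) ^ 2) * B ^ 6 / 60 * ((1 + A) ^ 5)⁻¹ := by
    field_simp
    ring
  have e4 : (1 - A) / 2 * ((1 - ρ ^ 2) * (B / (1 - A)) ^ 4 / 12 + (1 - (ρ ^ 2) ^ 2) * (B / (1 - A)) ^ 6 / 30)
      = (1 - ρ ^ 2) * B ^ 4 / 24 * ((1 - A) ^ 3)⁻¹ + (1 - (ρ ^ 2) ^ 2) * B ^ 6 / 60 * ((1 - A) ^ 5)⁻¹ := by
    field_simp
    ring
  rw [e3] at h1'
  rw [e4] at h2'
  have e5 : (1 + A) / 2 * del (B / (1 + A)) + (1 - A) / 2 * del (B / (1 - A))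
      - ((1 + A) / 2 * del (ρ * (B / (1 + A))) + (1 - A) / 2 * del (ρ * (B / (1 - A)))) / ρ ^ 2
      = (1 + A) / 2 * (del (B / (1 + A)) - del (ρ * (B / (1 + A))) / ρ ^ 2)
        + (1 - A) / 2 * (del (B / (1 - A)) - del (ρ * (B / (1 - A))) / ρ ^ 2) := by
    field_simp
    ring
  rw [e5]
  nlinarith [h1', h2']

/-- Regular form: abstract lower bounds imply `Vstar ≥ 0`. -/
theorem Vstar_nonneg_of_bounds {ρ A B dl X' D cb Lb : ℝ} (hq : 0 ≤ 1 - A ^ 2 - B ^ 2)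
    (hL0 : 0 < L0V A B) (hLb : L0V A B ≤ Lb) (hdl0 : 0 ≤ dl) (hdl : B ^ 2 * dl ≤ DeltaV ρ A B)
    (hX0 : 0 ≤ X') (hX : X' ≤ psibar A B - cb * (1 - A ^ 2 - B ^ 2)) (hcb : chat ρ ≤ cb)
    (hD : B ^ 2 * D ≤ DhV ρ A B) (hcheck : 0 ≤ dl * X' + (D - cb) * Lb) : 0 ≤ Vstar ρ A B := by
  have hLb0 : 0 < Lb := lt_of_lt_of_le hL0 hLb
  have hB2 : 0 ≤ B ^ 2 := by positivity
  have h1 : X' ≤ XV ρ A B := by
    unfold XV
    nlinarith
  have h2 : B ^ 2 * dl / Lb ≤ yV ρ A B := by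
    unfold yV
    calc B ^ 2 * dl / Lb ≤ B ^ 2 * dl / L0V A B :=
          div_le_div_of_nonneg_left (by positivity) hL0 hLb
      _ ≤ DeltaV ρ A B / L0V A B := div_le_div_of_nonneg_right hdl hL0.le
  have h3 : B ^ 2 * dl / Lb * X' ≤ yV ρ A B * XV ρ A B :=
    mul_le_mul h2 h1 hX0 (le_trans (by positivity) h2)
  have h4 : chat ρ * B ^ 2 ≤ cb * B ^ 2 := mul_le_mul_of_nonneg_right hcb hB2
  have h5 : 0 ≤ B ^ 2 / Lb * (dl * X' + (D - cb) * Lb) := by positivity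
  have e : B ^ 2 / Lb * (dl * X' + (D - cb) * Lb) = B ^ 2 * dl / Lb * X' + B ^ 2 * D - cb * B ^ 2 := by
    field_simp
    ring
  rw [e] at h5
  unfold Vstar
  linarith

/-- Cell form of the soundness: the rational check on a cell implies `Vstar ≥ 0` at every point of the cell. -/
theorem Vstar_nonneg_of_cell {ρ A B A1 A2 B1 B2 rb cb p1 p2 Lb : ℝ}
    (hρ0 : 0 < ρ) (hρ1 : ρ < 1) (hr : ρ ^ 2 ≤ rb) (hrb : rb ≤ 1) (hcb : chat ρ ≤ cb) (hcb0 : 0 ≤ cb)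
    (hA1 : 0 ≤ A1) (hAl : A1 ≤ A) (hAu : A ≤ A2) (hA2 : A2 ≤ 1) (hB1 : 0 ≤ B1) (hB0 : 0 < B) (hBl : B1 ≤ B) (hBu : B ≤ B2)
    (hB2 : B2 < 1) (hAB : A + B ≤ 1)
    (hp1 : p1 ≤ psi (min 1 (A2 + B2))) (hp2 : p2 ≤ psi (max |A1 - B2| |A2 - B1|))
    (hLb : Real.log (4 / ((1 + A1) ^ 2 - B2 ^ 2)) ≤ Lb)
    (hX : 0 ≤ (p1 + p2) / 2 - cb * (1 - A1 ^ 2 - B1 ^ 2))
    (hcheck : 0 ≤ ((1 - rb) + (1 - rb ^ 2) * (B1 ^ 2 / (1 + A2) ^ 2) / 2) / (1 + A2) ^ 2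
          * ((p1 + p2) / 2 - cb * (1 - A1 ^ 2 - B1 ^ 2))
        + ((1 - rb) * B1 ^ 2 / 24 * (((1 + A2) ^ 3)⁻¹ + ((1 - A1) ^ 3)⁻¹)
            + (1 - rb ^ 2) * B1 ^ 4 / 60 * (((1 + A2) ^ 5)⁻¹ + ((1 - A1) ^ 5)⁻¹) - cb) * Lb) :
    0 ≤ Vstar ρ A B := by
  have hA : 0 ≤ A := le_trans hA1 hAl
  have hB : 0 < B := hB0
  have hB' : B < 1 := lt_of_le_of_lt hBu hB2
  have hA' : A < 1 := by linarith
  have hr0 : 0 ≤ ρ ^ 2 := by positivity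
  have hrb0 : 0 ≤ rb := le_trans hr0 hr
  have hq : 0 ≤ 1 - A ^ 2 - B ^ 2 := by
    have h1 : (A + B) ^ 2 ≤ 1 := by
      have : 0 ≤ A + B := by positivity
      nlinarith
    nlinarith [mul_nonneg hA hB.le]
  have hq2 : 1 - A ^ 2 - B ^ 2 ≤ 1 - A1 ^ 2 - B1 ^ 2 := by
    have h1 := pow_le_pow_left₀ hA1 hAl 2
    have h2 := pow_le_pow_left₀ hB1 hBl 2
    linarith
  have hL0 := L0V_pos hA hB hAB hB'
  -- the logarithm
  have hLb' : L0V A B ≤ Lb := by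
    refine le_trans ?_ hLb
    unfold L0V
    have h0' : (1 : ℝ) ≤ 1 + A1 := by linarith
    have h1 : 0 < (1 + A1) ^ 2 - B2 ^ 2 := by
      have h3 : B2 ^ 2 < 1 ^ 2 := pow_lt_pow_left₀ hB2 (by linarith) (by norm_num)
      have h4 : (1 : ℝ) ^ 2 ≤ (1 + A1) ^ 2 := pow_le_pow_left₀ (by norm_num) h0' 2
      linarith
    have h2 : (1 + A1) ^ 2 - B2 ^ 2 ≤ (1 + A) ^ 2 - B ^ 2 := by
      have h3 : (1 + A1) ^ 2 ≤ (1 + A) ^ 2 := pow_le_pow_left₀ (by linarith) (by linarith) 2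
      have h4 : B ^ 2 ≤ B2 ^ 2 := pow_le_pow_left₀ hB.le hBu 2
      linarith
    exact Real.log_le_log (div_pos (by norm_num) (lt_of_lt_of_le h1 h2))
      (div_le_div_of_nonneg_left (by norm_num) h1 h2)
  -- entropies
  have hpsi1 : p1 ≤ psi (A + B) := by
    refine le_trans hp1 (psi_anti (by positivity) ?_ (min_le_left _ _))
    exact le_min hAB (by linarith)
  have hpsi2 : p2 ≤ psi (A - B) := by
    refine le_trans hp2 ?_
    have e : psi (A - B) = psi |A - B| := by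
      rcases abs_cases (A - B) with ⟨h, _⟩ | ⟨h, _⟩
      · rw [h]
      · rw [h, psi_neg]
    rw [e]
    refine psi_anti (abs_nonneg _) ?_ ?_
    · rcases abs_cases (A - B) with ⟨h, _⟩ | ⟨h, _⟩
      · rw [h]
        exact le_trans (by linarith) (le_trans (le_abs_self _) (le_max_right _ _))
      · rw [h]
        refine le_trans ?_ (le_trans (neg_le_abs _) (le_max_left _ _))
        linarith
    · have hB2' : 0 < B2 := by linarith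
      have hA2' : 0 ≤ A2 := by linarith
      refine max_le ?_ ?_
      · rw [abs_le]; constructor <;> linarith
      · rw [abs_le]; constructor <;> linarith
  have hX2 : (p1 + p2) / 2 - cb * (1 - A1 ^ 2 - B1 ^ 2) ≤ psibar A B - cb * (1 - A ^ 2 - B ^ 2) := by
    unfold psibar
    have : cb * (1 - A ^ 2 - B ^ 2) ≤ cb * (1 - A1 ^ 2 - B1 ^ 2) := mul_le_mul_of_nonneg_left hq2 hcb0
    linarith
  -- the factors
  have hP : 0 < 1 + A := by linarith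
  have hP2 : 0 < 1 + A2 := by linarith
  have hPle : 1 + A ≤ 1 + A2 := by linarith
  have hQ : 0 < 1 - A := by linarith
  have hQle : 1 - A ≤ 1 - A1 := by linarith
  have hr2 : (ρ ^ 2) ^ 2 ≤ rb ^ 2 := pow_le_pow_left₀ hr0 hr 2
  have h1r : 0 ≤ 1 - rb := by linarith
  have h1r2 : 0 ≤ 1 - rb ^ 2 := by
    have := pow_le_one₀ hrb0 hrb (n := 2)
    linarith
  have hsq : B1 ^ 2 ≤ B ^ 2 := pow_le_pow_left₀ hB1 hBl 2
  have hX' : B1 ^ 2 / (1 + A2) ^ 2 ≤ B ^ 2 / (1 + A) ^ 2 :=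
    div_le_div₀ (by positivity) hsq (by positivity) (pow_le_pow_left₀ hP.le hPle 2)
  have hinv2 : 1 / (1 + A2) ^ 2 ≤ 1 / (1 + A) ^ 2 :=
    one_div_le_one_div_of_le (by positivity) (pow_le_pow_left₀ hP.le hPle 2)
  have hdl : B ^ 2 * (((1 - rb) + (1 - rb ^ 2) * (B1 ^ 2 / (1 + A2) ^ 2) / 2) / (1 + A2) ^ 2)
      ≤ DeltaV ρ A B := by
    refine le_trans ?_ (DeltaV_ge hρ0 hρ1 hA hB hAB hB')
    have h3 : (1 - rb) + (1 - rb ^ 2) * (B1 ^ 2 / (1 + A2) ^ 2) / 2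
        ≤ (1 - ρ ^ 2) + (1 - (ρ ^ 2) ^ 2) * (B ^ 2 / (1 + A) ^ 2) / 2 := by
      have h4 : (1 - rb ^ 2) * (B1 ^ 2 / (1 + A2) ^ 2) ≤ (1 - (ρ ^ 2) ^ 2) * (B ^ 2 / (1 + A) ^ 2) :=
        mul_le_mul (by linarith) hX' (by positivity) (by linarith)
      linarith
    have h5 : ((1 - rb) + (1 - rb ^ 2) * (B1 ^ 2 / (1 + A2) ^ 2) / 2) / (1 + A2) ^ 2
        ≤ ((1 - ρ ^ 2) + (1 - (ρ ^ 2) ^ 2) * (B ^ 2 / (1 + A) ^ 2) / 2) / (1 + A) ^ 2 :=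
      div_le_div₀ (le_trans (by positivity) h3) h3 (by positivity) (pow_le_pow_left₀ hP.le hPle 2)
    have e : B ^ 2 * ((1 - ρ ^ 2) + (1 - (ρ ^ 2) ^ 2) * (B ^ 2 / (1 + A) ^ 2) / 2) / (1 + A) ^ 2
        = B ^ 2 * (((1 - ρ ^ 2) + (1 - (ρ ^ 2) ^ 2) * (B ^ 2 / (1 + A) ^ 2) / 2) / (1 + A) ^ 2) := by ring
    rw [e]
    exact mul_le_mul_of_nonneg_left h5 (by positivity)
  have hinv3a : ((1 + A2) ^ 3)⁻¹ ≤ ((1 + A) ^ 3)⁻¹ :=
    inv_anti₀ (by positivity) (pow_le_pow_left₀ hP.le hPle 3)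
  have hinv3b : ((1 - A1) ^ 3)⁻¹ ≤ ((1 - A) ^ 3)⁻¹ :=
    inv_anti₀ (by positivity) (pow_le_pow_left₀ hQ.le hQle 3)
  have hinv5a : ((1 + A2) ^ 5)⁻¹ ≤ ((1 + A) ^ 5)⁻¹ :=
    inv_anti₀ (by positivity) (pow_le_pow_left₀ hP.le hPle 5)
  have hinv5b : ((1 - A1) ^ 5)⁻¹ ≤ ((1 - A) ^ 5)⁻¹ :=
    inv_anti₀ (by positivity) (pow_le_pow_left₀ hQ.le hQle 5)
  have hQ1 : 0 < 1 - A1 := by linarith
  have hD : B ^ 2 * ((1 - rb) * B1 ^ 2 / 24 * (((1 + A2) ^ 3)⁻¹ + ((1 - A1) ^ 3)⁻¹)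
      + (1 - rb ^ 2) * B1 ^ 4 / 60 * (((1 + A2) ^ 5)⁻¹ + ((1 - A1) ^ 5)⁻¹)) ≤ DhV ρ A B := by
    refine le_trans ?_ (DhV_ge hρ0 hρ1 hA hB hAB)
    have hB4 : B ^ 2 * B1 ^ 2 ≤ B ^ 4 := by
      have : B ^ 4 = B ^ 2 * B ^ 2 := by ring
      rw [this]
      exact mul_le_mul_of_nonneg_left hsq (by positivity)
    have hB6 : B ^ 2 * B1 ^ 4 ≤ B ^ 6 := by
      have h6 : B1 ^ 4 ≤ B ^ 4 := pow_le_pow_left₀ hB1 hBl 4
      have : B ^ 6 = B ^ 2 * B ^ 4 := by ring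
      rw [this]
      exact mul_le_mul_of_nonneg_left h6 (by positivity)
    have t1 : B ^ 2 * ((1 - rb) * B1 ^ 2 / 24 * (((1 + A2) ^ 3)⁻¹ + ((1 - A1) ^ 3)⁻¹))
        ≤ (1 - ρ ^ 2) * B ^ 4 / 24 * (((1 + A) ^ 3)⁻¹ + ((1 - A) ^ 3)⁻¹) := by
      have e : B ^ 2 * ((1 - rb) * B1 ^ 2 / 24 * (((1 + A2) ^ 3)⁻¹ + ((1 - A1) ^ 3)⁻¹))
          = (1 - rb) * (B ^ 2 * B1 ^ 2) / 24 * (((1 + A2) ^ 3)⁻¹ + ((1 - A1) ^ 3)⁻¹) := by ring
      rw [e]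
      refine mul_le_mul ?_ (by linarith) (by positivity) ?_
      · apply div_le_div_of_nonneg_right _ (by norm_num)
        exact mul_le_mul (by linarith) hB4 (by positivity) (by linarith)
      · have : 0 ≤ 1 - ρ ^ 2 := by linarith
        positivity
    have t2 : B ^ 2 * ((1 - rb ^ 2) * B1 ^ 4 / 60 * (((1 + A2) ^ 5)⁻¹ + ((1 - A1) ^ 5)⁻¹))
        ≤ (1 - (ρ ^ 2) ^ 2) * B ^ 6 / 60 * (((1 + A) ^ 5)⁻¹ + ((1 - A) ^ 5)⁻¹) := by
      have e : B ^ 2 * ((1 - rb ^ 2) * B1 ^ 4 / 60 * (((1 + A2) ^ 5)⁻¹ + ((1 - A1) ^ 5)⁻¹))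
          = (1 - rb ^ 2) * (B ^ 2 * B1 ^ 4) / 60 * (((1 + A2) ^ 5)⁻¹ + ((1 - A1) ^ 5)⁻¹) := by ring
      rw [e]
      refine mul_le_mul ?_ (by linarith) (by positivity) ?_
      · apply div_le_div_of_nonneg_right _ (by norm_num)
        exact mul_le_mul (by linarith) hB6 (by positivity) (by linarith)
      · have : 0 ≤ 1 - (ρ ^ 2) ^ 2 := by linarith
        positivity
    rw [mul_add]
    exact add_le_add t1 t2
  have hL0' : 0 < L0V A B := hL0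
  refine Vstar_nonneg_of_bounds hq hL0' hLb' ?_ hdl hX hX2 hcb hD hcheck
  positivity

end Vale.Agent.P322W
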